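import Vale.Agent.P013.Kernel

/-!
# P013: two weights contracted by the limiting recursion

The recursion shrinks the pair `wUp`, `wLow` by the factor `19 / 20`; hence the deficits decay
geometrically, uniformly in the number of sifted primes.
-/

namespace Vale.Agent.P013

open MeasureTheory intervalIntegral Set

/-- The weight for lower deficits. -/
noncomputable def wLow (x : ℝ) : ℝ := Real.exp (-(6 / 5 * x))

/-- The weight for upper deficits. -/
noncomputable def wUp (x : ℝ) : ℝ :=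
  if x < 2 then 50 / 57 * Real.exp (-(12 / 5))
  else if x < 3 then 25 / 57 * Real.exp (-(12 / 5)) else wLow x

theorem wLow_pos (x : ℝ) : 0 < wLow x := Real.exp_pos _

theorem wLow_anti : Antitone wLow := fun x y h => Real.exp_le_exp.2 (by linarith)

theorem exp_small :
    Real.exp (-(6 / 5)) ≤ 0.302 ∧ 0.74 ≤ Real.exp (-(3 / 10)) ∧ 0.405 ≤ Real.exp (-(9 / 10)) ∧
      0.22 ≤ Real.exp (-(3 / 2)) ∧ 0.121 ≤ Real.exp (-(21 / 10)) ∧ Real.exp (6 / 5) ≤ 3.4 := by
  have hlo : (1.3495 : ℝ) ≤ Real.exp (3 / 10) := by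
    have h := Real.sum_le_exp_of_nonneg (x := (3 / 10 : ℝ)) (by norm_num) 4
    norm_num [Finset.sum_range_succ, Nat.factorial] at h ⊢
    linarith
  have hhi : Real.exp (3 / 10 : ℝ) ≤ 1.3501 := by
    have h := Real.exp_bound' (x := (3 / 10 : ℝ)) (by norm_num) (by norm_num) (n := 4) (by norm_num)
    norm_num [Finset.sum_range_succ, Nat.factorial] at h ⊢
    linarith
  set e := Real.exp (3 / 10) with he
  have he0 : 0 < e := Real.exp_pos _
  have hn : ∀ n : ℕ, Real.exp (-((n : ℝ) * (3 / 10))) = (e ^ n)⁻¹ := fun n => by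
    rw [Real.exp_neg, Real.exp_nat_mul]
  have hlow : ∀ n : ℕ, ((1.3501 : ℝ) ^ n)⁻¹ ≤ (e ^ n)⁻¹ := fun n =>
    inv_anti₀ (pow_pos he0 n) (pow_le_pow_left₀ he0.le hhi n)
  refine ⟨?_, ?_, ?_, ?_, ?_, ?_⟩
  · have h := hn 4
    norm_num at h
    rw [h]
    refine (inv_anti₀ (by positivity) (pow_le_pow_left₀ (by norm_num) hlo 4)).trans ?_
    norm_num
  · have h := hn 1
    norm_num at h
    rw [h]
    exact le_trans (by norm_num) (inv_anti₀ he0 hhi)
  · have h := hn 3
    norm_num at h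
    rw [h]
    exact le_trans (by norm_num) (hlow 3)
  · have h := hn 5
    norm_num at h
    rw [h]
    exact le_trans (by norm_num) (hlow 5)
  · have h := hn 7
    norm_num at h
    rw [h]
    exact le_trans (by norm_num) (hlow 7)
  · rw [show (6 / 5 : ℝ) = ((4 : ℕ) : ℝ) * (3 / 10) by norm_num, Real.exp_nat_mul, ← he]
    exact (pow_le_pow_left₀ he0.le hhi 4).trans (by norm_num)

theorem wLow_three_le : wLow 3 ≤ 25 / 57 * Real.exp (-(12 / 5)) := by
  rw [wLow, show -(6 / 5 * (3 : ℝ)) = -(12 / 5) + -(6 / 5) by ring, Real.exp_add, mul_comm]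
  exact mul_le_mul_of_nonneg_right (exp_small.1.trans (by norm_num)) (Real.exp_pos _).le

theorem wUp_pos (x : ℝ) : 0 < wUp x := by
  unfold wUp; split_ifs <;> first | positivity | exact wLow_pos x

theorem wUp_anti : Antitone wUp := by
  intro x y hxy
  have h := wLow_three_le
  have he := Real.exp_pos (-(12 / 5) : ℝ)
  unfold wUp
  split_ifs with h1 h2 h3 h4 <;> first
    | linarith
    | exact wLow_anti hxy
    | (have := wLow_anti (show (3 : ℝ) ≤ y by linarith); linarith)

theorem wLow_three_le_wUp {x : ℝ} (hx : x < 3) : wLow 3 ≤ wUp x := by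
  have h := wUp_anti hx.le
  rwa [show wUp 3 = wLow 3 by norm_num [wUp]] at h

/-- `wUp` is at most a multiple of `wLow` from one on. -/
theorem wUp_le_wLow {x : ℝ} : wUp x ≤ Real.exp (18 / 5) * wLow x := by
  have h1 : (1 : ℝ) ≤ Real.exp (18 / 5) := Real.one_le_exp (by norm_num)
  rcases lt_or_ge x 3 with h | h
  · have h2 : wUp x ≤ 1 := by
      have : Real.exp (-(12 / 5) : ℝ) ≤ 1 := Real.exp_le_one_iff.2 (by norm_num)
      unfold wUp; split_ifs <;> linarith
    refine h2.trans ?_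
    rw [wLow, ← Real.exp_add]
    exact Real.one_le_exp (by linarith)
  · rw [show wUp x = wLow x by simp [wUp, not_lt.2 h, not_lt.2 (show (2 : ℝ) ≤ x by linarith)]]
    exact le_mul_of_one_le_left (wLow_pos x).le h1

theorem integral_wLow (a b : ℝ) :
    ∫ t in a..b, wLow (t - 1) = 5 / 6 * (wLow (a - 1) - wLow (b - 1)) := by
  have hd : ∀ t ∈ uIcc a b, HasDerivAt (fun t => -(5 / 6) * wLow (t - 1)) (wLow (t - 1)) t := by
    intro t _
    have h1 : HasDerivAt (fun t : ℝ => -(6 / 5 * (t - 1))) (-(6 / 5)) t := by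
      simpa using (((hasDerivAt_id t).sub_const 1).const_mul (6 / 5 : ℝ)).fun_neg
    have := h1.exp.const_mul (-(5 / 6) : ℝ)
    simp only [wLow]
    refine this.congr_deriv ?_
    ring
  have hc : Continuous fun t => wLow (t - 1) := by unfold wLow; fun_prop
  rw [integral_eq_sub_of_hasDerivAt hd (hc.intervalIntegrable a b)]
  ring

theorem integral_wLow_le (a b : ℝ) : ∫ t in a..b, wLow (t - 1) ≤ 5 / 6 * wLow (a - 1) := by
  rw [integral_wLow]
  linarith [wLow_pos (b - 1)]

theorem wLow_sub_one (x : ℝ) : wLow (x - 1) = Real.exp (6 / 5) * wLow x := by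
  rw [wLow, wLow, ← Real.exp_add]; congr 1; ring

/-- The upper step contracts. -/
theorem contract_up {s X : ℝ} (hs : 1 ≤ s) :
    ∫ t in (max s 3)..X, wLow (t - 1) ≤ 19 / 20 * (s * wUp s) := by
  refine (integral_wLow_le _ _).trans ?_
  rcases lt_or_ge s 3 with h | h
  · rw [max_eq_right h.le, show wLow ((3 : ℝ) - 1) = Real.exp (-(12 / 5)) by norm_num [wLow]]
    have he := Real.exp_pos (-(12 / 5) : ℝ)
    unfold wUp
    split_ifs with h2
    · nlinarith
    · nlinarith [not_lt.1 h2]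
  · rw [max_eq_left h, show wUp s = wLow s by
      simp [wUp, not_lt.2 h, not_lt.2 (show (2 : ℝ) ≤ s by linarith)], wLow_sub_one]
    have := mul_le_mul_of_nonneg_right exp_small.2.2.2.2.2 (wLow_pos s).le
    linarith [mul_le_mul_of_nonneg_right h (wLow_pos s).le, wLow_pos s]

theorem tangent_bound {s m c : ℝ} (hc : c ≤ Real.exp (12 / 5 - 6 / 5 * m))
    (hb : 0 ≤ 1 - 6 / 5 * (s - m)) :
    Real.exp (-(12 / 5)) * (c * (1 - 6 / 5 * (s - m))) ≤ wLow s := by
  have h1 := Real.add_one_le_exp (-(6 / 5 * (s - m)))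
  have h2 : c * (1 - 6 / 5 * (s - m))
      ≤ Real.exp (12 / 5 - 6 / 5 * m) * Real.exp (-(6 / 5 * (s - m))) :=
    mul_le_mul hc (by linarith) hb (Real.exp_pos _).le
  refine (mul_le_mul_of_nonneg_left h2 (Real.exp_pos _).le).trans (le_of_eq ?_)
  rw [← Real.exp_add, ← Real.exp_add, wLow]
  congr 1; ring

/-- The lower step contracts. -/
theorem contract_low {s X : ℝ} (hs : 2 ≤ s) (hX : s ≤ X) :
    ∫ t in s..X, wUp (t - 1) ≤ 19 / 20 * (s * wLow s) := by
  have hint : ∀ a b, IntervalIntegrable (fun t => wUp (t - 1)) volume a b := fun a b =>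
    (show Antitone fun t => wUp (t - 1) from fun x y h => wUp_anti (by linarith)).intervalIntegrable
  set A := 50 / 57 * Real.exp (-(12 / 5)) with hA
  have hA0 : 0 ≤ A := by positivity
  have h4 : ∀ a b, 4 ≤ a → a ≤ b → ∫ t in a..b, wUp (t - 1) ≤ 5 / 6 * wLow (a - 1) := fun a b ha haX => by
    refine le_trans (le_of_eq (integral_congr fun t ht => ?_)) (integral_wLow_le a b)
    rw [uIcc_of_le haX] at ht
    have h5 : 4 ≤ t := ha.trans ht.1
    simp only [wUp, not_lt.2 (show (2 : ℝ) ≤ t - 1 by linarith),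
      not_lt.2 (show (3 : ℝ) ≤ t - 1 by linarith), if_false]
  rcases le_or_gt 4 s with h | h
  · refine (h4 s X h hX).trans ?_
    rw [wLow_sub_one]
    have := mul_le_mul_of_nonneg_right exp_small.2.2.2.2.2 (wLow_pos s).le
    linarith [mul_le_mul_of_nonneg_right h (wLow_pos s).le, wLow_pos s]
  -- below four: compare with a step function
  set X' := max X 4
  have hle : ∫ t in s..X, wUp (t - 1) ≤ ∫ t in s..X', wUp (t - 1) := by
    rw [← integral_add_adjacent_intervals (hint s X) (hint X X')]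
    linarith [integral_nonneg (μ := volume) (le_max_left X 4) fun t _ => (wUp_pos (t - 1)).le]
  have hA1 : ∀ a b, a ≤ b → ∫ t in a..b, wUp (t - 1) ≤ (b - a) * wUp (a - 1) := fun a b hab => by
    refine (integral_mono_on hab (hint a b) intervalIntegrable_const fun t ht =>
      wUp_anti (sub_le_sub_right ht.1 1)).trans (le_of_eq ?_)
    simp
  have hA1' : ∀ t, 1 ≤ t → wUp t ≤ A := fun t ht => by
    refine (wUp_anti ht).trans (le_of_eq ?_)
    norm_num [wUp, hA]
  have hA2' : ∀ t, 2 ≤ t → wUp t ≤ A / 2 := fun t ht => by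
    refine (wUp_anti ht).trans (le_of_eq ?_)
    norm_num [wUp, hA]; ring
  have hI : ∫ t in s..X', wUp (t - 1)
      ≤ A * max (3 - s) 0 + A / 2 * (4 - max s 3) + 5 / 6 * wLow 3 := by
    rw [← integral_add_adjacent_intervals (hint s 4) (hint 4 X')]
    refine add_le_add ?_ ((h4 4 X' le_rfl (le_max_right _ _)).trans (le_of_eq (by norm_num)))
    rcases le_or_gt s 3 with h3 | h3
    · rw [← integral_add_adjacent_intervals (hint s 3) (hint 3 4), max_eq_right h3,
        max_eq_left (by linarith : (0 : ℝ) ≤ 3 - s)]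
      refine add_le_add ((hA1 s 3 h3).trans ?_) ((hA1 3 4 (by norm_num)).trans ?_)
      · rw [mul_comm A]; exact mul_le_mul_of_nonneg_left (hA1' _ (by linarith)) (by linarith)
      · rw [mul_comm (A / 2)]; exact mul_le_mul_of_nonneg_left (hA2' _ (by norm_num)) (by norm_num)
    · rw [max_eq_left h3.le, max_eq_right (by linarith : 3 - s ≤ (0 : ℝ)), mul_zero, zero_add]
      refine (hA1 s 4 h.le).trans ?_
      rw [mul_comm (A / 2)]
      exact mul_le_mul_of_nonneg_left (hA2' _ (by linarith)) (by linarith)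
  refine hle.trans (hI.trans ?_)
  obtain ⟨e6, e3, e9, e15, e21, -⟩ := exp_small
  have hw3 : wLow 3 ≤ Real.exp (-(12 / 5)) * 0.302 := by
    rw [wLow, show -(6 / 5 * (3 : ℝ)) = -(12 / 5) + -(6 / 5) by ring, Real.exp_add]
    exact mul_le_mul_of_nonneg_left e6 (Real.exp_pos _).le
  have key : ∀ m c : ℝ, c ≤ Real.exp (12 / 5 - 6 / 5 * m) → 0 ≤ 1 - 6 / 5 * (s - m) →
      50 / 57 * max (3 - s) 0 + 25 / 57 * (4 - max s 3) + 5 / 6 * 0.302
        ≤ 19 / 20 * (s * (c * (1 - 6 / 5 * (s - m)))) →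
      A * max (3 - s) 0 + A / 2 * (4 - max s 3) + 5 / 6 * wLow 3 ≤ 19 / 20 * (s * wLow s) := by
    intro m c hc hb hk
    have hE := Real.exp_pos (-(12 / 5) : ℝ)
    have h1 := mul_le_mul_of_nonneg_left hk hE.le
    have h2 := mul_le_mul_of_nonneg_left (tangent_bound hc hb) (show (0 : ℝ) ≤ 19 / 20 * s by linarith)
    rw [hA]
    linarith
  rcases le_or_gt s (5 / 2) with h1 | h1
  · refine key (9 / 4) 0.74 (le_of_le_of_eq e3 (by congr 1; norm_num)) (by linarith) ?_
    rw [max_eq_left (by linarith : (0 : ℝ) ≤ 3 - s), max_eq_right (by linarith : s ≤ 3)]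
    nlinarith [mul_nonneg (sub_nonneg.2 hs) (sub_nonneg.2 h1)]
  rcases le_or_gt s 3 with h2 | h2
  · refine key (11 / 4) 0.405 (le_of_le_of_eq e9 (by congr 1; norm_num)) (by linarith) ?_
    rw [max_eq_left (by linarith : (0 : ℝ) ≤ 3 - s), max_eq_right h2]
    nlinarith [mul_nonneg (sub_nonneg.2 h1.le) (sub_nonneg.2 h2)]
  rw [max_eq_left h2.le] at key ⊢
  rw [max_eq_right (by linarith : 3 - s ≤ (0 : ℝ))] at key ⊢
  rcases le_or_gt s (7 / 2) with h3 | h3
  · refine key (13 / 4) 0.22 (le_of_le_of_eq e15 (by congr 1; norm_num)) (by linarith) ?_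
    nlinarith [mul_nonneg (sub_nonneg.2 h2.le) (sub_nonneg.2 h3)]
  · refine key (15 / 4) 0.121 (le_of_le_of_eq e21 (by congr 1; norm_num)) (by linarith) ?_
    nlinarith [mul_nonneg (sub_nonneg.2 h3.le) (sub_nonneg.2 h.le)]

theorem integral_linear_wLow_le {a b : ℝ} (ha : 1 ≤ a) (hb : a ≤ b) :
    ∫ t in a..b, t * wLow (t - 1) ≤ (a + 1) * wLow (a - 1) := by
  have hd : ∀ t ∈ uIcc a b, HasDerivAt (fun t => -((5 / 6 * t + 25 / 36) * wLow (t - 1)))
      (t * wLow (t - 1)) t := by
    intro t _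
    have h1 : HasDerivAt (fun t : ℝ => -(6 / 5 * (t - 1))) (-(6 / 5)) t := by
      simpa using (((hasDerivAt_id t).sub_const 1).const_mul (6 / 5 : ℝ)).fun_neg
    have h2 : HasDerivAt (fun t : ℝ => 5 / 6 * t + 25 / 36) (5 / 6) t := by
      simpa using ((hasDerivAt_id t).const_mul (5 / 6 : ℝ)).add_const (25 / 36 : ℝ)
    simp only [wLow]
    refine ((h2.fun_mul h1.exp).fun_neg).congr_deriv ?_
    ring
  have hc : Continuous fun t => t * wLow (t - 1) := by unfold wLow; fun_prop
  rw [integral_eq_sub_of_hasDerivAt hd (hc.intervalIntegrable a b)]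
  have h3 := mul_nonneg (show (0 : ℝ) ≤ 5 / 6 * b + 25 / 36 by linarith) (wLow_pos (b - 1)).le
  have h4 := mul_le_mul_of_nonneg_right (show 5 / 6 * a + 25 / 36 ≤ a + 1 by linarith)
    (wLow_pos (a - 1)).le
  linarith

/-- The error profile at a lower end is a multiple of the upper weight. -/
theorem err_le_wUp {s l : ℝ} (hs : 1 ≤ s) (hl : s ≤ l) :
    (l + 1) * wLow (l - 1) ≤ 7 * Real.exp (18 / 5) * (s * wUp s) := by
  have he : (1 : ℝ) ≤ Real.exp (18 / 5) := Real.one_le_exp (by norm_num)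
  rcases lt_or_ge s 3 with h | h
  · have h1 : (l + 1) * wLow (l - 1) ≤ 2 := by
      have e := Real.add_one_le_exp (6 / 5 * (l - 1))
      have : wLow (l - 1) * Real.exp (6 / 5 * (l - 1)) = 1 := by
        rw [wLow, ← Real.exp_add, neg_add_cancel, Real.exp_zero]
      nlinarith [wLow_pos (l - 1)]
    have h2 : Real.exp (18 / 5) * wLow 3 = 1 := by
      rw [wLow, ← Real.exp_add]; norm_num
    have h3 := mul_le_mul_of_nonneg_left (wLow_three_le_wUp h) (Real.exp_pos (18 / 5 : ℝ)).le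
    nlinarith
  · rw [show wUp s = wLow s by simp [wUp, not_lt.2 h, not_lt.2 (show (2 : ℝ) ≤ s by linarith)]]
    have h1 : (l + 1) * wLow (l - 1) ≤ (s + 1) * wLow (s - 1) := by
      have e := Real.add_one_le_exp (6 / 5 * (l - s))
      have e2 : wLow (l - 1) * Real.exp (6 / 5 * (l - s)) = wLow (s - 1) := by
        rw [wLow, wLow, ← Real.exp_add]; congr 1; ring
      have h1 : l + 1 ≤ (s + 1) * Real.exp (6 / 5 * (l - s)) := by nlinarith
      nlinarith [mul_le_mul_of_nonneg_right h1 (wLow_pos (l - 1)).le]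
    rw [wLow_sub_one s] at h1
    refine h1.trans ?_
    have h5 : (s + 1) * Real.exp (6 / 5) ≤ 7 * Real.exp (18 / 5) * s := by
      have := exp_small.2.2.2.2.2
      nlinarith [Real.exp_pos (6 / 5 : ℝ)]
    have := mul_le_mul_of_nonneg_right h5 (wLow_pos s).le
    linarith

/-- The same for the lower weight. -/
theorem err_le_wLow {s : ℝ} (hs : 2 ≤ s) :
    (s + 1) * wLow (s - 1) ≤ 7 * (s * wLow s) := by
  rw [wLow_sub_one]
  have := mul_le_mul_of_nonneg_right exp_small.2.2.2.2.2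
    (show 0 ≤ (s + 1) * wLow s by have := wLow_pos s; positivity)
  nlinarith [wLow_pos s]

end Vale.Agent.P013
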