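import Vale.Agent.P013.Step
import Vale.Agent.P013.Weights

/-!
# P013: the linear sieve deficits, uniformly in the sifted set

`linear_sieve` bounds both deficits by the limiting ones for every set of primes; `lower_with_gain`
gives a margin at level two when the set is thin in one range of scales.
-/

namespace Vale.Agent.P013

open Finset MeasureTheory

/-- The truncated upper deficit. -/
noncomputable def upTotal (n : ℕ) (x : ℝ) : ℝ := ∑ j ∈ range n, upSeq j x

/-- The truncated lower deficit. -/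
noncomputable def lowTotal (n : ℕ) (x : ℝ) : ℝ := ∑ j ∈ range n, lowSeq j x

theorem density_ratio (δ : ℝ) (hδ : 0 < δ) :
    ∃ U : ℝ, 1 ≤ U ∧ ∀ (P : Finset ℕ) (p z : ℕ), (∀ q ∈ P, q.Prime) → U ≤ Real.log p → p ≤ z →
      dens P p ≤ (1 + δ) * dens P z * (Real.log z / Real.log p) := by
  have hl : 0 < Real.log (1 + δ) := Real.log_pos (by linarith)
  obtain ⟨U, hU2, hU⟩ := log_mass (Real.log (1 + δ) / 2) (by linarith)
  refine ⟨max U (Real.log (2 + 2 / Real.log (1 + δ))),
    le_max_of_le_left (by linarith), fun P p z hP hp hpz => ?_⟩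
  have hpU : U ≤ Real.log p := (le_max_left _ _).trans hp
  have hp2 : 2 ≤ p := by
    by_contra h
    interval_cases p <;> norm_num at hpU <;> linarith
  have hpr : (2 : ℝ) + 2 / Real.log (1 + δ) ≤ p := by
    rw [← Real.log_le_log_iff (by positivity) (by exact_mod_cast (show 0 < p by omega))]
    exact (le_max_right _ _).trans hp
  have hlogz : Real.log p ≤ Real.log z :=
    Real.log_le_log (by exact_mod_cast (show 0 < p by omega)) (by exact_mod_cast hpz)
  have hlp : 0 < Real.log p := by linarith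
  have hmass := hU (P.filter fun q => p ≤ q ∧ q < z) (Real.log p) (Real.log z)
    (fun q hq => hP q (mem_filter.1 hq).1) hpU hlogz fun q hq => by
      obtain ⟨-, h1, h2⟩ := mem_filter.1 hq
      exact ⟨Real.log_le_log (by exact_mod_cast (show 0 < p by omega)) (by exact_mod_cast h1),
        Real.log_le_log (by exact_mod_cast (show 0 < q by omega)) (by exact_mod_cast h2.le)⟩
  have h1 : 1 / ((p : ℝ) - 1) ≤ Real.log (1 + δ) / 2 := by
    have : 0 < 2 / Real.log (1 + δ) := by positivity
    rw [div_le_div_iff₀ (by linarith) two_pos]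
    have e : Real.log (1 + δ) * (2 / Real.log (1 + δ)) = 2 := by field_simp
    nlinarith
  refine (dens_le_mul_exp hP hp2 hpz).trans ?_
  rw [mul_comm (1 + δ), mul_assoc]
  refine mul_le_mul_of_nonneg_left ?_ (dens_pos hP z).le
  refine (Real.exp_le_exp.2 (show _ ≤ Real.log (Real.log z / Real.log p) + Real.log (1 + δ) by
    linarith)).trans (le_of_eq ?_)
  rw [Real.exp_add, Real.exp_log (div_pos (by linarith) hlp), Real.exp_log (by linarith), mul_comm]

/-- A sum over primes in the variable `log D / log p`. -/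
theorem weighted_step (δ : ℝ) (hδ : 0 < δ) :
    ∃ U : ℝ, 1 ≤ U ∧ ∀ (S : Finset ℕ) (D : ℝ) (z : ℕ) (l c : ℝ) (φ : ℝ → ℝ) (f : ℕ → ℝ),
      (∀ p ∈ S, p.Prime) → 0 < Real.log D → 0 < Real.log z → 1 ≤ l → 0 ≤ c → Antitone φ →
      (∀ x, 0 ≤ φ x) → (∀ p ∈ S, U ≤ Real.log p ∧ l ≤ Real.log D / Real.log p) →
      (∀ p ∈ S, f p ≤ c * (Real.log z / Real.log p) * φ (Real.log D / Real.log p - 1)) →
      ∃ X, l ≤ X ∧ ∑ p ∈ S, f p / p ≤ c / (Real.log D / Real.log z) *
        ((∫ t in l..X, φ (t - 1)) + δ * ((l + 1) * φ (l - 1) + ∫ t in l..X, t * φ (t - 1))) := by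
  obtain ⟨U, hU1, hU⟩ := prime_riemann δ hδ
  refine ⟨U, hU1, fun S D z l c φ f hS hD hz hl hc hanti hnn hlog hf => ?_⟩
  have hlp : ∀ p ∈ S, 0 < Real.log p := fun p hp => by linarith [(hlog p hp).1]
  obtain ⟨X, hX, hsum⟩ := hU S (Real.log D) l φ hS hD hl hanti hnn fun p hp => by
    refine ⟨(hlog p hp).1, ?_⟩
    have h := (le_div_iff₀ (hlp p hp)).1 (hlog p hp).2
    rw [le_div_iff₀ (by linarith)]
    linarith
  refine ⟨X, hX, ?_⟩
  refine le_trans (sum_le_sum (g := fun p : ℕ => c / (Real.log D / Real.log z) *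
    ((p : ℝ)⁻¹ * (Real.log D / Real.log p) * φ (Real.log D / Real.log p - 1))) fun p hp => ?_) ?_
  · refine (div_le_div_of_nonneg_right (hf p hp) (Nat.cast_nonneg p)).trans (le_of_eq ?_)
    field_simp
  · rw [← mul_sum]
    exact mul_le_mul_of_nonneg_left hsum (by positivity)

theorem err_bound {φ : ℝ → ℝ} (hanti : Antitone φ) {l X C : ℝ} (hl : 1 ≤ l) (hX : l ≤ X)
    (hC : ∀ x, l - 1 ≤ x → φ x ≤ C * wLow x) (hC0 : 0 ≤ C) :
    (l + 1) * φ (l - 1) + ∫ t in l..X, t * φ (t - 1) ≤ 2 * C * ((l + 1) * wLow (l - 1)) := by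
  have h1 : (l + 1) * φ (l - 1) ≤ C * ((l + 1) * wLow (l - 1)) := by
    rw [mul_left_comm]; exact mul_le_mul_of_nonneg_left (hC _ le_rfl) (by linarith)
  have h2 : ∫ t in l..X, t * φ (t - 1) ≤ C * ((l + 1) * wLow (l - 1)) := by
    refine le_trans ?_ (mul_le_mul_of_nonneg_left (integral_linear_wLow_le hl hX) hC0)
    rw [← intervalIntegral.integral_const_mul]
    have hi : IntervalIntegrable (fun t => φ (t - 1)) volume l X :=
      (show Antitone fun t => φ (t - 1) from fun s t h => hanti (by linarith)).intervalIntegrable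
    have hc : Continuous fun t => C * (t * wLow (t - 1)) := by unfold wLow; fun_prop
    refine intervalIntegral.integral_mono_on hX (hi.continuousOn_mul (by fun_prop))
      (hc.intervalIntegrable _ _) fun t ht => ?_
    rw [mul_left_comm]
    exact mul_le_mul_of_nonneg_left (hC _ (by linarith [ht.1])) (by linarith [ht.1])
  linarith

theorem seq_le : ∀ j : ℕ,
    (∀ x, 1 ≤ x → upSeq j x ≤ 2 * Real.exp (18 / 5) * (19 / 20) ^ (2 * j) * wUp x) ∧
      ∀ x, 2 ≤ x → lowSeq j x ≤ 2 * Real.exp (18 / 5) * (19 / 20) ^ (2 * j + 1) * wLow x := by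
  have hstep : ∀ j C, 0 ≤ C → (∀ x, 1 ≤ x → upSeq j x ≤ C * wUp x) →
      ∀ x, 2 ≤ x → lowSeq j x ≤ C * (19 / 20) * wLow x := by
    intro j C hC hu x hx
    rw [lowSeq, tailPart, max_eq_left hx, max_eq_left (by linarith : (1 : ℝ) ≤ x),
      div_le_iff₀ (by linarith)]
    rcases le_or_gt x (4 + 2 * (j : ℝ)) with h | h
    · rw [min_eq_left h]
      refine le_trans (intervalIntegral.integral_mono_on (g := fun t => C * wUp (t - 1)) h
        ((upSeq_profile j).integrable_shift _ _)
        ((show Antitone fun t => wUp (t - 1) from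
          fun s t h => wUp_anti (by linarith)).intervalIntegrable.const_mul C)
        fun t ht => hu _ (by linarith [ht.1])) ?_
      rw [intervalIntegral.integral_const_mul]
      refine (mul_le_mul_of_nonneg_left (contract_low hx h) hC).trans (le_of_eq ?_)
      ring
    · rw [min_eq_right h.le, intervalIntegral.integral_same]
      have := wLow_pos x
      positivity
  intro j
  induction j with
  | zero =>
    have h0 : ∀ x, 1 ≤ x → upSeq 0 x ≤ 2 * Real.exp (18 / 5) * (19 / 20) ^ (2 * 0) * wUp x := by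
      intro x hx
      simp only [upSeq, Nat.mul_zero, pow_zero, mul_one]
      rcases lt_or_ge x 3 with h | h
      · rw [max_eq_left (by linarith : (0 : ℝ) ≤ 3 - x), max_eq_left hx]
        have h1 : (3 - x) / x ≤ 2 := by rw [div_le_iff₀ (by linarith)]; linarith
        have h2 : Real.exp (18 / 5) * wLow 3 = 1 := by
          rw [wLow, ← Real.exp_add]; norm_num
        have h3 := mul_le_mul_of_nonneg_left (wLow_three_le_wUp h) (Real.exp_pos (18 / 5 : ℝ)).le
        linarith
      · rw [max_eq_right (by linarith : 3 - x ≤ (0 : ℝ)), zero_div]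
        have := wUp_pos x
        positivity
    refine ⟨h0, ?_⟩
    have h := hstep 0 _ (by positivity) h0
    intro x hx
    exact (h x hx).trans_eq (by ring)
  | succ j ih =>
    set C := 2 * Real.exp (18 / 5) * (19 / 20 : ℝ) ^ (2 * j + 1) with hC
    have hC0 : 0 ≤ C := by positivity
    have h0 : ∀ x, 1 ≤ x → upSeq (j + 1) x ≤ C * (19 / 20) * wUp x := by
      intro x hx
      rw [upSeq_succ, tailPart, max_eq_left hx, div_le_iff₀ (by linarith)]
      rcases le_or_gt (max x 3) (5 + 2 * (j : ℝ)) with h | h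
      · rw [min_eq_left h]
        refine le_trans (intervalIntegral.integral_mono_on (g := fun t => C * wLow (t - 1)) h
          ((lowSeq_profile j).integrable_shift _ _)
          ((show Antitone fun t => wLow (t - 1) from
            fun s t h => wLow_anti (by linarith)).intervalIntegrable.const_mul C)
          fun t ht => ih.2 _ (by linarith [ht.1, le_max_right x 3])) ?_
        rw [intervalIntegral.integral_const_mul]
        refine (mul_le_mul_of_nonneg_left (contract_up hx) hC0).trans (le_of_eq ?_)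
        ring
      · rw [min_eq_right h.le, intervalIntegral.integral_same]
        have := wUp_pos x
        positivity
    have e : C * (19 / 20) = 2 * Real.exp (18 / 5) * (19 / 20 : ℝ) ^ (2 * (j + 1)) := by
      rw [hC]; ring
    refine ⟨fun x hx => e ▸ h0 x hx, fun x hx => ?_⟩
    exact ((hstep (j + 1) _ (by positivity) h0) x hx).trans_eq (by rw [e]; ring)

theorem upTotal_le (n : ℕ) {x : ℝ} (hx : 1 ≤ x) :
    upTotal n x ≤ n * (2 * Real.exp (18 / 5)) * wUp x := by
  refine (sum_le_card_nsmul _ _ (2 * Real.exp (18 / 5) * wUp x) fun j _ => ?_).trans_eq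
    (by rw [card_range, nsmul_eq_mul]; ring)
  refine ((seq_le j).1 x hx).trans (mul_le_mul_of_nonneg_right ?_ (wUp_pos x).le)
  exact mul_le_of_le_one_right (by positivity) (pow_le_one₀ (by norm_num) (by norm_num))

theorem lowTotal_le (n : ℕ) {x : ℝ} (hx : 2 ≤ x) :
    lowTotal n x ≤ n * (2 * Real.exp (18 / 5)) * wLow x := by
  refine (sum_le_card_nsmul _ _ (2 * Real.exp (18 / 5) * wLow x) fun j _ => ?_).trans_eq
    (by rw [card_range, nsmul_eq_mul]; ring)
  refine ((seq_le j).2 x hx).trans (mul_le_mul_of_nonneg_right ?_ (wLow_pos x).le)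
  exact mul_le_of_le_one_right (by positivity) (pow_le_one₀ (by norm_num) (by norm_num))

theorem upTotal_anti (n : ℕ) : Antitone (upTotal n) := fun _ _ h =>
  sum_le_sum fun j _ => (upSeq_profile j).anti h

theorem lowTotal_anti (n : ℕ) : Antitone (lowTotal n) := fun _ _ h =>
  sum_le_sum fun j _ => (lowSeq_profile j).anti h

theorem upTotal_nonneg (n : ℕ) (x : ℝ) : 0 ≤ upTotal n x :=
  sum_nonneg fun j _ => (upSeq_profile j).nonneg x

theorem lowTotal_nonneg (n : ℕ) (x : ℝ) : 0 ≤ lowTotal n x :=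
  sum_nonneg fun j _ => (lowSeq_profile j).nonneg x

theorem integral_upTotal (n : ℕ) {s X : ℝ} (hs : 2 ≤ s) (hX : s ≤ X) :
    ∫ t in s..X, upTotal n (t - 1) ≤ s * lowTotal n s := by
  simp only [upTotal, lowTotal]
  rw [intervalIntegral.integral_finsetSum fun j _ => (upSeq_profile j).integrable_shift s X, mul_sum]
  refine sum_le_sum fun j _ => ?_
  have h := integral_le_tailPart (upSeq_profile j) (lo := 2) (hi := 4 + 2 * (j : ℝ))
    (by linarith) (by linarith : 1 ≤ s) (X := X) (by rwa [max_eq_left hs])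
  rwa [max_eq_left hs] at h

theorem integral_lowTotal (n : ℕ) {s X : ℝ} (hs : 1 ≤ s) (hX : max s 3 ≤ X) :
    ∫ t in (max s 3)..X, lowTotal n (t - 1)
      ≤ s * (upTotal (n + 1) s - upSeq 0 s) := by
  simp only [upTotal, lowTotal]
  rw [intervalIntegral.integral_finsetSum fun j _ => (lowSeq_profile j).integrable_shift _ X,
    sum_range_succ' _ n, add_sub_cancel_right, mul_sum]
  exact sum_le_sum fun j _ =>
    integral_le_tailPart (lowSeq_profile j) (by linarith) hs hX

theorem geometry {U₂ s D : ℝ} {P : Finset ℕ} {w z : ℕ} (hP : ∀ q ∈ P, q.Prime) (hD : 1 ≤ D)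
    (hlz : 0 < Real.log z) (hlp : ∀ p ∈ P, w ≤ p → U₂ ≤ Real.log p ∧ 0 < Real.log p)
    (hs : s = Real.log D / Real.log z) (hs0 : 0 < s) :
    ∀ p ∈ P.filter (fun p => w ≤ p ∧ p < z), U₂ ≤ Real.log p ∧ s ≤ Real.log D / Real.log p ∧
      Real.log (D / (p : ℕ)) / Real.log p = Real.log D / Real.log p - 1 ∧
      (1 ≤ s → 1 ≤ D / (p : ℕ)) ∧ 0 < Real.log p := by
  intro p hp
  obtain ⟨hpP, hwp, hpz⟩ := mem_filter.1 hp
  obtain ⟨hU, hl⟩ := hlp p hpP hwp
  have hp0 : (0 : ℝ) < p := by exact_mod_cast (hP p hpP).pos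
  have hlD : 0 < Real.log D := by
    have : Real.log D = s * Real.log z := by rw [hs]; field_simp
    rw [this]; positivity
  have hle : Real.log p ≤ Real.log z := Real.log_le_log hp0 (by exact_mod_cast hpz.le)
  refine ⟨hU, hs ▸ div_le_div_of_nonneg_left hlD.le hl hle, ?_, fun hs1 => ?_, hl⟩
  · rw [Real.log_div (by linarith) hp0.ne', sub_div, div_self hl.ne']
  · rw [one_le_div hp0, ← Real.log_le_log_iff hp0 (by linarith)]
    rw [hs, le_div_iff₀ hlz] at hs1
    linarith

theorem scale_cancel {s a b y : ℝ} (hs : s ≠ 0) : a * b / s * (s * y) = b * (a * y) := by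
  field_simp

theorem absorb {δ G N a κ w : ℝ} (hδ : 0 ≤ δ) (hG : G ≤ N * w) (hw : 0 ≤ w)
    (h : δ * N + (1 + δ) * a ≤ κ) : (1 + δ) * (G + a * w) ≤ G + κ * w := by
  have h1 := mul_le_mul_of_nonneg_left hG hδ
  have h2 := mul_le_mul_of_nonneg_right h hw
  linarith

theorem budget {κ E N δ : ℝ} (hκ : 0 < κ) (hE : 1 ≤ E) (hN : 0 ≤ N) (hδ0 : 0 ≤ δ) (hδ1 : δ ≤ 1)
    (hδK : δ * (28 * E * ((N + κ) * E + E) + N + κ) ≤ κ / 80) :
    δ * N + (1 + δ) * (κ / 160 + 19 / 20 * κ + δ * (14 * E * (E + (N + κ)))) ≤ κ ∧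
      δ * N + (1 + δ) * (19 / 20 * κ + δ * (14 * (N + κ) * E)) ≤ κ := by
  have hc : 0 ≤ N + κ := by linarith
  have h1 : (N + κ) ≤ (N + κ) * E := le_mul_of_one_le_right hc hE
  have h2 : δ * (28 * E * (E + (N + κ))) ≤ δ * (28 * E * ((N + κ) * E + E)) :=
    mul_le_mul_of_nonneg_left (mul_le_mul_of_nonneg_left (by linarith) (by linarith)) hδ0
  have h3 : δ * (δ * (14 * E * (E + (N + κ)))) ≤ δ * (14 * E * (E + (N + κ))) :=
    mul_le_of_le_one_left (by positivity) hδ1
  have h4 : δ * (δ * (14 * (N + κ) * E)) ≤ δ * (14 * (N + κ) * E) :=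
    mul_le_of_le_one_left (by positivity) hδ1
  have h5 : δ * (κ / 160 + 19 / 20 * κ) ≤ δ * κ := mul_le_mul_of_nonneg_left (by linarith) hδ0
  have h6 : δ * (19 / 20 * κ) ≤ δ * κ := mul_le_mul_of_nonneg_left (by linarith) hδ0
  have h7 : 0 ≤ δ * (E * E) := by positivity
  constructor <;> linarith

/-- The inductive step, upper. -/
theorem step_up {κ δ U₂ : ℝ} {n : ℕ} {P : Finset ℕ} {w z : ℕ} {D : ℝ} (hκ : 0 < κ) (hδ0 : 0 < δ)
    (htail : 2 * Real.exp (18 / 5) * (19 / 20 : ℝ) ^ (2 * n) ≤ κ / 160)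
    (hbudget : δ * (n * (2 * Real.exp (18 / 5))) + (1 + δ) * (κ / 160 + 19 / 20 * κ
      + δ * (14 * Real.exp (18 / 5)
        * (Real.exp (18 / 5) + (n * (2 * Real.exp (18 / 5)) + κ)))) ≤ κ)
    (hstep : ∀ (S : Finset ℕ) (D : ℝ) (z : ℕ) (l c : ℝ) (φ : ℝ → ℝ) (f : ℕ → ℝ),
      (∀ p ∈ S, p.Prime) → 0 < Real.log D → 0 < Real.log z → 1 ≤ l → 0 ≤ c → Antitone φ →
      (∀ x, 0 ≤ φ x) → (∀ p ∈ S, U₂ ≤ Real.log p ∧ l ≤ Real.log D / Real.log p) →
      (∀ p ∈ S, f p ≤ c * (Real.log z / Real.log p) * φ (Real.log D / Real.log p - 1)) →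
      ∃ X, l ≤ X ∧ ∑ p ∈ S, f p / p ≤ c / (Real.log D / Real.log z) *
        ((∫ t in l..X, φ (t - 1)) + δ * ((l + 1) * φ (l - 1) + ∫ t in l..X, t * φ (t - 1))))
    (hP : ∀ q ∈ P, q.Prime) (hD : 1 ≤ D) (hlz : 0 < Real.log z)
    (hlp : ∀ p ∈ P, w ≤ p → U₂ ≤ Real.log p ∧ 0 < Real.log p)
    (hVp : ∀ p ∈ P, w ≤ p → p < z →
      dens P p ≤ (1 + δ) * dens P z * (Real.log z / Real.log p))
    (ih : ∀ p ∈ P, w ≤ p → p < z → ∀ D : ℝ, 1 ≤ D → 2 ≤ Real.log D / Real.log p →
      dev P w p false D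
        ≤ dens P p * (lowTotal n (Real.log D / Real.log p) + κ * wLow (Real.log D / Real.log p)))
    (hs1 : 1 ≤ Real.log D / Real.log z) :
    dev P w z true D ≤ dens P z * (upTotal n (Real.log D / Real.log z)
      + κ * wUp (Real.log D / Real.log z)) := by
  classical
  set E := Real.exp (18 / 5) with hE
  set c : ℝ := (n : ℝ) * (2 * E) + κ with hc
  have hc0 : 0 ≤ c := by positivity
  set s := Real.log D / Real.log z with hs
  set V := dens P z with hV
  have hV0 : 0 ≤ V := (dens_pos hP z).le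
  set S := P.filter (fun p => w ≤ p ∧ p < z) with hSdef
  have hSp : ∀ p ∈ S, p.Prime := fun p hp => hP p (mem_filter.1 hp).1
  have hgeo := geometry (U₂ := U₂) hP hD hlz hlp (s := s) hs (by linarith)
  have hlD : 0 < Real.log D := by
    rw [hs, le_div_iff₀ hlz] at hs1; linarith
  rw [dev_eq_sum, ← sum_filter_add_sum_filter_not _ (fun p : ℕ => D ≤ (p : ℝ) ^ 3)]
  have hcube : ∀ p ∈ S, D ≤ (p : ℝ) ^ 3 ↔ Real.log D / Real.log p ≤ 3 := fun p hp => by
    rw [div_le_iff₀ (hgeo p hp).2.2.2.2, ← Real.log_le_log_iff (by linarith)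
      (pow_pos (by exact_mod_cast (hSp p hp).pos) 3), Real.log_pow]
    norm_num
  set ψ : ℝ → ℝ := fun x => if x ≤ 2 then 1 else 0 with hψ
  have hψanti : Antitone ψ := fun x y h => by
    simp only [hψ]; split_ifs <;> linarith
  have hψ0 : ∀ x, 0 ≤ ψ x := fun x => by simp only [hψ]; split_ifs <;> norm_num
  obtain ⟨X₁, hX₁, h₁⟩ := hstep (S.filter fun p : ℕ => D ≤ (p : ℝ) ^ 3) D z s ((1 + δ) * V) ψ
    (fun p => dens P p) (fun p hp => hSp p (mem_filter.1 hp).1) hlD hlz hs1 (by positivity) hψanti hψ0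
    (fun p hp => ⟨(hgeo p (mem_filter.1 hp).1).1,
      (hgeo p (mem_filter.1 hp).1).2.1⟩)
    fun p hp => by
      obtain ⟨hpS, hp3⟩ := mem_filter.1 hp
      rw [show ψ (Real.log D / Real.log p - 1) = 1 by
        simp only [hψ]; rw [if_pos (by linarith [(hcube p hpS).1 hp3])], mul_one]
      exact hVp p (mem_filter.1 hpS).1 (mem_filter.1 hpS).2.1 (mem_filter.1 hpS).2.2
  set φ : ℝ → ℝ := fun x => lowTotal n x + κ * wLow x with hφ
  have hφanti : Antitone φ := fun x y h =>
    add_le_add (lowTotal_anti n h) (mul_le_mul_of_nonneg_left (wLow_anti h) hκ.le)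
  have hφ0 : ∀ x, 0 ≤ φ x := fun x =>
    add_nonneg (lowTotal_nonneg n x) (mul_nonneg hκ.le (wLow_pos x).le)
  obtain ⟨X₂, hX₂, h₂⟩ := hstep (S.filter fun p : ℕ => ¬ D ≤ (p : ℝ) ^ 3) D z (max s 3)
    ((1 + δ) * V) φ (fun p => dev P w p false (D / p)) (fun p hp => hSp p (mem_filter.1 hp).1) hlD
    hlz (le_max_of_le_left hs1) (by positivity) hφanti hφ0
    (fun p hp => ⟨(hgeo p (mem_filter.1 hp).1).1,
      max_le (hgeo p (mem_filter.1 hp).1).2.1
        (not_le.1 fun h => (mem_filter.1 hp).2 ((hcube p (mem_filter.1 hp).1).2 h)).le⟩)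
    fun p hp => by
      obtain ⟨hpS, hp3⟩ := mem_filter.1 hp
      obtain ⟨-, -, he, hge, -⟩ := hgeo p hpS
      obtain ⟨-, hwp, hpz⟩ := mem_filter.1 hpS
      have h3 : 3 < Real.log D / Real.log p := not_le.1 fun h => hp3 ((hcube p hpS).2 h)
      have := ih p (mem_filter.1 hpS).1 hwp hpz (D / (p : ℕ)) (hge hs1) (by rw [he]; linarith)
      rw [he] at this
      exact this.trans (mul_le_mul_of_nonneg_right (hVp p (mem_filter.1 hpS).1 hwp hpz) (hφ0 _))
  have e1 : ∀ p ∈ S.filter (fun p : ℕ => D ≤ (p : ℝ) ^ 3),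
      (if (true = true) ∧ D ≤ (p : ℝ) ^ 3 then dens P p / p else dev P w p (!true) (D / p) / p)
        = dens P p / p := fun p hp => if_pos ⟨rfl, (mem_filter.1 hp).2⟩
  have e2 : ∀ p ∈ S.filter (fun p : ℕ => ¬ D ≤ (p : ℝ) ^ 3),
      (if (true = true) ∧ D ≤ (p : ℝ) ^ 3 then dens P p / p else dev P w p (!true) (D / p) / p)
        = dev P w p false (D / p) / p := fun p hp => if_neg fun h => (mem_filter.1 hp).2 h.2
  rw [sum_congr rfl e1, sum_congr rfl e2]
  refine (add_le_add h₁ h₂).trans ?_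
  have hI1 : ∫ t in s..X₁, ψ (t - 1) ≤ s * upSeq 0 s := by
    have e : s * upSeq 0 s = max (3 - s) 0 := by
      simp only [upSeq]; rw [max_eq_left hs1, mul_div_cancel₀ _ (by linarith : s ≠ 0)]
    rw [e]
    have hψi : ∀ a b, IntervalIntegrable (fun t => ψ (t - 1)) volume a b := fun a b =>
      (show Antitone fun t => ψ (t - 1) from fun x y h => hψanti (by linarith)).intervalIntegrable
    set m := max s 3
    rw [← intervalIntegral.integral_add_adjacent_intervals (hψi s m) (hψi m X₁)]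
    have h1 : ∫ t in s..m, ψ (t - 1) ≤ m - s := by
      refine (intervalIntegral.integral_mono_on (le_max_left _ _) (hψi s m)
        (intervalIntegrable_const (c := (1 : ℝ))) fun t _ => ?_).trans_eq (by simp [m])
      simp only [hψ]; split_ifs <;> norm_num
    have h2 : ∫ t in m..X₁, ψ (t - 1) ≤ 0 := by
      rcases le_or_gt X₁ m with h | h
      · rw [intervalIntegral.integral_symm]
        linarith [intervalIntegral.integral_nonneg (μ := volume) h fun t _ => hψ0 (t - 1)]
      · refine le_of_eq ?_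
        rw [intervalIntegral.integral_of_le h.le]
        refine setIntegral_eq_zero_of_forall_eq_zero fun t ht => ?_
        simp only [hψ]
        rw [if_neg]
        linarith [ht.1, le_max_right s 3]
    have h3 : m - s = max (3 - s) 0 := by
      rw [max_comm (3 - s) 0, ← sub_self s, max_sub_sub_right]
    linarith
  have hI2 : ∫ t in (max s 3)..X₂, φ (t - 1)
      ≤ s * (upTotal (n + 1) s - upSeq 0 s) + κ * (19 / 20 * (s * wUp s)) := by
    simp only [hφ]
    rw [intervalIntegral.integral_add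
      ((show Antitone fun t => lowTotal n (t - 1) from
        fun x y h => lowTotal_anti n (by linarith)).intervalIntegrable)
      ((show Antitone fun t => wLow (t - 1) from
        fun x y h => wLow_anti (by linarith)).intervalIntegrable.const_mul κ),
      intervalIntegral.integral_const_mul]
    exact add_le_add (integral_lowTotal n hs1 hX₂)
      (mul_le_mul_of_nonneg_left (contract_up hs1) hκ.le)
  have hE1' : (s + 1) * ψ (s - 1) + ∫ t in s..X₁, t * ψ (t - 1)
      ≤ 2 * E * (7 * E * (s * wUp s)) := by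
    refine (err_bound hψanti hs1 hX₁ (fun x hx => ?_) (by positivity : 0 ≤ E)).trans
      (mul_le_mul_of_nonneg_left (err_le_wUp hs1 le_rfl) (by positivity))
    simp only [hψ]
    split_ifs with h
    · rw [hE, wLow, ← Real.exp_add]; exact Real.one_le_exp (by linarith)
    · have := wLow_pos x; positivity
  have hE2 : (max s 3 + 1) * φ (max s 3 - 1) + ∫ t in (max s 3)..X₂, t * φ (t - 1)
      ≤ 2 * c * (7 * E * (s * wUp s)) := by
    refine (err_bound hφanti (le_max_of_le_left hs1) hX₂ (fun x hx => ?_) hc0).trans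
      (mul_le_mul_of_nonneg_left (err_le_wUp hs1 (le_max_left _ _)) (by positivity))
    have h2x : 2 ≤ x := by linarith [le_max_right s 3]
    simp only [hφ, hc, add_mul]
    exact add_le_add (lowTotal_le n h2x) le_rfl
  have hX : upTotal (n + 1) s ≤ upTotal n s + κ / 160 * wUp s := by
    rw [upTotal, sum_range_succ]
    exact add_le_add le_rfl (((seq_le n).1 s hs1).trans
      (mul_le_mul_of_nonneg_right htail (wUp_pos s).le))
  have hu := upTotal_le n hs1
  have hsw : 0 ≤ s * wUp s := mul_nonneg (by linarith) (wUp_pos s).le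
  rw [← mul_add]
  have hmain : (∫ t in s..X₁, ψ (t - 1)) + δ * ((s + 1) * ψ (s - 1) + ∫ t in s..X₁, t * ψ (t - 1))
      + ((∫ t in (max s 3)..X₂, φ (t - 1)) + δ * ((max s 3 + 1) * φ (max s 3 - 1)
        + ∫ t in (max s 3)..X₂, t * φ (t - 1)))
      ≤ s * (upTotal n s + (κ / 160 + 19 / 20 * κ + δ * (14 * E * (E + c))) * wUp s) := by
    have h1 := mul_le_mul_of_nonneg_left hE1' hδ0.le
    have h2 := mul_le_mul_of_nonneg_left hE2 hδ0.le
    have h3 := mul_le_mul_of_nonneg_left hX (show (0 : ℝ) ≤ s by linarith)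
    linarith
  refine (mul_le_mul_of_nonneg_left hmain (by positivity)).trans ?_
  rw [← hs, scale_cancel (by linarith : s ≠ 0)]
  exact mul_le_mul_of_nonneg_left (absorb hδ0.le hu (wUp_pos s).le hbudget) hV0

/-- The inductive step, lower. -/
theorem step_low {κ δ U₂ : ℝ} {n : ℕ} {P : Finset ℕ} {w z : ℕ} {D : ℝ} (hκ : 0 < κ) (hδ0 : 0 < δ)
    (hbudget : δ * (n * (2 * Real.exp (18 / 5))) + (1 + δ) * (19 / 20 * κ
      + δ * (14 * (n * (2 * Real.exp (18 / 5)) + κ) * Real.exp (18 / 5))) ≤ κ)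
    (hstep : ∀ (S : Finset ℕ) (D : ℝ) (z : ℕ) (l c : ℝ) (φ : ℝ → ℝ) (f : ℕ → ℝ),
      (∀ p ∈ S, p.Prime) → 0 < Real.log D → 0 < Real.log z → 1 ≤ l → 0 ≤ c → Antitone φ →
      (∀ x, 0 ≤ φ x) → (∀ p ∈ S, U₂ ≤ Real.log p ∧ l ≤ Real.log D / Real.log p) →
      (∀ p ∈ S, f p ≤ c * (Real.log z / Real.log p) * φ (Real.log D / Real.log p - 1)) →
      ∃ X, l ≤ X ∧ ∑ p ∈ S, f p / p ≤ c / (Real.log D / Real.log z) *
        ((∫ t in l..X, φ (t - 1)) + δ * ((l + 1) * φ (l - 1) + ∫ t in l..X, t * φ (t - 1))))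
    (hP : ∀ q ∈ P, q.Prime) (hD : 1 ≤ D) (hlz : 0 < Real.log z)
    (hlp : ∀ p ∈ P, w ≤ p → U₂ ≤ Real.log p ∧ 0 < Real.log p)
    (hVp : ∀ p ∈ P, w ≤ p → p < z →
      dens P p ≤ (1 + δ) * dens P z * (Real.log z / Real.log p))
    (ih : ∀ p ∈ P, w ≤ p → p < z → ∀ D : ℝ, 1 ≤ D → 1 ≤ Real.log D / Real.log p →
      dev P w p true D
        ≤ dens P p * (upTotal n (Real.log D / Real.log p) + κ * wUp (Real.log D / Real.log p)))
    (hs2 : 2 ≤ Real.log D / Real.log z) :
    dev P w z false D ≤ dens P z * (lowTotal n (Real.log D / Real.log z)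
      + κ * wLow (Real.log D / Real.log z)) := by
  classical
  set E := Real.exp (18 / 5) with hE
  set c : ℝ := (n : ℝ) * (2 * E) + κ with hc
  have hc0 : 0 ≤ c := by positivity
  set s := Real.log D / Real.log z with hs
  set V := dens P z with hV
  have hV0 : 0 ≤ V := (dens_pos hP z).le
  set S := P.filter (fun p => w ≤ p ∧ p < z) with hSdef
  have hSp : ∀ p ∈ S, p.Prime := fun p hp => hP p (mem_filter.1 hp).1
  have hgeo := geometry (U₂ := U₂) hP hD hlz hlp (s := s) hs (by linarith)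
  have hlD : 0 < Real.log D := by
    rw [hs, le_div_iff₀ hlz] at hs2; linarith
  rw [dev_eq_sum]
  set φ : ℝ → ℝ := fun x => upTotal n x + κ * wUp x with hφ
  have hφanti : Antitone φ := fun x y h =>
    add_le_add (upTotal_anti n h) (mul_le_mul_of_nonneg_left (wUp_anti h) hκ.le)
  have hφ0 : ∀ x, 0 ≤ φ x := fun x =>
    add_nonneg (upTotal_nonneg n x) (mul_nonneg hκ.le (wUp_pos x).le)
  obtain ⟨X, hX, h⟩ := hstep S D z s ((1 + δ) * V) φ (fun p => dev P w p true (D / p)) hSp hlD hlz
    (by linarith) (by positivity) hφanti hφ0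
    (fun p hp => ⟨(hgeo p hp).1, (hgeo p hp).2.1⟩)
    fun p hp => by
      obtain ⟨-, hsp, he, hge, -⟩ := hgeo p hp
      obtain ⟨-, hwp, hpz⟩ := mem_filter.1 hp
      have := ih p (mem_filter.1 hp).1 hwp hpz (D / (p : ℕ)) (hge (by linarith)) (by rw [he]; linarith)
      rw [he] at this
      exact this.trans (mul_le_mul_of_nonneg_right (hVp p (mem_filter.1 hp).1 hwp hpz) (hφ0 _))
  simp only [Bool.false_eq_true, false_and, if_false, Bool.not_false]
  refine h.trans ?_
  have hI : ∫ t in s..X, φ (t - 1) ≤ s * lowTotal n s + κ * (19 / 20 * (s * wLow s)) := by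
    simp only [hφ]
    rw [intervalIntegral.integral_add
      ((show Antitone fun t => upTotal n (t - 1) from
        fun x y h => upTotal_anti n (by linarith)).intervalIntegrable)
      ((show Antitone fun t => wUp (t - 1) from
        fun x y h => wUp_anti (by linarith)).intervalIntegrable.const_mul κ),
      intervalIntegral.integral_const_mul]
    exact add_le_add (integral_upTotal n hs2 hX)
      (mul_le_mul_of_nonneg_left (contract_low hs2 hX) hκ.le)
  have hEr : (s + 1) * φ (s - 1) + ∫ t in s..X, t * φ (t - 1)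
      ≤ 2 * (c * E) * (7 * (s * wLow s)) := by
    refine (err_bound hφanti (by linarith) hX (fun x hx => ?_) (by positivity)).trans
      (mul_le_mul_of_nonneg_left (err_le_wLow hs2) (by positivity))
    have h1 : φ x ≤ c * wUp x := by
      simp only [hφ, hc, add_mul]
      exact add_le_add (upTotal_le n (by linarith)) le_rfl
    exact h1.trans ((mul_le_mul_of_nonneg_left wUp_le_wLow hc0).trans_eq (by ring))
  have hu := lowTotal_le n hs2
  have h1 := mul_le_mul_of_nonneg_left hEr hδ0.le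
  refine (mul_le_mul_of_nonneg_left (show _ ≤ s * (lowTotal n s
    + (19 / 20 * κ + δ * (14 * c * E)) * wLow s) by linarith) (by positivity)).trans ?_
  rw [← hs, scale_cancel (by linarith : s ≠ 0)]
  exact mul_le_mul_of_nonneg_left (absorb hδ0.le hu (wLow_pos s).le hbudget) hV0

/-- Both deficits are at most the limiting ones, for every set of primes. -/
theorem linear_sieve (κ : ℝ) (hκ : 0 < κ) (n₀ : ℕ) :
    ∃ n : ℕ, n₀ ≤ n ∧ ∃ U : ℝ, 1 ≤ U ∧ ∀ (P : Finset ℕ) (w : ℕ), (∀ q ∈ P, q.Prime) →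
      U ≤ Real.log w → ∀ (z : ℕ) (D : ℝ), w ≤ z → 1 ≤ D →
        (1 ≤ Real.log D / Real.log z → dev P w z true D
          ≤ dens P z * (upTotal n (Real.log D / Real.log z)
            + κ * wUp (Real.log D / Real.log z))) ∧
        (2 ≤ Real.log D / Real.log z → dev P w z false D
          ≤ dens P z * (lowTotal n (Real.log D / Real.log z)
            + κ * wLow (Real.log D / Real.log z))) := by
  classical
  set E := Real.exp (18 / 5) with hE
  have hE1 : 1 ≤ E := Real.one_le_exp (by norm_num)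
  obtain ⟨n₁, hn₁⟩ := exists_pow_lt_of_lt_one (show 0 < κ / (320 * E) by positivity)
    (show (19 / 20 : ℝ) < 1 by norm_num)
  set n := max n₀ n₁ with hn
  refine ⟨n, le_max_left _ _, ?_⟩
  set c : ℝ := (n : ℝ) * (2 * E) + κ with hc
  set K : ℝ := 28 * E * (c * E + E) + n * (2 * E) + κ with hK
  have hc0 : 0 ≤ c := by positivity
  have hK0 : 0 < K := by positivity
  set δ := min 1 (κ / (80 * K)) with hδ
  have hδ0 : 0 < δ := lt_min one_pos (by positivity)
  have hδ1 : δ ≤ 1 := min_le_left _ _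
  have hδK : δ * K ≤ κ / 80 := by
    have := mul_le_mul_of_nonneg_right (min_le_right 1 (κ / (80 * K))) hK0.le
    refine this.trans (le_of_eq ?_)
    field_simp
  obtain ⟨U₁, hU₁, hden⟩ := density_ratio δ hδ0
  obtain ⟨U₂, -, hstep⟩ := weighted_step δ hδ0
  refine ⟨max U₁ U₂, hU₁.trans (le_max_left _ _), fun P w hP hw => ?_⟩
  have hlogw : ∀ p : ℕ, w ≤ p → max U₁ U₂ ≤ Real.log p := fun p hp => by
    refine hw.trans (Real.log_le_log ?_ (by exact_mod_cast hp))
    rcases Nat.eq_zero_or_pos w with h | h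
    · subst h; simp at hw; linarith
    · exact_mod_cast h
  have htail : 2 * E * (19 / 20 : ℝ) ^ (2 * n) ≤ κ / 160 := by
    have h1 : (19 / 20 : ℝ) ^ (2 * n) ≤ (19 / 20) ^ n₁ :=
      pow_le_pow_of_le_one (by norm_num) (by norm_num) (by omega)
    refine (mul_le_mul_of_nonneg_left (h1.trans hn₁.le) (by positivity)).trans (le_of_eq ?_)
    field_simp
    ring
  have hb := budget (N := (n : ℝ) * (2 * E)) hκ hE1 (by positivity) hδ0.le hδ1 (by
    rw [hK, hc] at hδK; linarith)
  intro z
  induction z using Nat.strong_induction_on with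
  | _ z ih =>
  intro D hwz hD
  have hlz : 0 < Real.log z := by linarith [hlogw z hwz, le_max_left U₁ U₂]
  have hlp : ∀ p ∈ P, w ≤ p → U₂ ≤ Real.log p ∧ 0 < Real.log p := fun p _ hp =>
    ⟨(le_max_right _ _).trans (hlogw p hp), by linarith [hlogw p hp, le_max_left U₁ U₂]⟩
  have hVp : ∀ p ∈ P, w ≤ p → p < z →
      dens P p ≤ (1 + δ) * dens P z * (Real.log z / Real.log p) := fun p _ hp hpz =>
    hden P p z hP ((le_max_left _ _).trans (hlogw p hp)) hpz.le
  exact ⟨step_up hκ hδ0 htail hb.1 hstep hP hD hlz hlp hVp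
      (fun p _ hp hpz D' hD' => (ih p hpz D' hp hD').2),
    step_low hκ hδ0 hb.2 hstep hP hD hlz hlp hVp
      (fun p _ hp hpz D' hD' => (ih p hpz D' hp hD').1)⟩

/-- The upper sieve at level at least one, up to an absolute constant. -/
theorem upper_const :
    ∃ (A : ℝ) (U : ℝ), 1 ≤ U ∧ ∀ (P : Finset ℕ) (w : ℕ), (∀ q ∈ P, q.Prime) → U ≤ Real.log w →
      ∀ (z : ℕ) (D : ℝ), w ≤ z → 1 ≤ D → 1 ≤ Real.log D / Real.log z →
        dens P z + dev P w z true D ≤ A * dens P z := by
  obtain ⟨n, -, U, hU, h⟩ := linear_sieve 1 one_pos 0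
  refine ⟨1 + ((n : ℝ) * (2 * Real.exp (18 / 5)) + 1) * wUp 1, U, hU,
    fun P w hP hw z D hwz hD hs => ?_⟩
  have h1 := (h P w hP hw z D hwz hD).1 hs
  have h2 : upTotal n (Real.log D / Real.log z) + 1 * wUp (Real.log D / Real.log z)
      ≤ ((n : ℝ) * (2 * Real.exp (18 / 5)) + 1) * wUp 1 := by
    rw [add_mul]
    refine add_le_add ((upTotal_le n hs).trans (mul_le_mul_of_nonneg_left (wUp_anti hs) ?_))
      (mul_le_mul_of_nonneg_left (wUp_anti hs) zero_le_one)
    positivity
  have h3 := mul_le_mul_of_nonneg_left h2 (dens_pos hP z).le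
  linarith

/-- A margin at level two when the densities decay slowly beyond some scale. -/
theorem lower_with_gain (g T : ℝ) (hg0 : 0 ≤ g) (hg1 : g < 1) (hT : 3 ≤ T) :
    ∃ γ : ℝ, 0 < γ ∧ ∃ U : ℝ, 1 ≤ U ∧ ∀ (P : Finset ℕ) (w z : ℕ) (D : ℝ),
      (∀ q ∈ P, q.Prime) → U ≤ Real.log w → w ≤ z → 1 ≤ D →
      2 ≤ Real.log D / Real.log z → Real.log D / Real.log z ≤ 3 →
      (∀ p ∈ P, w ≤ p → p < z → T ≤ Real.log D / Real.log p →
        dens P p ≤ g * dens P z * (Real.log z / Real.log p)) →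
      dev P w z false D ≤ (1 - γ) * dens P z := by
  classical
  set E := Real.exp (18 / 5) with hE
  have hE1 : 1 ≤ E := Real.one_le_exp (by norm_num)
  obtain ⟨j₀, hj₀⟩ := exists_nat_ge T
  set H := 4 + 2 * (j₀ : ℝ) with hH
  have hTH : T < H := by linarith [(Nat.cast_nonneg j₀ : (0 : ℝ) ≤ j₀)]
  set I := ∫ t in T..H, upSeq j₀ (t - 1) with hI
  have hI0 : 0 < I := intervalIntegral.intervalIntegral_pos_of_pos_on
    ((upSeq_profile j₀).integrable_shift _ _)
    (fun t ht => upSeq_pos j₀ _ (by linarith [ht.1]) (by linarith [ht.2])) hTH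
  set γ := (1 - g) * I / 12 with hγ
  have hγ0 : 0 < γ := by have : 0 < 1 - g := by linarith
                         positivity
  set κ := γ with hκ
  obtain ⟨n, hn, U₀, hU₀, hsieve⟩ := linear_sieve κ hγ0 (j₀ + 1)
  set c : ℝ := (n : ℝ) * (2 * E) + κ with hc
  have hc0 : 0 ≤ c := by positivity
  set δ := min 1 (γ / (4 + 14 * c * E)) with hδ
  have hδ0 : 0 < δ := lt_min one_pos (by positivity)
  have hδc : δ * (4 + 14 * c * E) ≤ γ := by
    have := mul_le_mul_of_nonneg_right (min_le_right 1 (γ / (4 + 14 * c * E)))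
      (show (0 : ℝ) ≤ 4 + 14 * c * E by positivity)
    rwa [div_mul_cancel₀ _ (by positivity)] at this
  obtain ⟨U₁, hU₁, hden⟩ := density_ratio δ hδ0
  obtain ⟨U₂, -, hstep⟩ := weighted_step δ hδ0
  refine ⟨γ, hγ0, max U₀ (max U₁ U₂), hU₀.trans (le_max_left _ _),
    fun P w z D hP hw hwz hD hs2 hs3 hgain => ?_⟩
  have hw0 : U₀ ≤ Real.log w := (le_max_left _ _).trans hw
  have hlogw : ∀ p : ℕ, w ≤ p → max U₀ (max U₁ U₂) ≤ Real.log p := fun p hp => by
    refine hw.trans (Real.log_le_log ?_ (by exact_mod_cast hp))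
    rcases Nat.eq_zero_or_pos w with h | h
    · subst h; simp at hw0; linarith
    · exact_mod_cast h
  have hlz : 0 < Real.log z := by linarith [hlogw z hwz, le_max_left U₀ (max U₁ U₂)]
  set s := Real.log D / Real.log z with hs
  set V := dens P z with hV
  have hV0 : 0 ≤ V := (dens_pos hP z).le
  set S := P.filter (fun p => w ≤ p ∧ p < z) with hSdef
  have hlD : 0 < Real.log D := by rw [hs, le_div_iff₀ hlz] at hs2; linarith
  set κf : ℝ → ℝ := fun x => if x < T - 1 then 1 else g with hκf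
  have hκanti : Antitone κf := fun x y h => by simp only [hκf]; split_ifs <;> linarith
  have hκ0 : ∀ x, 0 ≤ κf x := fun x => by simp only [hκf]; split_ifs <;> linarith
  have hκ1 : ∀ x, κf x ≤ 1 := fun x => by simp only [hκf]; split_ifs <;> linarith
  set φ : ℝ → ℝ := fun x => upTotal n x + κ * wUp x with hφ
  have hφanti : Antitone φ := fun x y h =>
    add_le_add (upTotal_anti n h) (mul_le_mul_of_nonneg_left (wUp_anti h) hγ0.le)
  have hφ0 : ∀ x, 0 ≤ φ x := fun x =>
    add_nonneg (upTotal_nonneg n x) (mul_nonneg hγ0.le (wUp_pos x).le)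
  have hgeo : ∀ p ∈ S, 0 < Real.log p ∧ s ≤ Real.log D / Real.log p := fun p hp => by
    obtain ⟨hpP, hwp, hpz⟩ := mem_filter.1 hp
    have hlp : 0 < Real.log p := by linarith [hlogw p hwp, le_max_left U₀ (max U₁ U₂)]
    exact ⟨hlp, div_le_div_of_nonneg_left hlD.le hlp
      (Real.log_le_log (by exact_mod_cast (hP p hpP).pos) (by exact_mod_cast hpz.le))⟩
  obtain ⟨X, hX, h⟩ := hstep S D z s ((1 + δ) * V) (fun x => κf x * φ x)
    (fun p => dev P w p true (D / p)) (fun p hp => hP p (mem_filter.1 hp).1) hlD hlz (by linarith)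
    (by positivity) (fun x y h => mul_le_mul (hκanti h) (hφanti h) (hφ0 _) (hκ0 _))
    (fun x => mul_nonneg (hκ0 x) (hφ0 x))
    (fun p hp => ⟨((le_max_right U₁ U₂).trans (le_max_right U₀ _)).trans
      (hlogw p (mem_filter.1 hp).2.1), (hgeo p hp).2⟩)
    fun p hp => by
      obtain ⟨hpP, hwp, hpz⟩ := mem_filter.1 hp
      obtain ⟨hlp, hsp⟩ := hgeo p hp
      have hp0 : (0 : ℝ) < p := by exact_mod_cast (hP p hpP).pos
      have he : Real.log (D / p) / Real.log p = Real.log D / Real.log p - 1 := by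
        rw [Real.log_div (by linarith) hp0.ne', sub_div, div_self hlp.ne']
      have h1D : 1 ≤ D / p := by
        rw [one_le_div hp0, ← Real.log_le_log_iff hp0 (by linarith)]
        have := (le_div_iff₀ hlp).1 (show 1 ≤ Real.log D / Real.log p by linarith)
        linarith
      have hrec := (hsieve P w hP hw0 p (D / p) hwp h1D).1 (by rw [he]; linarith)
      rw [he] at hrec
      refine hrec.trans ?_
      rw [← mul_assoc]
      refine mul_le_mul_of_nonneg_right ?_ (hφ0 _)
      simp only [hκf]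
      split_ifs with hT'
      · rw [mul_one]
        exact hden P p z hP (((le_max_left U₁ U₂).trans (le_max_right U₀ _)).trans (hlogw p hwp)) hpz.le
      · refine (hgain p hpP hwp hpz (by linarith)).trans ?_
        have : 0 ≤ δ * (g * V * (Real.log z / Real.log p)) := by positivity
        linarith
  rw [dev_eq_sum]
  simp only [Bool.false_eq_true, false_and, if_false, Bool.not_false]
  refine h.trans ?_
  have hint : ∀ (f : ℝ → ℝ), Antitone f → ∀ a b, IntervalIntegrable (fun t => f (t - 1)) volume a b :=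
    fun f hf a b => (show Antitone fun t => f (t - 1) from fun x y h => hf (by linarith)).intervalIntegrable
  have hmain : ∫ t in s..X, κf (t - 1) * φ (t - 1)
      ≤ s * lowTotal n s + κ * (19 / 20 * (s * wLow s)) - (1 - g) * I := by
    set X' := max X H
    have hsT : s ≤ T := hs3.trans hT
    have hprod : Antitone fun x => κf x * φ x := fun x y h =>
      mul_le_mul (hκanti h) (hφanti h) (hφ0 _) (hκ0 _)
    have h1 : ∫ t in s..X, κf (t - 1) * φ (t - 1) ≤ ∫ t in s..X', κf (t - 1) * φ (t - 1) := by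
      rw [← intervalIntegral.integral_add_adjacent_intervals (hint _ hprod s X) (hint _ hprod X X')]
      linarith [intervalIntegral.integral_nonneg (μ := volume) (le_max_left X H)
        fun t _ => mul_nonneg (hκ0 (t - 1)) (hφ0 (t - 1))]
    have hTX : T ≤ X' := hTH.le.trans (le_max_right _ _)
    have h2 : ∫ t in s..X', κf (t - 1) * φ (t - 1)
        ≤ (∫ t in s..T, φ (t - 1)) + g * ∫ t in T..X', φ (t - 1) := by
      rw [← intervalIntegral.integral_add_adjacent_intervals (hint _ hprod s T) (hint _ hprod T X'),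
        ← intervalIntegral.integral_const_mul]
      refine add_le_add (intervalIntegral.integral_mono_on hsT (hint _ hprod s T) (hint _ hφanti s T)
        fun t _ => mul_le_of_le_one_left (hφ0 _) (hκ1 _)) (intervalIntegral.integral_mono_on hTX
          (hint _ hprod T X') ((hint _ hφanti T X').const_mul g) fun t ht => ?_)
      simp only [hκf]
      rw [if_neg (by linarith [ht.1])]
    have h3 : ∫ t in s..X', φ (t - 1) = (∫ t in s..T, φ (t - 1)) + ∫ t in T..X', φ (t - 1) :=
      (intervalIntegral.integral_add_adjacent_intervals (hint _ hφanti s T) (hint _ hφanti T X')).symm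
    have h4 : I ≤ ∫ t in T..X', φ (t - 1) := by
      have hle : ∀ x, upSeq j₀ x ≤ φ x := fun x => by
        simp only [hφ, upTotal]
        have := single_le_sum (f := fun j => upSeq j x) (fun j _ => (upSeq_profile j).nonneg x)
          (Finset.mem_range.2 (show j₀ < n by omega))
        linarith [mul_nonneg hγ0.le (wUp_pos x).le]
      refine le_trans ?_ (intervalIntegral.integral_mono_on hTX
        ((upSeq_profile j₀).integrable_shift _ _) (hint _ hφanti T X') fun t _ => hle _)
      rw [← intervalIntegral.integral_add_adjacent_intervals ((upSeq_profile j₀).integrable_shift T H)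
        ((upSeq_profile j₀).integrable_shift H X'), hI]
      linarith [intervalIntegral.integral_nonneg (μ := volume) (le_max_right X H)
        fun t _ => (upSeq_profile j₀).nonneg (t - 1)]
    have h5 : ∫ t in s..X', φ (t - 1) ≤ s * lowTotal n s + κ * (19 / 20 * (s * wLow s)) := by
      have hsX' : s ≤ X' := hX.trans (le_max_left _ _)
      simp only [hφ]
      rw [intervalIntegral.integral_add (hint _ (upTotal_anti n) _ _)
        ((hint _ wUp_anti _ _).const_mul κ), intervalIntegral.integral_const_mul]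
      exact add_le_add (integral_upTotal n hs2 hsX')
        (mul_le_mul_of_nonneg_left (contract_low hs2 hsX') hγ0.le)
    nlinarith
  have hEr : (s + 1) * (κf (s - 1) * φ (s - 1)) + ∫ t in s..X, t * (κf (t - 1) * φ (t - 1))
      ≤ 2 * (c * E) * (7 * (s * wLow s)) := by
    refine (err_bound (φ := fun x => κf x * φ x) (fun x y h => mul_le_mul (hκanti h) (hφanti h)
      (hφ0 _) (hκ0 _)) (by linarith) hX (fun x hx => ?_) (by positivity)).trans
        (mul_le_mul_of_nonneg_left (err_le_wLow hs2) (by positivity))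
    have h1 : φ x ≤ c * wUp x := by
      simp only [hφ, hc, add_mul]
      exact add_le_add (upTotal_le n (by linarith)) le_rfl
    exact (mul_le_of_le_one_left (hφ0 x) (hκ1 x)).trans
      (h1.trans ((mul_le_mul_of_nonneg_left wUp_le_wLow hc0).trans_eq (by ring)))
  have hG1 : lowTotal n s ≤ 1 := (lowTotal_anti n hs2).trans (sum_lowSeq_two_le n)
  have hw1 : wLow s ≤ 1 := Real.exp_le_one_iff.2 (by linarith)
  have hgI : 4 * γ * s ≤ (1 - g) * I := by
    rw [show γ = (1 - g) * I / 12 from hγ]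
    linarith [mul_le_mul_of_nonneg_left hs3 (show 0 ≤ (1 - g) * I by
      have : 0 < 1 - g := by linarith
      positivity)]
  have h1 := mul_le_mul_of_nonneg_left hEr hδ0.le
  refine (mul_le_mul_of_nonneg_left (show _ ≤ s * (lowTotal n s - 4 * γ
    + (κ + δ * (14 * c * E)) * wLow s) by
      have : 0 ≤ κ * (s * wLow s) := by have := wLow_pos s; positivity
      linarith) (by positivity)).trans ?_
  rw [← hs, scale_cancel (by linarith : s ≠ 0)]
  · rw [mul_comm (1 - γ)]
    refine mul_le_mul_of_nonneg_left ?_ hV0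
    have h4 : (κ + δ * (14 * c * E)) * wLow s ≤ 2 * γ := by
      refine (mul_le_of_le_one_right (by positivity) hw1).trans ?_
      rw [hκ]; linarith
    have h5 : δ * (lowTotal n s - 4 * γ + (κ + δ * (14 * c * E)) * wLow s) ≤ δ * 1 :=
      mul_le_mul_of_nonneg_left (by linarith) hδ0.le
    linarith [mul_nonneg hδ0.le hγ0.le, mul_nonneg (mul_nonneg hδ0.le hc0) (show (0:ℝ) ≤ E by linarith)]

end Vale.Agent.P013
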