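import Mathlib

/-!
# P013: the limiting deficits of the linear recursion

`upSeq` and `lowSeq` are the successive limiting deficits, one pair for each two steps.  Their first
moments telescope, which gives that the lower ones sum to at most one at level two.
-/

namespace Vale.Agent.P013

open MeasureTheory intervalIntegral Set

/-- One step of the limiting recursion. -/
noncomputable def tailPart (f : ℝ → ℝ) (lo hi s : ℝ) : ℝ :=
  (∫ t in (min (max s lo) hi)..hi, f (t - 1)) / max s 1

/-- The upper deficits. -/
noncomputable def upSeq : ℕ → ℝ → ℝ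
  | 0 => fun s => max (3 - s) 0 / max s 1
  | j + 1 => tailPart (tailPart (upSeq j) 2 (4 + 2 * (j : ℝ))) 3 (5 + 2 * (j : ℝ))

/-- The lower deficits. -/
noncomputable def lowSeq (j : ℕ) : ℝ → ℝ := tailPart (upSeq j) 2 (4 + 2 * (j : ℝ))

theorem upSeq_succ (j : ℕ) : upSeq (j + 1) = tailPart (lowSeq j) 3 (5 + 2 * (j : ℝ)) := rfl

/-- Nonnegative, continuous, antitone and zero from `b` on. -/
structure Profile (f : ℝ → ℝ) (b : ℝ) : Prop where
  cont : Continuous f
  anti : Antitone f
  nonneg : ∀ x, 0 ≤ f x
  vanish : ∀ x, b ≤ x → f x = 0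

theorem Profile.integrable_shift {f : ℝ → ℝ} {b : ℝ} (h : Profile f b) (x y : ℝ) :
    IntervalIntegrable (fun t => f (t - 1)) volume x y :=
  (h.cont.comp (continuous_id.sub continuous_const)).intervalIntegrable x y

theorem tailPart_profile {f : ℝ → ℝ} {b : ℝ} (h : Profile f b) (lo hi : ℝ) :
    Profile (tailPart f lo hi) hi := by
  have hc : Continuous fun t => f (t - 1) := h.cont.comp (continuous_id.sub continuous_const)
  have hnn : ∀ x, x ≤ hi → 0 ≤ ∫ t in x..hi, f (t - 1) := fun x hx =>
    integral_nonneg hx fun t _ => h.nonneg _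
  refine ⟨?_, ?_, fun s => ?_, fun s hs => ?_⟩
  · refine Continuous.div ?_ (continuous_id.max continuous_const) fun s =>
      (lt_of_lt_of_le one_pos (le_max_right s 1)).ne'
    have h1 : Continuous fun y => ∫ t in hi..y, f (t - 1) :=
      intervalIntegral.continuous_primitive (fun a b => hc.intervalIntegrable a b) hi
    have h2 : (fun s => ∫ t in (min (max s lo) hi)..hi, f (t - 1))
        = fun s => -∫ t in hi..(min (max s lo) hi), f (t - 1) :=
      funext fun s => integral_symm _ _
    rw [h2]
    exact (h1.comp ((continuous_id.max continuous_const).min continuous_const)).neg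
  · intro x y hxy
    have hab : min (max x lo) hi ≤ min (max y lo) hi := min_le_min (max_le_max hxy le_rfl) le_rfl
    refine div_le_div₀ (hnn _ (min_le_right _ _)) ?_ (lt_of_lt_of_le one_pos (le_max_right x 1))
      (max_le_max hxy le_rfl)
    have e := integral_add_adjacent_intervals
      (h.integrable_shift (min (max x lo) hi) (min (max y lo) hi))
      (h.integrable_shift (min (max y lo) hi) hi)
    rw [← e]
    linarith [integral_nonneg (μ := volume) hab fun t _ => h.nonneg (t - 1)]
  · exact div_nonneg (hnn _ (min_le_right _ _)) (zero_le_one.trans (le_max_right _ _))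
  · rw [tailPart, min_eq_right (hs.trans (le_max_left _ _)), integral_same, zero_div]

theorem upSeq_profile : ∀ j : ℕ, Profile (upSeq j) (3 + 2 * (j : ℝ))
  | 0 => by
    refine ⟨?_, ?_, fun s => ?_, fun s hs => ?_⟩
    · exact ((continuous_const.sub continuous_id).max continuous_const).div
        (continuous_id.max continuous_const) fun s =>
          (lt_of_lt_of_le one_pos (le_max_right s 1)).ne'
    · intro x y hxy
      exact div_le_div₀ (le_max_right _ _) (max_le_max (by linarith) le_rfl)
        (lt_of_lt_of_le one_pos (le_max_right x 1)) (max_le_max hxy le_rfl)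
    · exact div_nonneg (le_max_right _ _) (zero_le_one.trans (le_max_right _ _))
    · simp only [upSeq, Nat.cast_zero, mul_zero, add_zero] at hs ⊢
      rw [max_eq_right (by linarith), zero_div]
  | j + 1 => by
    have h1 := tailPart_profile (upSeq_profile j) 2 (4 + 2 * (j : ℝ))
    have h2 := tailPart_profile h1 3 (5 + 2 * (j : ℝ))
    have e : (3 : ℝ) + 2 * ((j + 1 : ℕ) : ℝ) = 5 + 2 * (j : ℝ) := by push_cast; ring
    rw [e]
    exact h2

theorem lowSeq_profile (j : ℕ) : Profile (lowSeq j) (4 + 2 * (j : ℝ)) :=
  tailPart_profile (upSeq_profile j) _ _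

/-- The integral beyond the lower end is at most the step. -/
theorem integral_le_tailPart {f : ℝ → ℝ} {b : ℝ} (h : Profile f b) {lo hi s X : ℝ}
    (hb : b + 1 ≤ hi) (hs : 1 ≤ s) (hX : max s lo ≤ X) :
    ∫ t in (max s lo)..X, f (t - 1) ≤ s * tailPart f lo hi s := by
  rw [tailPart, max_eq_left hs, mul_div_cancel₀ _ (by linarith : s ≠ 0)]
  set m := max s lo
  have hz : ∀ x y, hi ≤ x → hi ≤ y → ∫ t in x..y, f (t - 1) = 0 := fun x y hx hy => by
    refine (integral_congr fun t ht => ?_).trans integral_zero
    have : hi ≤ t := le_trans (le_min hx hy) ht.1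
    exact h.vanish _ (by linarith)
  rcases le_or_gt m hi with hm | hm
  · rw [min_eq_left hm]
    rcases le_or_gt X hi with hXi | hXi
    · rw [← integral_add_adjacent_intervals (h.integrable_shift m X) (h.integrable_shift X hi)]
      linarith [integral_nonneg (μ := volume) hXi fun t _ => h.nonneg (t - 1)]
    · rw [← integral_add_adjacent_intervals (h.integrable_shift m hi) (h.integrable_shift hi X),
        hz hi X le_rfl hXi.le, add_zero]
  · rw [min_eq_right hm.le, integral_same, hz m X hm.le (hm.le.trans hX)]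

theorem tailPart_pos {f : ℝ → ℝ} {b lo hi s : ℝ} (h : Profile f b) (hlo : lo < hi) (hs : s < hi)
    (hf : ∀ x, lo - 1 ≤ x → x < hi - 1 → 0 < f x) : 0 < tailPart f lo hi s := by
  refine div_pos ?_ (lt_of_lt_of_le one_pos (le_max_right _ _))
  refine intervalIntegral_pos_of_pos_on (h.integrable_shift _ _) (fun t ht => ?_)
    (lt_of_eq_of_lt (min_eq_left (max_le hs.le hlo.le)) (max_lt hs hlo))
  rw [min_eq_left (max_le hs.le hlo.le)] at ht
  exact hf _ (by linarith [le_max_right s lo, ht.1]) (by linarith [ht.2])

theorem upSeq_pos : ∀ j : ℕ, ∀ x, 1 ≤ x → x < 3 + 2 * (j : ℝ) → 0 < upSeq j x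
  | 0, x, h1, h3 => by
    simp only [upSeq, Nat.cast_zero, mul_zero, add_zero] at h3 ⊢
    exact div_pos (lt_max_of_lt_left (by linarith)) (lt_of_lt_of_le one_pos (le_max_right x 1))
  | j + 1, x, h1, h3 => by
    have hj : (0 : ℝ) ≤ j := Nat.cast_nonneg j
    push_cast at h3
    rw [upSeq_succ]
    refine tailPart_pos (lowSeq_profile j) (by linarith) (by linarith) fun y hy1 hy2 => ?_
    refine tailPart_pos (upSeq_profile j) (by linarith) (by linarith) fun z hz1 hz2 => ?_
    exact upSeq_pos j z (by linarith) (by linarith)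

/-- Integration by parts for one step. -/
theorem integral_tail {f : ℝ → ℝ} (hc : Continuous f) (a b : ℝ) :
    ∫ s in a..b, (∫ t in s..b, f t) = ∫ t in a..b, (t - a) * f t := by
  have hF : ∀ s, HasDerivAt (fun s => ∫ t in s..b, f t) (-f s) s := fun s =>
    integral_hasDerivAt_left (hc.intervalIntegrable s b)
      hc.aestronglyMeasurable.stronglyMeasurableAtFilter hc.continuousAt
  have h := integral_mul_deriv_eq_deriv_mul (u := fun s => ∫ t in s..b, f t)
    (v := fun s : ℝ => s - a) (u' := fun s => -f s) (v' := fun _ => (1 : ℝ))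
    (fun s _ => hF s) (fun s _ => (hasDerivAt_id' s).sub_const a)
    (hc.neg.intervalIntegrable a b) intervalIntegrable_const
  simp only [mul_one, integral_same, sub_self, mul_zero, zero_mul, zero_sub] at h
  rw [h, ← intervalIntegral.integral_neg]
  exact integral_congr fun t _ => by ring

/-- `∫ f` over the domain of an upper deficit. -/
noncomputable def massUp (j : ℕ) : ℝ := ∫ x in (1 : ℝ)..(3 + 2 * (j : ℝ)), upSeq j x

/-- The first moment of an upper deficit. -/
noncomputable def momUp (j : ℕ) : ℝ := ∫ x in (1 : ℝ)..(3 + 2 * (j : ℝ)), x * upSeq j x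

theorem momUp_zero : momUp 0 = 2 := by
  have h : ∀ x ∈ uIcc (1 : ℝ) (3 + 2 * ((0 : ℕ) : ℝ)), x * upSeq 0 x = 3 - x := fun x hx => by
    rw [uIcc_of_le (by norm_num)] at hx
    obtain ⟨h1, h2⟩ := hx
    norm_num at h2
    simp only [upSeq]
    rw [max_eq_left (by linarith : (0 : ℝ) ≤ 3 - x), max_eq_left h1]
    field_simp
  rw [momUp, integral_congr h, intervalIntegral.integral_sub intervalIntegrable_const
    (continuous_id'.intervalIntegrable _ _)]
  simp
  norm_num

theorem momUp_nonneg (j : ℕ) : 0 ≤ momUp j :=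
  integral_nonneg (by linarith [(Nat.cast_nonneg j : (0 : ℝ) ≤ j)]) fun x hx =>
    mul_nonneg (by linarith [hx.1]) ((upSeq_profile j).nonneg x)

theorem lowSeq_two (j : ℕ) : lowSeq j 2 = massUp j / 2 := by
  have hj : (0 : ℝ) ≤ j := Nat.cast_nonneg j
  rw [lowSeq, tailPart, max_self, min_eq_left (by linarith),
    max_eq_left (by norm_num : (1 : ℝ) ≤ 2), integral_comp_sub_right, massUp]
  norm_num
  congr 2
  ring

theorem momUp_succ (j : ℕ) : momUp (j + 1) = momUp j - massUp j := by
  have hj : (0 : ℝ) ≤ j := Nat.cast_nonneg j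
  set H : ℝ := 4 + 2 * (j : ℝ) with hH
  have hu := upSeq_profile j
  have hl := lowSeq_profile j
  have hcl : Continuous fun t => lowSeq j (t - 1) :=
    hl.cont.comp (continuous_id.sub continuous_const)
  have hcu : Continuous fun t => upSeq j (t - 1) :=
    hu.cont.comp (continuous_id.sub continuous_const)
  -- the moment of the lower deficit
  have hQ : ∫ x in (2 : ℝ)..H, x * lowSeq j x = momUp j - massUp j := by
    have e1 : ∀ x ∈ uIcc (2 : ℝ) H, x * lowSeq j x = ∫ t in x..H, upSeq j (t - 1) := fun x hx => by
      rw [uIcc_of_le (by rw [hH]; linarith)] at hx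
      obtain ⟨h1, h2⟩ := hx
      rw [lowSeq, tailPart, max_eq_left h1, max_eq_left (by linarith : (1 : ℝ) ≤ x), ← hH,
        min_eq_left h2]
      field_simp
    rw [integral_congr e1, integral_tail hcu]
    have e2 : (fun t : ℝ => (t - 2) * upSeq j (t - 1)) = fun t => (fun x => (x - 1) * upSeq j x) (t - 1) := by
      funext t; simp only; ring
    have e3 : H - 1 = 3 + 2 * (j : ℝ) := by rw [hH]; ring
    rw [e2, integral_comp_sub_right (fun x => (x - 1) * upSeq j x), e3, momUp, massUp,
      ← intervalIntegral.integral_sub (f := fun x => x * upSeq j x)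
        ((continuous_id'.mul hu.cont).intervalIntegrable _ _)
        (hu.cont.intervalIntegrable _ _)]
    norm_num
    exact integral_congr fun x _ => by simp only [sub_mul, one_mul]
  set H' : ℝ := 5 + 2 * (j : ℝ) with hH'
  have eH : (3 : ℝ) + 2 * ((j + 1 : ℕ) : ℝ) = H' := by rw [hH']; push_cast; ring
  have hint : ∀ a b, IntervalIntegrable (fun x => x * upSeq (j + 1) x) volume a b := fun a b =>
    (continuous_id'.mul (upSeq_profile (j + 1)).cont).intervalIntegrable a b
  rw [momUp, eH, ← integral_add_adjacent_intervals (hint 1 3) (hint 3 H')]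
  have f1 : ∀ x ∈ uIcc (1 : ℝ) 3, x * upSeq (j + 1) x = ∫ t in (3 : ℝ)..H', lowSeq j (t - 1) :=
    fun x hx => by
      rw [uIcc_of_le (by norm_num)] at hx
      rw [upSeq_succ, tailPart, max_eq_right hx.2, max_eq_left hx.1, ← hH',
        min_eq_left (by rw [hH']; linarith)]
      field_simp [(by linarith [hx.1] : x ≠ 0)]
  have f2 : ∀ x ∈ uIcc (3 : ℝ) H', x * upSeq (j + 1) x = ∫ t in x..H', lowSeq j (t - 1) :=
    fun x hx => by
      rw [uIcc_of_le (by rw [hH']; linarith)] at hx
      obtain ⟨h1, h2⟩ := hx
      rw [upSeq_succ, tailPart, max_eq_left h1, max_eq_left (by linarith : (1 : ℝ) ≤ x), ← hH',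
        min_eq_left h2]
      field_simp
  rw [integral_congr f1, integral_congr f2, intervalIntegral.integral_const, smul_eq_mul,
    integral_tail hcl, ← intervalIntegral.integral_const_mul,
    ← intervalIntegral.integral_add (g := fun t => (t - 3) * lowSeq j (t - 1))
      ((hcl.intervalIntegrable _ _).const_mul _)
      (((continuous_id'.sub continuous_const).mul hcl).intervalIntegrable _ _), ← hQ]
  have e2 : (fun t : ℝ => (3 - 1) * lowSeq j (t - 1) + (t - 3) * lowSeq j (t - 1))
      = fun t => (fun x => x * lowSeq j x) (t - 1) := by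
    funext t; simp only; ring
  have e3 : H' - 1 = H := by rw [hH', hH]; ring
  rw [e2, integral_comp_sub_right (fun x => x * lowSeq j x), e3]
  norm_num

/-- The lower deficits sum to at most one at level two. -/
theorem sum_lowSeq_two_le (n : ℕ) : ∑ j ∈ Finset.range n, lowSeq j 2 ≤ 1 := by
  have h : ∀ n, ∑ j ∈ Finset.range n, massUp j = momUp 0 - momUp n := by
    intro n
    induction n with
    | zero => simp
    | succ n ih => rw [Finset.sum_range_succ, ih, momUp_succ]; ring
  simp only [lowSeq_two, ← Finset.sum_div, h, momUp_zero]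
  linarith [momUp_nonneg n]

end Vale.Agent.P013
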