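import Vale.Agent.P013.Bound

/-!
# P013: short intervals containing an integer prime to `n`

`window_bound`: if the prime factors of `n` are thin in one range `(k ^ a, k ^ b]`, `k = ω n`, then
every interval of length `C * k ^ (2 - η)` holds an integer prime to `n`.
-/

namespace Vale.Agent.P013

open Finset Filter

theorem exists_coprime_of_sifted {n : ℕ} (hn : n ≠ 0) {a : ℤ} {L z : ℕ}
    (h : ∃ m ∈ sifted n.primeFactors a L 1 z, ∀ p ∈ n.primeFactors, z ≤ p → ¬(p : ℤ) ∣ m) :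
    ∃ m : ℤ, a ≤ m ∧ m < a + L ∧ Int.gcd m n = 1 := by
  obtain ⟨m, hm, hbig⟩ := h
  simp only [sifted, Finset.mem_filter, Finset.mem_Ico] at hm
  obtain ⟨⟨h1, h2⟩, -, hsmall⟩ := hm
  refine ⟨m, h1, h2, ?_⟩
  by_contra hne
  obtain ⟨p, hp, hpd⟩ := Nat.exists_prime_and_dvd hne
  have hd : (p : ℤ) ∣ m :=
    (Int.natCast_dvd_natCast.2 hpd).trans (Int.gcd_dvd_left m n)
  have hdn : p ∣ n :=
    Int.natCast_dvd_natCast.1 ((Int.natCast_dvd_natCast.2 hpd).trans (Int.gcd_dvd_right m n))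
  have hmem : p ∈ n.primeFactors := Nat.mem_primeFactors.2 ⟨hp, hdn, hn⟩
  rcases lt_or_ge p z with h | h
  · exact hsmall p hmem h hd
  · exact hbig p hmem h hd

/-- The finite bound used for few prime factors. -/
theorem small_bound (n : ℕ) (hn : n ≠ 0) (a : ℤ) (L : ℕ)
    (hL : (4 : ℝ) ^ n.primeFactors.card < L) : ∃ m : ℤ, a ≤ m ∧ m < a + L ∧ Int.gcd m n = 1 := by
  set P := n.primeFactors
  set z := P.sup id + 1 with hz
  have hP : ∀ p ∈ P, p.Prime := fun p hp => Nat.prime_of_mem_primeFactors hp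
  have hlt : ∀ p ∈ P, p < z := fun p hp => Nat.lt_succ_of_le (le_sup (f := id) hp)
  have hall : P.filter (fun p => p < z) = P := filter_true_of_mem hlt
  have h := abs_le.1 (count_exact hP a L z 1 one_pos fun p hp _ h1 =>
    (hP p hp).one_lt.ne' (Nat.dvd_one.1 h1))
  rw [hall, Nat.cast_one, div_one] at h
  have hd : ((2 : ℝ) ^ P.card)⁻¹ ≤ dens P z := by
    rw [dens, hall, ← inv_pow, ← prod_const]
    refine prod_le_prod (fun p _ => by norm_num) fun p hp => ?_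
    linarith [(inv_prime_mem (hP p hp)).2]
  have h4 : (2 : ℝ) ^ P.card * 2 ^ P.card = 4 ^ P.card := by rw [← mul_pow]; norm_num
  have hpos : (0 : ℝ) < (sifted P a L 1 z).card := by
    have h2 : (0 : ℝ) < 2 ^ P.card := by positivity
    have h3 : (2 : ℝ) ^ P.card < L * ((2 : ℝ) ^ P.card)⁻¹ := by
      rw [← div_eq_mul_inv, lt_div_iff₀ h2, h4]; exact hL
    have := mul_le_mul_of_nonneg_left hd (Nat.cast_nonneg L : (0 : ℝ) ≤ L)
    linarith
  obtain ⟨m, hm⟩ := Finset.card_pos.1 (by exact_mod_cast hpos)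
  exact exists_coprime_of_sifted hn ⟨m, hm, fun p hp hzp => absurd (hlt p hp) (not_lt.2 hzp)⟩

theorem log_pow_nat (k : ℕ) (x : ℝ) (hk : 0 < k) :
    Real.log ((k : ℝ) ^ x) = x * Real.log k := Real.log_rpow (by exact_mod_cast hk) x

theorem log_floor_rpow {k : ℕ} {x : ℝ} (hk : 0 < k) (h : 2 ≤ x * Real.log k) :
    x * Real.log k - 1 ≤ Real.log (⌊(k : ℝ) ^ x⌋₊ : ℝ) ∧
      Real.log (⌊(k : ℝ) ^ x⌋₊ : ℝ) ≤ x * Real.log k ∧ 0 < ⌊(k : ℝ) ^ x⌋₊ := by
  have hk0 : (0 : ℝ) < k := by exact_mod_cast hk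
  have e : (k : ℝ) ^ x = Real.exp (x * Real.log k) := by rw [Real.rpow_def_of_pos hk0, mul_comm]
  rw [e]
  set y := x * Real.log k
  have h3 : (3 : ℝ) ≤ Real.exp y := by linarith [Real.add_one_le_exp y]
  have hpos : 0 < ⌊Real.exp y⌋₊ := Nat.floor_pos.2 (by linarith)
  have hf : (0 : ℝ) < (⌊Real.exp y⌋₊ : ℝ) := by exact_mod_cast hpos
  refine ⟨?_, ?_, hpos⟩
  · rw [Real.le_log_iff_exp_le hf, Real.exp_sub, div_le_iff₀ (Real.exp_pos 1)]
    have h1 := Nat.lt_floor_add_one (Real.exp y)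
    have h2 : (2 : ℝ) ≤ Real.exp 1 := by linarith [Real.add_one_le_exp (1 : ℝ)]
    nlinarith
  · exact (Real.log_le_iff_le_exp hf).2 (Nat.floor_le (Real.exp_pos _).le)

theorem dens_ge_half_pow {P : Finset ℕ} (hP : ∀ p ∈ P, p.Prime) (w : ℕ) :
    ((2 : ℝ) ^ w)⁻¹ ≤ dens P w := by
  refine le_trans ?_ (le_trans (b := ((2 : ℝ) ^ (P.filter fun p => p < w).card)⁻¹) le_rfl ?_)
  · refine inv_anti₀ (by positivity) (pow_le_pow_right₀ (by norm_num) ?_)
    exact (card_le_card fun p hp => Finset.mem_range.2 (mem_filter.1 hp).2).trans (card_range w).le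
  · rw [dens, ← inv_pow, ← prod_const]
    refine prod_le_prod (fun p _ => by norm_num) fun p hp => ?_
    linarith [(inv_prime_mem (hP p (mem_filter.1 hp).1)).2]

theorem errProd_le {P : Finset ℕ} (hP : ∀ p ∈ P, p.Prime) {w z : ℕ} (hwz : w ≤ z) {R : ℝ}
    (hR : dens P w ≤ R * dens P z) : errProd P w z ≤ 2 ^ w * R := by
  refine mul_le_mul_of_nonneg_left ?_ (by positivity)
  have hV := dens_pos hP z
  refine le_trans ?_ ((div_le_iff₀ hV).2 hR)
  have e : dens P z = dens P w * ∏ p ∈ P.filter (fun p => w ≤ p ∧ p < z), (1 - (p : ℝ)⁻¹) := by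
    rw [dens, dens, ← prod_union]
    · refine prod_congr ?_ fun _ _ => rfl
      ext p
      simp only [mem_filter, mem_union]
      constructor
      · rintro ⟨h1, h2⟩
        rcases lt_or_ge p w with h | h
        · exact Or.inl ⟨h1, h⟩
        · exact Or.inr ⟨h1, h, h2⟩
      · rintro (⟨h1, h2⟩ | ⟨h1, -, h3⟩)
        · exact ⟨h1, lt_of_lt_of_le h2 hwz⟩
        · exact ⟨h1, h3⟩
    · rw [disjoint_left]
      intro p h1 h2
      simp only [mem_filter] at h1 h2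
      omega
  rw [le_div_iff₀ hV, e, mul_comm, mul_assoc, ← prod_mul_distrib]
  refine mul_le_of_le_one_right (dens_pos hP w).le (prod_le_one (fun p hp => ?_) fun p hp => ?_)
  · have := inv_prime_mem (hP p (mem_filter.1 hp).1)
    exact mul_nonneg (by linarith [this.2]) (by linarith [this.1])
  · have := inv_prime_mem (hP p (mem_filter.1 hp).1)
    nlinarith

/-- A thin window slows the decay of the densities below it. -/
theorem gain_of_window {a b b' ε g T η U₃ D : ℝ} {P : Finset ℕ} {k w z : ℕ} (hg : g = Real.exp (-(ε / 8)))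
    (hT : T = max 3 (2 / a)) (ha : 0 < a) (hab : a < b) (hε : 0 < ε) (hη0 : 0 < η)
    (hb'0 : 0 < b') (hb'b : b' ≤ b) (hb'η : b' ≤ 1 - 2 * η) (hbb : Real.log (b / b') ≤ ε / 4)
    (hP : ∀ p ∈ P, p.Prime) (hkpos : 0 < k)
    (hmass : ∀ (S : Finset ℕ) (u v : ℝ), (∀ p ∈ S, p.Prime) → U₃ ≤ u → u ≤ v →
      (∀ p ∈ S, u ≤ Real.log p ∧ Real.log p ≤ v) →
      ∑ p ∈ S, (p : ℝ)⁻¹ ≤ Real.log (v / u) + min (ε / 8) η)
    (hwε : 8 / ε + 2 ≤ (w : ℝ)) (hU₃ : U₃ ≤ Real.log w) (hlw : 0 < Real.log w)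
    (hlD : Real.log D = (2 - 2 * η) * Real.log k) (hub' : U₃ ≤ b' * Real.log k)
    (hlz0 : 0 < Real.log z) (hz1 : (1 - 2 * η) * Real.log k ≤ Real.log z)
    (hlk0 : 0 < Real.log k)
    (hwin : (∑ p ∈ P.filter (fun p : ℕ => (k : ℝ) ^ a < p ∧ (p : ℝ) ≤ (k : ℝ) ^ b), (1 : ℝ) / p)
      ≤ Real.log (b / a) - ε) :
    ∀ p ∈ P, w ≤ p → p < z → T ≤ Real.log D / Real.log p →
      dens P p ≤ g * dens P z * (Real.log z / Real.log p) := by
  classical
  set lk := Real.log k with hlkdef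
  have hk1 : (1 : ℝ) ≤ k := by exact_mod_cast hkpos
  have hwpos : (0 : ℝ) < w := by
    have : (0 : ℝ) < 8 / ε := by positivity
    linarith
  subst hT
  intro p hp hwp hpz hTp
  have hlwp : Real.log w ≤ Real.log p := Real.log_le_log hwpos (by exact_mod_cast hwp)
  have hlp : 0 < Real.log p := by linarith
  have hTp' : 2 / a * Real.log p ≤ Real.log D :=
    (mul_le_mul_of_nonneg_right (le_max_right 3 (2 / a)) hlp.le).trans ((le_div_iff₀ hlp).1 hTp)
  rw [div_mul_eq_mul_div, div_le_iff₀ ha, hlD] at hTp'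
  have hpa : Real.log p ≤ a * lk := by nlinarith
  have hpw : (8 : ℝ) / ε + 2 ≤ p := hwε.trans (by exact_mod_cast hwp)
  have hp2 : 2 ≤ p := (hP p hp).two_le
  refine (dens_le_mul_exp hP hp2 hpz.le).trans ?_
  rw [mul_comm g, mul_assoc]
  refine mul_le_mul_of_nonneg_left ?_ (dens_pos hP z).le
  have h1 : 1 / ((p : ℝ) - 1) ≤ ε / 8 := by
    have : (0 : ℝ) < 8 / ε := by positivity
    rw [div_le_iff₀ (by linarith)]
    have e : ε / 8 * (8 / ε) = 1 := by field_simp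
    nlinarith
  set W := P.filter (fun q => p ≤ q ∧ q < z) with hW
  set W1 := W.filter (fun q : ℕ => (q : ℝ) ≤ (k : ℝ) ^ a)
  set W2 := W.filter (fun q : ℕ => ¬(q : ℝ) ≤ (k : ℝ) ^ a)
  set W21 := W2.filter (fun q : ℕ => (q : ℝ) ≤ (k : ℝ) ^ b')
  set W22 := W2.filter (fun q : ℕ => ¬(q : ℝ) ≤ (k : ℝ) ^ b')
  have hsplit : ∑ q ∈ W, (q : ℝ)⁻¹
      = ∑ q ∈ W1, (q : ℝ)⁻¹ + (∑ q ∈ W21, (q : ℝ)⁻¹ + ∑ q ∈ W22, (q : ℝ)⁻¹) := by
    rw [sum_filter_add_sum_filter_not, sum_filter_add_sum_filter_not]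
  have hWp : ∀ q ∈ W, q.Prime := fun q hq => hP q (mem_filter.1 hq).1
  have hδ8 : min (ε / 8) η ≤ ε / 8 := min_le_left _ _
  have e1 : ∑ q ∈ W1, (q : ℝ)⁻¹ ≤ Real.log (a * lk / Real.log p) + ε / 8 := by
    refine (hmass W1 (Real.log p) (a * lk) (fun q hq => hWp q (mem_filter.1 hq).1)
      (by linarith) hpa fun q hq => ?_).trans (by linarith)
    obtain ⟨hqW, hq1⟩ := mem_filter.1 hq
    refine ⟨Real.log_le_log (by exact_mod_cast (hP p hp).pos)
      (by exact_mod_cast (mem_filter.1 hqW).2.1), ?_⟩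
    rw [← log_pow_nat k a hkpos]
    exact Real.log_le_log (by exact_mod_cast (hWp q hqW).pos) hq1
  have e2 : ∑ q ∈ W21, (q : ℝ)⁻¹ ≤ Real.log (b / a) - ε := by
    refine le_trans ?_ hwin
    simp only [one_div]
    refine sum_le_sum_of_subset_of_nonneg (fun q hq => ?_) fun q _ _ => by positivity
    obtain ⟨hq2, hqb⟩ := mem_filter.1 hq
    obtain ⟨hqW, hqa⟩ := mem_filter.1 hq2
    exact mem_filter.2 ⟨(mem_filter.1 hqW).1, not_le.1 hqa,
      hqb.trans (Real.rpow_le_rpow_of_exponent_le hk1 hb'b)⟩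
  have hb'z : b' * lk ≤ Real.log z := by
    have : b' * lk ≤ (1 - 2 * η) * lk := mul_le_mul_of_nonneg_right hb'η (by linarith)
    linarith
  have e3 : ∑ q ∈ W22, (q : ℝ)⁻¹ ≤ Real.log (Real.log z / (b' * lk)) + ε / 8 := by
    refine (hmass W22 (b' * lk) (Real.log z)
      (fun q hq => hWp q (mem_filter.1 (mem_filter.1 hq).1).1) (by linarith) hb'z
      fun q hq => ?_).trans (by linarith)
    obtain ⟨hq2, hqb⟩ := mem_filter.1 hq
    have hqW := (mem_filter.1 hq2).1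
    refine ⟨?_, Real.log_le_log (by exact_mod_cast (hWp q hqW).pos)
      (by exact_mod_cast (mem_filter.1 hqW).2.2.le)⟩
    rw [← log_pow_nat k b' hkpos]
    exact Real.log_le_log (by positivity) (not_le.1 hqb).le
  refine (Real.exp_le_exp.2 (show _ ≤ Real.log (Real.log z / Real.log p) + -(ε / 8) by
    have e4 : Real.log (a * lk / Real.log p) + Real.log (b / a) + Real.log (Real.log z / (b' * lk))
        = Real.log (Real.log z / Real.log p) + Real.log (b / b') := by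
      have hb0 : 0 < b := ha.trans hab
      rw [Real.log_div (by positivity) hlp.ne', Real.log_mul ha.ne' (by linarith),
        Real.log_div hb0.ne' ha.ne', Real.log_div hlz0.ne' (by positivity),
        Real.log_mul hb'0.ne' (by linarith), Real.log_div hlz0.ne' hlp.ne',
        Real.log_div hb0.ne' hb'0.ne']
      ring
    rw [hsplit]
    linarith)).trans (le_of_eq ?_)
  rw [Real.exp_add, Real.exp_log (div_pos hlz0 hlp), ← hg, mul_comm]

theorem no_cover {γ V L D D' k lk Wc E η C S : ℝ} (hγ : 0 < γ) (hV : 0 < V) (hk1 : 1 ≤ k)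
    (hη : η ≤ 1 / 10) (hlk : 1 ≤ lk) (hWc : 1 ≤ Wc) (hL : k ^ (2 - η) ≤ L)
    (hD : D = k ^ (2 - 2 * η)) (hD' : D' = k ^ (1 / 2 : ℝ))
    (hsmall : lk ^ 2 * k ^ (-η) ≤ γ / (32 * Wc * Wc)) (hVlow : 1 ≤ 2 * lk * Wc * V)
    (hdev : E ≤ (1 - γ) * V) (hR : C ≤ 2 * lk * Wc)
    (hlow : L * (V - E) - C * D ≤ S)
    (hup : S ≤ L * V * (γ / 3) + k * (2 * lk * Wc * D') + (L * k ^ (-η) + k)) : False := by
  have hk0 : 0 < k := by linarith
  set τ := k ^ (-η) with hτ
  have hτ0 : 0 < τ := by positivity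
  have hD0 : 0 ≤ D := hD ▸ by positivity
  have hL0 : 0 < L := lt_of_lt_of_le (by positivity) hL
  have e1 : D ≤ L * τ := by
    refine le_trans (le_of_eq ?_) (mul_le_mul_of_nonneg_right hL hτ0.le)
    rw [hD, hτ, ← Real.rpow_add hk0]; congr 1; ring
  have e2 : k * D' ≤ L * τ := by
    refine le_trans ?_ (mul_le_mul_of_nonneg_right hL hτ0.le)
    conv_lhs => rw [← Real.rpow_one k, hD']
    rw [hτ, ← Real.rpow_add hk0, ← Real.rpow_add hk0]
    exact Real.rpow_le_rpow_of_exponent_le hk1 (by linarith)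
  have e3 : k ≤ L * τ :=
    le_trans (le_mul_of_one_le_right hk0.le (hD' ▸ Real.one_le_rpow hk1 (by norm_num))) e2
  have e4 : L * τ * (lk * Wc) ≤ L * V * γ / 16 := by
    have h1 : lk ^ 2 * τ * (32 * Wc * Wc) ≤ γ := (le_div_iff₀ (by positivity)).1 hsmall
    have h2 := mul_le_mul_of_nonneg_left h1 (show 0 ≤ L * V by positivity)
    have h3 := mul_le_mul_of_nonneg_left hVlow (show 0 ≤ L * τ * (lk * Wc) by positivity)
    linarith
  have h1 : 1 ≤ lk * Wc := one_le_mul_of_one_le_of_one_le hlk hWc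
  have h2 := mul_le_mul_of_nonneg_left h1 (show 0 ≤ L * τ by positivity)
  have h3 := mul_le_mul_of_nonneg_left e1 (show 0 ≤ 2 * lk * Wc by positivity)
  have h4 := mul_le_mul_of_nonneg_left e2 (show 0 ≤ 2 * lk * Wc by positivity)
  have h5 := mul_le_mul_of_nonneg_left hdev hL0.le
  have h6 := mul_le_mul_of_nonneg_right hR hD0
  have h7 : 0 < L * V * γ := by positivity
  linarith

/-- Too few large primes to cover the survivors. -/
theorem tail_count {η A V Wc lk γ U₂' : ℝ} {n k w z z' : ℕ} {x : ℤ} {L : ℕ} {D' : ℝ}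
    (hn : n ≠ 0) (hk : k = n.primeFactors.card) (hlkdef : lk = Real.log k) (hkpos : 0 < k)
    (hη0 : 0 < η) (hη1 : η ≤ 1 / 10) (hη4 : η * (400 * A) ≤ γ) (hA1 : 1 ≤ A) (hV0 : 0 < V)
    (hlk1 : 1 ≤ lk) (hWc0 : 0 < Wc) (hD'1 : 1 ≤ D') (hz'z : z' ≤ z) (hz0 : 0 < z)
    (hz1 : (1 - 2 * η) * lk ≤ Real.log z) (hz2 : Real.log z ≤ (1 + η) * lk) (hlz0 : 0 < Real.log z)
    (hU : U₂' ≤ Real.log z)
    (hupz : dens n.primeFactors z' + dev n.primeFactors w z' true D' ≤ A * (14 * V))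
    (hR' : errProd n.primeFactors w z' ≤ 2 * lk * Wc)
    (hmass : ∀ (S : Finset ℕ) (u v : ℝ), (∀ p ∈ S, p.Prime) → U₂' ≤ u → u ≤ v →
      (∀ p ∈ S, u ≤ Real.log p ∧ Real.log p ≤ v) →
      ∑ p ∈ S, (p : ℝ)⁻¹ ≤ Real.log (v / u) + η)
    (hnone : ¬ ∃ m : ℤ, x ≤ m ∧ m < x + L ∧ Int.gcd m n = 1) :
    ((sifted n.primeFactors x L 1 z).card : ℝ)
      ≤ (L : ℝ) * V * (γ / 3) + k * (2 * lk * Wc * D') + ((L : ℝ) * (k : ℝ) ^ (-η) + k) := by
  classical
  set P := n.primeFactors with hPdef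
  have hP : ∀ p ∈ P, p.Prime := fun p hp => Nat.prime_of_mem_primeFactors hp
  have hk0 : (0 : ℝ) < k := by exact_mod_cast hkpos
  set M := P.filter (fun p => z ≤ p ∧ (p : ℝ) ≤ (k : ℝ) ^ (1 + η))
  set F := P.filter (fun p : ℕ => (k : ℝ) ^ (1 + η) < p)
  have hMcount : ∀ p ∈ M, ((sifted P x L p z').card : ℝ)
      ≤ (L : ℝ) * (p : ℝ)⁻¹ * (A * 14 * V) + 2 * lk * Wc * D' := fun p hp => by
    obtain ⟨hpP, hzp, -⟩ := mem_filter.1 hp
    refine (count_bound hP w x L z' p D' (hP p hpP).pos hD'1 fun q hq hqz hdvd => ?_).1.trans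
      (add_le_add ?_ (mul_le_mul_of_nonneg_right hR' (by linarith)))
    · have := (Nat.prime_dvd_prime_iff_eq (hP q hq) (hP p hpP)).1 hdvd
      omega
    · rw [div_eq_mul_inv]
      exact mul_le_mul_of_nonneg_left (hupz.trans_eq (mul_assoc _ _ _).symm) (by positivity)
  have hFcount : ∀ p ∈ F, ((sifted P x L p 0).card : ℝ) ≤ (L : ℝ) * (k : ℝ) ^ (-(1 + η)) + 1 :=
    fun p hp => by
    obtain ⟨hpP, hpF⟩ := mem_filter.1 hp
    have h := abs_le.1 (count_exact hP x L 0 p (hP p hpP).pos (fun q _ h => absurd h (Nat.not_lt_zero q)))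
    simp only [dens, Nat.not_lt_zero, filter_false, prod_empty, mul_one, card_empty, pow_zero] at h
    have : (L : ℝ) / p ≤ L * (k : ℝ) ^ (-(1 + η)) := by
      rw [div_eq_mul_inv, Real.rpow_neg hk0.le]
      exact mul_le_mul_of_nonneg_left (inv_anti₀ (by positivity) hpF.le) (Nat.cast_nonneg L)
    linarith
  have hMmass : ∑ p ∈ M, (p : ℝ)⁻¹ ≤ 9 * η := by
    refine (hmass M (Real.log z) ((1 + η) * lk) (fun p hp => hP p (mem_filter.1 hp).1)
      hU hz2 fun p hp => ?_).trans ?_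
    · obtain ⟨hpP, hzp, hp1⟩ := mem_filter.1 hp
      refine ⟨Real.log_le_log (by exact_mod_cast hz0) (by exact_mod_cast hzp), ?_⟩
      rw [hlkdef, ← log_pow_nat k _ hkpos]
      exact Real.log_le_log (by exact_mod_cast (hP p hpP).pos) hp1
    · have h1 : (1 + η) * lk / Real.log z - 1 ≤ 8 * η := by
        rw [sub_le_iff_le_add, div_le_iff₀ hlz0]
        nlinarith [mul_le_mul_of_nonneg_left (show (1 - 2 * η) * lk ≤ Real.log z by linarith)
          (show (0 : ℝ) ≤ 8 * η + 1 by linarith), mul_nonneg hη0.le (show (0:ℝ) ≤ lk by linarith),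
          mul_nonneg (mul_nonneg hη0.le (show (0:ℝ) ≤ lk by linarith)) (sub_nonneg.2 hη1)]
      have := Real.log_le_sub_one_of_pos (show 0 < (1 + η) * lk / Real.log z by positivity)
      linarith
  have hMsum : ∑ p ∈ M, ((sifted P x L p z').card : ℝ)
      ≤ (L : ℝ) * V * (γ / 3) + k * (2 * lk * Wc * D') := by
    refine (sum_le_sum hMcount).trans ?_
    rw [sum_add_distrib, sum_const, nsmul_eq_mul, ← sum_mul, ← mul_sum]
    refine add_le_add ?_ (mul_le_mul_of_nonneg_right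
      (hk ▸ by exact_mod_cast card_filter_le P _) (by positivity))
    refine (mul_le_mul_of_nonneg_right (mul_le_mul_of_nonneg_left hMmass (Nat.cast_nonneg L))
      (by positivity)).trans ?_
    have h1 := mul_le_mul_of_nonneg_left hη4 (show 0 ≤ (L : ℝ) * V by positivity)
    nlinarith [mul_nonneg (mul_nonneg (show 0 ≤ (L : ℝ) * V by positivity) hη0.le)
      (show (0 : ℝ) ≤ A by linarith)]
  have hFsum : ∑ p ∈ F, ((sifted P x L p 0).card : ℝ) ≤ (L : ℝ) * (k : ℝ) ^ (-η) + k := by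
    refine (sum_le_sum hFcount).trans ?_
    rw [sum_const, nsmul_eq_mul]
    refine (mul_le_mul_of_nonneg_right
      (show (F.card : ℝ) ≤ k from hk ▸ by exact_mod_cast card_filter_le P _)
      (by positivity)).trans (le_of_eq ?_)
    rw [mul_add, mul_one, mul_left_comm]
    congr 2
    rw [show (-η : ℝ) = 1 + -(1 + η) by ring, Real.rpow_add hk0, Real.rpow_one]
  have hcover : sifted P x L 1 z ⊆
      M.biUnion (fun p => sifted P x L p z') ∪ F.biUnion (fun p => sifted P x L p 0) := by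
    intro m hm
    have hnot : ∃ p ∈ P, z ≤ p ∧ (p : ℤ) ∣ m := by
      by_contra h
      simp only [not_exists, not_and] at h
      exact hnone (exists_coprime_of_sifted hn ⟨m, hm, fun p hp hzp => h p hp hzp⟩)
    obtain ⟨p, hp, hzp, hpm⟩ := hnot
    simp only [sifted, mem_filter] at hm
    simp only [Finset.mem_union, Finset.mem_biUnion]
    rcases le_or_gt (p : ℝ) ((k : ℝ) ^ (1 + η)) with h | h
    · exact Or.inl ⟨p, mem_filter.2 ⟨hp, hzp, h⟩, mem_filter.2 ⟨hm.1, hpm,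
        fun q hq hqz => hm.2.2 q hq (lt_of_lt_of_le hqz hz'z)⟩⟩
    · exact Or.inr ⟨p, mem_filter.2 ⟨hp, h⟩, mem_filter.2 ⟨hm.1, hpm,
        fun q _ hqz => absurd hqz (Nat.not_lt_zero q)⟩⟩
  have hupper : ((sifted P x L 1 z).card : ℝ)
      ≤ ∑ p ∈ M, ((sifted P x L p z').card : ℝ) + ∑ p ∈ F, ((sifted P x L p 0).card : ℝ) := by
    exact_mod_cast (card_le_card hcover).trans ((card_union_le _ _).trans
      (add_le_add card_biUnion_le card_biUnion_le))
  exact hupper.trans (add_le_add hMsum hFsum)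

/-- The saving and the shifted upper end of the window. -/
theorem choose_exponent {a b ε γ A : ℝ} (ha : 0 < a) (hab : a < b) (hb : b ≤ 1) (hε : 0 < ε)
    (hγ0 : 0 < γ) (hA1 : 1 ≤ A) :
    ∃ η b' : ℝ, 0 < η ∧ η ≤ 1 / 10 ∧ η * (400 * A) ≤ γ ∧ a < b' ∧ b' ≤ b ∧ b' ≤ 1 - 2 * η ∧
      Real.log (b / b') ≤ ε / 4 := by
  set η := min (min (1 / 10) ((1 - a) / 4)) (min (ε / 16) (γ / (400 * A))) with hη
  have hη0 : 0 < η := lt_min (lt_min (by norm_num) (by linarith))
    (lt_min (by linarith) (by positivity))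
  have hη1 : η ≤ 1 / 10 := (min_le_left _ _).trans (min_le_left _ _)
  have hη2 : η ≤ (1 - a) / 4 := (min_le_left _ _).trans (min_le_right _ _)
  have hη3 : η ≤ ε / 16 := (min_le_right _ _).trans (min_le_left _ _)
  have hη4 : η * (400 * A) ≤ γ := by
    have := ((min_le_right _ _).trans (min_le_right _ _) : η ≤ γ / (400 * A))
    rwa [le_div_iff₀ (by positivity)] at this
  set b' := min b (1 - 2 * η) with hb'
  have hab' : a < b' := lt_min hab (by linarith)
  have hb'0 : 0 < b' := ha.trans hab'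
  have hbb : Real.log (b / b') ≤ ε / 4 := by
    rcases le_total b (1 - 2 * η) with h | h
    · rw [hb', min_eq_left h, div_self (by linarith), Real.log_one]; linarith
    · rw [hb', min_eq_right h]
      refine (Real.log_le_sub_one_of_pos (div_pos (by linarith) (by linarith))).trans ?_
      rw [sub_le_iff_le_add, div_le_iff₀ (by linarith)]
      nlinarith
  exact ⟨η, b', hη0, hη1, hη4, hab', min_le_left _ _, min_le_right _ _, hbb⟩

theorem eventually_small (ℓ : ℝ) {η θ : ℝ} (hη0 : 0 < η) (hθ0 : 0 < θ) :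
    ∀ᶠ k : ℕ in atTop, ℓ ≤ Real.log k ∧ Real.log (k : ℝ) ^ 2 * (k : ℝ) ^ (-η) ≤ θ := by
  have hl : Tendsto (fun k : ℕ => Real.log (k : ℝ)) atTop atTop :=
    Real.tendsto_log_atTop.comp tendsto_natCast_atTop_atTop
  refine (hl.eventually_ge_atTop ℓ).and ?_
  have h := ((isLittleO_log_rpow_atTop (show 0 < η / 2 by linarith)).bound
    (show (0 : ℝ) < Real.sqrt θ by positivity))
  filter_upwards [tendsto_natCast_atTop_atTop.eventually h, eventually_ge_atTop 1] with k hk hk1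
  have hk0 : (0 : ℝ) < k := by exact_mod_cast hk1
  rw [Real.norm_of_nonneg (Real.log_natCast_nonneg k),
    Real.norm_of_nonneg (by positivity : (0 : ℝ) ≤ (k : ℝ) ^ (η / 2))] at hk
  have h2 := pow_le_pow_left₀ (Real.log_natCast_nonneg k) hk 2
  rw [mul_pow, Real.sq_sqrt hθ0.le, ← Real.rpow_natCast ((k : ℝ) ^ (η / 2)) 2,
    ← Real.rpow_mul hk0.le] at h2
  refine (mul_le_mul_of_nonneg_right h2 (by positivity)).trans (le_of_eq ?_)
  rw [mul_assoc, ← Real.rpow_add hk0,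
    show η / 2 * ((2 : ℕ) : ℝ) + -η = 0 by push_cast; ring, Real.rpow_zero, mul_one]

/-- The sizes of the sifting limits. -/
theorem levels {k w : ℕ} {η U : ℝ} (hkpos : 0 < k) (hη0 : 0 < η) (hη1 : η ≤ 1 / 10)
    (hU : 1 ≤ U) (hlw : U ≤ Real.log w) (hlk0 : 20 ≤ Real.log k)
    (hbη : Real.log w + U + 2 ≤ η * Real.log k / 20) :
    let z := ⌊(k : ℝ) ^ (1 - η)⌋₊
    let z' := ⌊(k : ℝ) ^ (1 / 6 : ℝ)⌋₊
    0 < Real.log z ∧ (1 - 2 * η) * Real.log k ≤ Real.log z ∧ Real.log z ≤ Real.log k ∧ 0 < z ∧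
      2 ≤ (2 - 2 * η) * Real.log k / Real.log z ∧ (2 - 2 * η) * Real.log k / Real.log z ≤ 3 ∧
      0 < Real.log z' ∧ w ≤ z' ∧ z' ≤ z ∧ U ≤ Real.log z' ∧ U ≤ Real.log z ∧
      Real.log z / Real.log z' ≤ 7 ∧ 1 ≤ 1 / 2 * Real.log k / Real.log z' ∧
      Real.log z / Real.log w ≤ Real.log k := by
  intro z z'
  set lk := Real.log (k : ℝ)
  have hk1 : (1 : ℝ) ≤ k := by exact_mod_cast hkpos
  obtain ⟨hz1, hz2, hz0⟩ := log_floor_rpow (x := 1 - η) hkpos (by nlinarith)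
  obtain ⟨hz'1, hz'2, hz'0⟩ := log_floor_rpow (x := 1 / 6) hkpos (by linarith)
  have hηlk : η * lk ≤ lk / 10 := by nlinarith
  have hη0' : 0 ≤ η * lk := by positivity
  have hlz0 : 0 < Real.log z := by linarith
  have hlz'0 : 0 < Real.log z' := by linarith
  have hlwpos : (0 : ℝ) < w := by
    rcases Nat.eq_zero_or_pos w with h | h
    · subst h; simp at hlw; linarith
    · exact_mod_cast h
  refine ⟨hlz0, by linarith, by linarith, hz0, ?_, ?_, hlz'0, ?_, ?_, by linarith, by linarith, ?_, ?_, ?_⟩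
  · rw [le_div_iff₀ hlz0]; linarith
  · rw [div_le_iff₀ hlz0]; linarith
  · have : Real.log (w : ℝ) ≤ Real.log z' := by linarith
    exact_mod_cast (Real.log_le_log_iff hlwpos (by exact_mod_cast hz'0)).1 this
  · exact Nat.floor_le_floor (Real.rpow_le_rpow_of_exponent_le hk1 (by linarith))
  · rw [div_le_iff₀ hlz'0]; linarith
  · rw [le_div_iff₀ hlz'0]; linarith
  · rw [div_le_iff₀ (by linarith)]
    nlinarith

/-- The interval bound for many prime factors. -/
theorem large_bound (a b ε : ℝ) (ha : 0 < a) (hab : a < b) (hb : b ≤ 1) (hε : 0 < ε) :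
    ∃ η : ℝ, 0 < η ∧ η < 1 / 4 ∧ ∃ K₀ : ℕ, ∀ n : ℕ, n ≠ 0 → K₀ ≤ n.primeFactors.card →
      (∑ p ∈ n.primeFactors.filter (fun p : ℕ =>
          (n.primeFactors.card : ℝ) ^ a < p ∧ (p : ℝ) ≤ (n.primeFactors.card : ℝ) ^ b), (1 : ℝ) / p)
        ≤ Real.log (b / a) - ε →
      ∀ (x : ℤ) (L : ℕ), (n.primeFactors.card : ℝ) ^ (2 - η) ≤ L →
        ∃ m : ℤ, x ≤ m ∧ m < x + L ∧ Int.gcd m n = 1 := by
  classical
  set g := Real.exp (-(ε / 8)) with hg
  have hg1 : g < 1 := Real.exp_lt_one_iff.2 (by linarith)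
  set T := max 3 (2 / a) with hT
  obtain ⟨γ, hγ0, U₁, hU₁, hlow⟩ := lower_with_gain g T (Real.exp_pos _).le hg1 (le_max_left _ _)
  obtain ⟨A₀, U₂, hU₂, hup⟩ := upper_const
  set A := max A₀ 1 with hA
  have hA1 : 1 ≤ A := le_max_right _ _
  obtain ⟨η, b', hη0, hη1, hη4, hab', hb'b, hb'η, hbb⟩ :=
    choose_exponent (A := A) ha hab hb hε hγ0 hA1
  have hb'0 : 0 < b' := ha.trans hab'
  obtain ⟨U₃, hU₃, hmass⟩ := log_mass (min (ε / 8) η) (lt_min (by linarith) hη0)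
  obtain ⟨U₄, hU₄, hden⟩ := density_ratio 1 one_pos
  set U := max (max U₁ U₂) (max U₃ U₄) with hU
  obtain ⟨w, hw⟩ := exists_nat_ge (max (Real.exp U) (8 / ε + 2))
  have hw0 : Real.exp U ≤ w := (le_max_left _ _).trans hw
  have hwε : 8 / ε + 2 ≤ w := (le_max_right _ _).trans hw
  have hwpos : (0 : ℝ) < w := (Real.exp_pos U).trans_le hw0
  have hlw : U ≤ Real.log w := (Real.le_log_iff_exp_le hwpos).2 hw0
  have hU₁' : U₁ ≤ U := le_max_of_le_left (le_max_left _ _)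
  have hU₂' : U₂ ≤ U := le_max_of_le_left (le_max_right _ _)
  have hU₃' : U₃ ≤ U := le_max_of_le_right (le_max_left _ _)
  have hU₄' : U₄ ≤ U := le_max_of_le_right (le_max_right _ _)
  -- how large k must be
  set ℓ := 20 * (Real.log w + U + 2) / min η (min a b') + 20 with hℓ
  set θ := γ / (32 * (2 : ℝ) ^ w * (2 : ℝ) ^ w) with hθ
  have hθ0 : 0 < θ := by positivity
  have hev := eventually_small ℓ hη0 hθ0
  obtain ⟨K₀, hK₀⟩ := eventually_atTop.1 hev
  refine ⟨η, hη0, by linarith only [hη1], max K₀ 2, fun n hn hk hwin x L hL => ?_⟩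
  set P := n.primeFactors with hPdef
  set k := P.card with hkdef
  obtain ⟨hlk, hksmall⟩ := hK₀ k ((le_max_left _ _).trans hk)
  have hk2 : 2 ≤ k := (le_max_right _ _).trans hk
  have hkpos : 0 < k := by omega
  have hk0 : (0 : ℝ) < k := by exact_mod_cast hkpos
  have hk1 : (1 : ℝ) ≤ k := by exact_mod_cast (by omega : 1 ≤ k)
  set lk := Real.log k with hlkdef
  have hP : ∀ p ∈ P, p.Prime := fun p hp => Nat.prime_of_mem_primeFactors hp
  have hm0 : 0 < min η (min a b') := lt_min hη0 (lt_min ha hb'0)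
  have hlw0 : 0 ≤ Real.log w := Real.log_natCast_nonneg w
  have hbig : ∀ y, min η (min a b') ≤ y → Real.log w + U + 2 ≤ y * lk / 20 := by
    intro y hy
    have h1 : 20 * (Real.log w + U + 2) / min η (min a b') ≤ lk := by rw [hℓ] at hlk; linarith
    rw [div_le_iff₀ hm0] at h1
    have : 0 ≤ lk := by rw [hlkdef]; exact Real.log_natCast_nonneg k
    nlinarith
  have hbη := hbig η (min_le_left _ _)
  have hba := hbig a ((min_le_right _ _).trans (min_le_left _ _))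
  have hbb' := hbig b' ((min_le_right _ _).trans (min_le_right _ _))
  have hU1 : 1 ≤ U := hU₁.trans hU₁'
  have hlk0 : 20 ≤ lk := by
    have : 0 ≤ 20 * (Real.log w + U + 2) / min η (min a b') := by positivity
    rw [hℓ] at hlk; linarith
  -- the sifting limit and its level
  set z := ⌊(k : ℝ) ^ (1 - η)⌋₊ with hz
  set z' := ⌊(k : ℝ) ^ (1 / 6 : ℝ)⌋₊ with hz'
  obtain ⟨hlz0, hzlow, hzup, hz0, hs2, hs3, hlz'0, hwz', hz'z, hUz', hUz, hzz', hs', hzw⟩ :=
    levels (w := w) hkpos hη0 hη1 hU1 hlw hlk0 hbη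
  have hwz : w ≤ z := hwz'.trans hz'z
  set D := (k : ℝ) ^ (2 - 2 * η) with hD
  have hD1 : 1 ≤ D := Real.one_le_rpow hk1 (by linarith)
  have hlD : Real.log D = (2 - 2 * η) * lk := log_pow_nat k _ hkpos
  rw [← hlD] at hs2 hs3
  have hgain := gain_of_window (D := D) (z := z) hg hT ha hab hε hη0 hb'0 hb'b
    hb'η hbb hP hkpos hmass hwε (hU₃'.trans hlw) (by linarith only [hlw, hU1]) hlD
    (by linarith only [hbb', hlw0, hU₃', hU1]) hlz0 hzlow (by linarith only [hlk0]) hwin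
  have hdev := hlow P w z D hP (hU₁'.trans hlw) hwz hD1 hs2 hs3 hgain
  -- the upper sieve for large primes
  set D' := (k : ℝ) ^ (1 / 2 : ℝ) with hD'
  have hD'1 : 1 ≤ D' := Real.one_le_rpow hk1 (by norm_num)
  have hupz := hup P w hP (hU₂'.trans hlw) z' D' hwz' hD'1 (by
    rw [log_pow_nat k _ hkpos]; exact hs')
  set V := dens P z with hV
  have hV0 : 0 < V := dens_pos hP z
  have hVz' : dens P z' ≤ 14 * V := by
    refine (hden P z' z hP (hU₄'.trans hUz') hz'z).trans ?_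
    have := mul_le_mul_of_nonneg_left hzz' (show 0 ≤ (1 + 1) * V by linarith only [hV0])
    linarith only [this]
  have hVw : dens P w ≤ 2 * lk * V := by
    refine (hden P w z hP (hU₄'.trans hlw) hwz).trans ?_
    have := mul_le_mul_of_nonneg_left hzw (show 0 ≤ (1 + 1) * V by linarith only [hV0])
    linarith only [this]
  have hVw' : dens P w ≤ 2 * lk * dens P z' := by
    refine hVw.trans (mul_le_mul_of_nonneg_left ?_ (by linarith only [hlk0]))
    exact prod_le_prod_of_subset_of_le_one (fun p hp => by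
        simp only [mem_filter] at hp ⊢; exact ⟨hp.1, lt_of_lt_of_le hp.2 hz'z⟩)
      (fun p hp => sub_nonneg.2 ((inv_prime_mem (hP p (mem_filter.1 hp).1)).2.trans (by norm_num)))
      fun p hp _ => sub_le_self _ (inv_prime_mem (hP p (mem_filter.1 hp).1)).1
  set Wc := (2 : ℝ) ^ w with hWc
  have hWc0 : 0 < Wc := by positivity
  have hR : errProd P w z ≤ 2 * lk * Wc := (errProd_le hP hwz hVw).trans_eq (by ring)
  have hR' : errProd P w z' ≤ 2 * lk * Wc := (errProd_le hP hwz' hVw').trans_eq (by ring)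
  have hVlow : 1 ≤ 2 * lk * Wc * V := by
    have h1 := (dens_ge_half_pow hP w).trans hVw
    rw [inv_le_iff_one_le_mul₀ hWc0] at h1
    linarith only [h1]
  -- counting
  have hcop : ∀ p ∈ P, p < z → ¬ p ∣ 1 := fun p hp _ h => (hP p hp).one_lt.ne' (Nat.dvd_one.1 h)
  have hmain := (count_bound hP w x L z 1 D one_pos hD1 hcop).2 fun p _ _ hpz => by
    refine (show (p : ℝ) ≤ z by exact_mod_cast hpz.le).trans ?_
    refine (Nat.floor_le (by positivity)).trans
      (Real.rpow_le_rpow_of_exponent_le hk1 (by linarith only [hη0, hη1]))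
  rw [Nat.cast_one, div_one] at hmain
  by_contra hnone
  have hupper := tail_count (η := η) (A := A) (γ := γ) (U₂' := U₃) (lk := lk) (D' := D') (V := V)
    (Wc := Wc) (z' := z') (w := w) hn hkdef hlkdef hkpos hη0 hη1 hη4 hA1 hV0 (by linarith only [hlk0]) hWc0
    hD'1 hz'z hz0 hzlow (hzup.trans (by nlinarith only [hη0, hlk0])) hlz0 (hU₃'.trans hUz)
    (hupz.trans (mul_le_mul (le_max_left _ _) hVz' (dens_pos hP z').le (zero_le_one.trans hA1))) hR'
    (fun S u v h1 h2 h3 h4 => (hmass S u v h1 h2 h3 h4).trans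
      (add_le_add le_rfl (min_le_right _ _)))
    hnone
  exact no_cover hγ0 hV0 hk1 hη1 (by linarith only [hlk0]) (one_le_pow₀ one_le_two) hL hD hD' hksmall hVlow
    hdev hR hmain hupper

/-- Thin in one range of scales gives a power saving. -/
theorem window_bound (a b ε : ℝ) (ha : 0 < a) (hab : a < b) (hb : b ≤ 1) (hε : 0 < ε) :
    ∃ η : ℝ, 0 < η ∧ ∃ C : ℝ, ∀ n : ℕ, 1 < n →
      (∑ p ∈ n.primeFactors.filter (fun p : ℕ =>
          (n.primeFactors.card : ℝ) ^ a < p ∧ (p : ℝ) ≤ (n.primeFactors.card : ℝ) ^ b), (1 : ℝ) / p)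
        ≤ Real.log (b / a) - ε →
      ∀ (x : ℤ) (L : ℕ), C * (n.primeFactors.card : ℝ) ^ (2 - η) ≤ L →
        ∃ m : ℤ, x ≤ m ∧ m < x + L ∧ Int.gcd m n = 1 := by
  obtain ⟨η, hη0, hη1, K₀, hlarge⟩ := large_bound a b ε ha hab hb hε
  refine ⟨η, hη0, (4 : ℝ) ^ K₀ + 1, fun n hn hwin x L hL => ?_⟩
  have hk1 : (1 : ℝ) ≤ n.primeFactors.card := by
    exact_mod_cast Finset.card_pos.2 (Nat.nonempty_primeFactors.2 hn)
  have hp1 : 1 ≤ (n.primeFactors.card : ℝ) ^ (2 - η) := Real.one_le_rpow hk1 (by linarith)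
  have h4 : (0 : ℝ) < 4 ^ K₀ := by positivity
  rcases le_or_gt K₀ n.primeFactors.card with h | h
  · refine hlarge n (by omega) h hwin x L (le_trans ?_ hL)
    exact le_mul_of_one_le_left (by linarith) (by linarith)
  · refine small_bound n (by omega) x L ?_
    have h1 : (4 : ℝ) ^ n.primeFactors.card ≤ 4 ^ K₀ := pow_le_pow_right₀ (by norm_num) h.le
    have h2 : (4 : ℝ) ^ K₀ + 1 ≤ L := le_trans (le_mul_of_one_le_right (by linarith) hp1) hL
    linarith

/-- The case of `n / φ n` bounded. -/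
theorem totient_bound (ε : ℝ) (hε : 0 < ε) :
    ∃ η : ℝ, 0 < η ∧ ∃ C : ℝ, ∀ n : ℕ, 1 < n → ε * n ≤ (Nat.totient n : ℝ) →
      ∀ (x : ℤ) (L : ℕ), C * (n.primeFactors.card : ℝ) ^ (2 - η) ≤ L →
        ∃ m : ℤ, x ≤ m ∧ m < x + L ∧ Int.gcd m n = 1 := by
  set c := |Real.log ε| + 1 with hc
  have hc1 : 1 ≤ c := by linarith [abs_nonneg (Real.log ε)]
  obtain ⟨η, hη, C, hC⟩ := window_bound (Real.exp (-c)) 1 1 (Real.exp_pos _)
    (Real.exp_lt_one_iff.2 (by linarith)) le_rfl one_pos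
  refine ⟨η, hη, C, fun n hn hφ x L hL => hC n hn ?_ x L hL⟩
  have hP : ∀ p ∈ n.primeFactors, p.Prime := fun p hp => Nat.prime_of_mem_primeFactors hp
  have hprod : (Nat.totient n : ℝ) = n * ∏ p ∈ n.primeFactors, (1 - (p : ℝ)⁻¹) := by
    have h := congrArg (fun q : ℚ => (q : ℝ)) (Nat.totient_eq_mul_prod_factors n)
    push_cast at h
    exact h
  have hεp : ε ≤ ∏ p ∈ n.primeFactors, (1 - (p : ℝ)⁻¹) := by
    rw [hprod, mul_comm ε] at hφ
    exact le_of_mul_le_mul_left hφ (by exact_mod_cast (by omega : 0 < n))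
  have hexp : ∏ p ∈ n.primeFactors, (1 - (p : ℝ)⁻¹)
      ≤ Real.exp (-∑ p ∈ n.primeFactors, (p : ℝ)⁻¹) := by
    rw [← sum_neg_distrib, Real.exp_sum]
    refine prod_le_prod (fun p hp => by linarith [(inv_prime_mem (hP p hp)).2]) fun p _ => ?_
    linarith [Real.add_one_le_exp (-(p : ℝ)⁻¹)]
  have h1 := (Real.log_le_iff_le_exp hε).2 (hεp.trans hexp)
  rw [Real.log_div one_ne_zero (Real.exp_pos _).ne', Real.log_one, Real.log_exp]
  refine le_trans (sum_le_sum_of_subset_of_nonneg (filter_subset _ _) fun p _ _ => by positivity) ?_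
  simp only [one_div]
  linarith [neg_abs_le (Real.log ε)]

end Vale.Agent.P013
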