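import Vale.Agent.P013.Main

/-!
# P013: simple margins of the linear sieve

Above level two the lower deficit is at most `2 / s + κ`, and the upper one is `O(1 / s)`.
-/

namespace Vale.Agent.P013

open Finset MeasureTheory

theorem lowSeq_mul_le (j : ℕ) {s : ℝ} (hs : 2 ≤ s) : s * lowSeq j s ≤ 2 * lowSeq j 2 := by
  have hu := upSeq_profile j
  have hj : (0 : ℝ) ≤ j := Nat.cast_nonneg j
  set H : ℝ := 4 + 2 * (j : ℝ) with hH
  rw [lowSeq, tailPart, tailPart, max_eq_left hs, max_self, max_eq_left (by linarith : (1 : ℝ) ≤ s),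
    max_eq_left (by norm_num : (1 : ℝ) ≤ 2), mul_div_cancel₀ _ (by linarith : s ≠ 0),
    mul_div_cancel₀ _ (two_ne_zero : (2 : ℝ) ≠ 0), ← hH, min_eq_left (by linarith : (2 : ℝ) ≤ H)]
  have h2 : 2 ≤ min s H := le_min hs (by linarith)
  rw [← intervalIntegral.integral_add_adjacent_intervals (hu.integrable_shift 2 (min s H))
    (hu.integrable_shift (min s H) H)]
  linarith [intervalIntegral.integral_nonneg (μ := volume) h2 fun t _ => hu.nonneg (t - 1)]

theorem lowTotal_le_two_div (n : ℕ) {s : ℝ} (hs : 2 ≤ s) : lowTotal n s ≤ 2 / s := by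
  rw [le_div_iff₀ (by linarith), mul_comm, lowTotal, mul_sum]
  refine (sum_le_sum fun j _ => lowSeq_mul_le j hs).trans ?_
  rw [← mul_sum]
  linarith [sum_lowSeq_two_le n]

/-- The lower deficit above level two. -/
theorem lower_margin (κ : ℝ) (hκ : 0 < κ) :
    ∃ U : ℝ, 1 ≤ U ∧ ∀ (P : Finset ℕ) (w : ℕ), (∀ q ∈ P, q.Prime) → U ≤ Real.log w →
      ∀ (z : ℕ) (D : ℝ), w ≤ z → 1 ≤ D → 2 ≤ Real.log D / Real.log z →
        dev P w z false D ≤ dens P z * (2 / (Real.log D / Real.log z) + κ) := by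
  obtain ⟨n, -, U, hU, h⟩ := linear_sieve κ hκ 0
  refine ⟨U, hU, fun P w hP hw z D hwz hD hs => ((h P w hP hw z D hwz hD).2 hs).trans ?_⟩
  refine mul_le_mul_of_nonneg_left (add_le_add (lowTotal_le_two_div n hs) ?_) (dens_pos hP z).le
  exact mul_le_of_le_one_right hκ.le (Real.exp_le_one_iff.2 (by linarith))

/-- The upper deficit at high level. -/
theorem upper_margin :
    ∃ B : ℝ, 0 ≤ B ∧ ∃ U : ℝ, 1 ≤ U ∧ ∀ (P : Finset ℕ) (w : ℕ), (∀ q ∈ P, q.Prime) →
      U ≤ Real.log w → ∀ (z : ℕ) (D : ℝ), w ≤ z → 1 ≤ D → 3 ≤ Real.log D / Real.log z →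
        dev P w z true D ≤ dens P z * (B / (Real.log D / Real.log z)) := by
  obtain ⟨n, -, U, hU, h⟩ := linear_sieve 1 one_pos 0
  refine ⟨(n : ℝ) * (2 * Real.exp (18 / 5)) + 1, by positivity, U, hU,
    fun P w hP hw z D hwz hD hs => ((h P w hP hw z D hwz hD).1 (by linarith)).trans ?_⟩
  refine mul_le_mul_of_nonneg_left ?_ (dens_pos hP z).le
  set s := Real.log D / Real.log z
  have hu : wUp s ≤ 1 / s := by
    rw [show wUp s = wLow s by simp [wUp, not_lt.2 hs, not_lt.2 (show (2 : ℝ) ≤ s by linarith)],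
      le_div_iff₀ (by linarith)]
    have e : wLow s * Real.exp (6 / 5 * s) = 1 := by
      rw [wLow, ← Real.exp_add, neg_add_cancel, Real.exp_zero]
    nlinarith [Real.add_one_le_exp (6 / 5 * s), wLow_pos s]
  refine (add_le_add (upTotal_le n (by linarith : 1 ≤ s)) le_rfl).trans ?_
  rw [← add_mul, div_eq_mul_one_div _ s]
  exact mul_le_mul_of_nonneg_left hu (by positivity)

/-- The error factor and the least density below a sifting limit. -/
theorem err_and_dens :
    ∃ U : ℝ, 1 ≤ U ∧ ∀ (P : Finset ℕ) (w z : ℕ), (∀ q ∈ P, q.Prime) → U ≤ Real.log w → w ≤ z →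
      errProd P w z ≤ 2 * 2 ^ w * Real.log z ∧ 1 ≤ 2 * 2 ^ w * Real.log z * dens P z := by
  obtain ⟨U, hU, hden⟩ := density_ratio 1 one_pos
  refine ⟨U, hU, fun P w z hP hw hwz => ?_⟩
  have hd : dens P w ≤ 2 * Real.log z * dens P z := by
    refine (hden P w z hP hw hwz).trans ?_
    have hlz : 0 ≤ Real.log (z : ℝ) := Real.log_natCast_nonneg z
    have := div_le_self hlz (hU.trans hw)
    nlinarith [mul_le_mul_of_nonneg_left this (dens_pos hP z).le]
  refine ⟨(errProd_le hP hwz hd).trans_eq (by ring), ?_⟩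
  have h2 := (dens_ge_half_pow hP w).trans hd
  rw [inv_le_iff_one_le_mul₀ (by positivity)] at h2
  linarith

end Vale.Agent.P013
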