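import Vale.Agent.P013.Sieve
import Vale.Agent.P031.CellMass

/-!
# P013: prime reciprocals in ranges

Both bounds come from the first theorem of Mertens as proved for P031.
-/

namespace Vale.Agent.P013

open Finset

/-- A crude bound, good for ranges with bounded ratio. -/
theorem short_mass :
    ∃ B : ℝ, 0 ≤ B ∧ ∀ (S : Finset ℕ) (u v : ℝ), (∀ p ∈ S, p.Prime) → 0 < u → u ≤ v →
      (∀ p ∈ S, u ≤ Real.log p ∧ Real.log p ≤ v) → ∑ p ∈ S, (p : ℝ)⁻¹ ≤ (v - u + B) / u := by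
  obtain ⟨B, hB0, hB⟩ := P031.exists_mertAt_bound
  refine ⟨2 * B + 3, by positivity, fun S u v hS hu huv hlog => ?_⟩
  set m := ⌈u⌉₊ - 1 with hm
  set n := ⌈v⌉₊ with hn
  have hcu : 1 ≤ ⌈u⌉₊ := Nat.one_le_ceil_iff.2 hu
  have hmn : m ≤ n := (Nat.sub_le _ _).trans (Nat.ceil_le_ceil huv)
  have hsub : S ⊆ (Ico m n).biUnion P031.bucket := fun p hp => by
    obtain ⟨h1, h2⟩ := hlog p hp
    have hl : 0 < Real.log p := lt_of_lt_of_le hu h1
    have hc1 : 1 ≤ ⌈Real.log p⌉₊ := Nat.one_le_ceil_iff.2 hl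
    have h3 : ⌈u⌉₊ ≤ ⌈Real.log p⌉₊ := Nat.ceil_le_ceil h1
    have h4 : ⌈Real.log p⌉₊ ≤ n := Nat.ceil_le_ceil h2
    refine mem_biUnion.2 ⟨⌈Real.log p⌉₊ - 1, mem_Ico.2 ⟨by omega, by omega⟩,
      P031.mem_bucket.2 ⟨hS p hp, Nat.lt_ceil.1 (by omega), ?_⟩⟩
    rw [Nat.cast_sub hc1, Nat.cast_one, sub_add_cancel]
    exact Nat.le_ceil _
  have hsum : ∑ p ∈ S, Real.log p / p ≤ P031.mertAt n - P031.mertAt m := by
    refine (sum_le_sum_of_subset_of_nonneg hsub fun p _ _ =>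
      div_nonneg (Real.log_natCast_nonneg p) (Nat.cast_nonneg p)).trans (le_of_eq ?_)
    rw [sum_biUnion (P031.bucket_disjoint _), sum_congr rfl fun k _ => P031.sum_bucket_log k,
      Finset.sum_Ico_sub _ hmn]
  have h1 : ∑ p ∈ S, (p : ℝ)⁻¹ ≤ (∑ p ∈ S, Real.log p / p) / u := by
    rw [sum_div]
    refine sum_le_sum fun p hp => ?_
    rw [le_div_iff₀ hu, inv_mul_eq_div]
    exact div_le_div_of_nonneg_right (hlog p hp).1 (Nat.cast_nonneg p)
  refine h1.trans (div_le_div_of_nonneg_right (hsum.trans ?_) hu.le)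
  have hb1 := abs_le.1 (hB n)
  have hb2 := abs_le.1 (hB m)
  have hn1 : (n : ℝ) < v + 1 := Nat.ceil_lt_add_one (by linarith)
  have hm1 : u - 1 ≤ (m : ℝ) := by
    rw [hm, Nat.cast_sub hcu, Nat.cast_one]
    linarith [Nat.le_ceil u]
  linarith

/-- A range of buckets, with error decaying in its lower end. -/
theorem bucket_range :
    ∃ C : ℝ, 0 ≤ C ∧ ∀ m n : ℕ, 1 ≤ m → m ≤ n →
      ∑ k ∈ Ico m n, ∑ p ∈ P031.bucket k, (p : ℝ)⁻¹ ≤ Real.log n - Real.log m + C / m := by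
  obtain ⟨B, hB0, hB⟩ := P031.exists_mertAt_bound
  refine ⟨2 * B + 1, by positivity, fun m n hm hmn => ?_⟩
  have hup : ∀ n, m ≤ n →
      ∑ k ∈ Ico m n, ∑ p ∈ P031.bucket k, (p : ℝ)⁻¹
        ≤ (Real.log n - Real.log m) + (P031.mertAt n - n - B) / n
          - (P031.mertAt m - m - B) / m + (1 / (m : ℝ) - 1 / n) := by
    intro n hn
    induction n, hn using Nat.le_induction with
    | base => simp
    | succ k hk ih =>
      rw [sum_Ico_succ_top hk]
      have hk0 : (0 : ℝ) < k := by exact_mod_cast lt_of_lt_of_le hm hk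
      have hb : ∑ p ∈ P031.bucket k, (p : ℝ)⁻¹
          ≤ (P031.mertAt (k + 1) - P031.mertAt k) / k := by
        refine le_trans (le_of_eq ?_) (P031.sum_bucket_le (hm.trans hk))
        exact sum_congr rfl fun p _ => (one_div _).symm
      refine (add_le_add ih hb).trans ?_
      have hl : 1 / ((k : ℝ) + 1) ≤ Real.log ((k : ℝ) + 1) - Real.log k := by
        have := Real.log_le_sub_one_of_pos (show 0 < (k : ℝ) / ((k : ℝ) + 1) by positivity)
        rw [Real.log_div hk0.ne' (by positivity)] at this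
        have e : (k : ℝ) / ((k : ℝ) + 1) - 1 = -(1 / ((k : ℝ) + 1)) := by field_simp; ring
        linarith
      have hE := (abs_le.1 (hB (k + 1))).2
      push_cast at hE ⊢
      generalize P031.mertAt (k + 1) = u at hE ⊢
      generalize P031.mertAt k = v
      generalize Real.log ((k : ℝ) + 1) = lk at hl ⊢
      have e : (u - v) / (k : ℝ) = 1 / ((k : ℝ) + 1) + (1 / (k : ℝ) - 1 / ((k : ℝ) + 1))
          + ((u - ((k : ℝ) + 1) - B) / ((k : ℝ) + 1) - (v - k - B) / k)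
          + ((u - ((k : ℝ) + 1) - B) * (1 / (k : ℝ) - 1 / ((k : ℝ) + 1))) := by
        field_simp
        ring
      have h0 : 0 ≤ 1 / (k : ℝ) - 1 / ((k : ℝ) + 1) := by
        rw [sub_nonneg]
        exact one_div_le_one_div_of_le hk0 (by linarith)
      have h1 := mul_nonpos_of_nonpos_of_nonneg (show u - ((k : ℝ) + 1) - B ≤ 0 by linarith) h0
      linarith
  refine (hup n hmn).trans ?_
  have hm0 : (0 : ℝ) < m := by exact_mod_cast hm
  have hn0 : (0 : ℝ) < n := lt_of_lt_of_le hm0 (by exact_mod_cast hmn)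
  have h1 : (P031.mertAt n - n - B) / n ≤ 0 :=
    div_nonpos_of_nonpos_of_nonneg (by linarith [(abs_le.1 (hB n)).2]) hn0.le
  have h2 : -(2 * B) / m ≤ (P031.mertAt m - m - B) / m :=
    div_le_div_of_nonneg_right (by linarith [(abs_le.1 (hB m)).1]) hm0.le
  have h3 : 0 ≤ 1 / (n : ℝ) := by positivity
  have e : (2 * B + 1) / (m : ℝ) = 1 / m - -(2 * B) / m := by ring
  linarith

/-- The second theorem of Mertens as an upper bound, with error tending to zero. -/
theorem log_mass (δ : ℝ) (hδ : 0 < δ) :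
    ∃ U : ℝ, 2 ≤ U ∧ ∀ (S : Finset ℕ) (u v : ℝ), (∀ p ∈ S, p.Prime) → U ≤ u → u ≤ v →
      (∀ p ∈ S, u ≤ Real.log p ∧ Real.log p ≤ v) →
      ∑ p ∈ S, (p : ℝ)⁻¹ ≤ Real.log (v / u) + δ := by
  obtain ⟨C, hC0, hC⟩ := bucket_range
  refine ⟨max 2 ((2 * C + 4) / δ), le_max_left _ _, fun S u v hS hU huv hlog => ?_⟩
  have hu2 : 2 ≤ u := (le_max_left _ _).trans hU
  have huδ : (2 * C + 4) / δ ≤ u := (le_max_right _ _).trans hU
  set m := ⌈u⌉₊ - 1 with hm
  set n := ⌈v⌉₊ with hn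
  have hcu : 2 ≤ ⌈u⌉₊ := by
    have := Nat.le_ceil u
    by_contra h
    have : (⌈u⌉₊ : ℝ) ≤ 1 := by exact_mod_cast (by omega : ⌈u⌉₊ ≤ 1)
    linarith
  have hmn : m ≤ n := (Nat.sub_le _ _).trans (Nat.ceil_le_ceil huv)
  have hsub : S ⊆ (Ico m n).biUnion P031.bucket := fun p hp => by
    obtain ⟨h1, h2⟩ := hlog p hp
    have hl : 0 < Real.log p := by linarith
    have hc1 : 1 ≤ ⌈Real.log p⌉₊ := Nat.one_le_ceil_iff.2 hl
    have h3 : ⌈u⌉₊ ≤ ⌈Real.log p⌉₊ := Nat.ceil_le_ceil h1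
    have h4 : ⌈Real.log p⌉₊ ≤ n := Nat.ceil_le_ceil h2
    refine mem_biUnion.2 ⟨⌈Real.log p⌉₊ - 1, mem_Ico.2 ⟨by omega, by omega⟩,
      P031.mem_bucket.2 ⟨hS p hp, Nat.lt_ceil.1 (by omega), ?_⟩⟩
    rw [Nat.cast_sub hc1, Nat.cast_one, sub_add_cancel]
    exact Nat.le_ceil _
  refine (sum_le_sum_of_subset_of_nonneg hsub fun p _ _ => by positivity).trans ?_
  rw [sum_biUnion (P031.bucket_disjoint _)]
  refine (hC m n (by omega) hmn).trans ?_
  have hm1 : u - 1 ≤ (m : ℝ) := by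
    rw [hm, Nat.cast_sub (by omega), Nat.cast_one]
    linarith [Nat.le_ceil u]
  have hn1 : (n : ℝ) ≤ v + 1 := (Nat.ceil_lt_add_one (by linarith)).le
  have hv0 : 0 < v := by linarith
  have hm0 : (0 : ℝ) < m := by linarith
  have hl1 : Real.log n ≤ Real.log v + 1 / v := by
    have hn0 : (0 : ℝ) < n := lt_of_lt_of_le hv0 (Nat.le_ceil v)
    have := Real.log_le_sub_one_of_pos (show 0 < (n : ℝ) / v by positivity)
    rw [Real.log_div hn0.ne' hv0.ne'] at this
    have e : (n : ℝ) / v - 1 = ((n : ℝ) - v) / v := by field_simp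
    have : ((n : ℝ) - v) / v ≤ 1 / v := div_le_div_of_nonneg_right (by linarith) hv0.le
    linarith
  have hl2 : Real.log u ≤ Real.log m + 1 / m := by
    have := Real.log_le_sub_one_of_pos (show 0 < u / (m : ℝ) by positivity)
    rw [Real.log_div (by linarith) hm0.ne'] at this
    have e : u / (m : ℝ) - 1 = (u - m) / m := by field_simp
    have : (u - (m : ℝ)) / m ≤ 1 / m := div_le_div_of_nonneg_right (by linarith) hm0.le
    linarith
  have h1 : 1 / v ≤ 1 / (u - 1) := one_div_le_one_div_of_le (by linarith) (by linarith)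
  have h2 : 1 / (m : ℝ) ≤ 1 / (u - 1) := one_div_le_one_div_of_le (by linarith) hm1
  have h3 : C / (m : ℝ) ≤ C / (u - 1) := div_le_div_of_nonneg_left hC0 (by linarith) hm1
  have h4 : (C + 2) / (u - 1) ≤ δ := by
    rw [div_le_iff₀ hδ] at huδ
    rw [div_le_iff₀ (by linarith)]
    nlinarith
  have e : (C + 2) / (u - 1) = 1 / (u - 1) + 1 / (u - 1) + C / (u - 1) := by ring
  rw [Real.log_div hv0.ne' (by linarith)]
  linarith

/-- Densities compared through the reciprocal sum between the two ends. -/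
theorem dens_le_mul_exp {P : Finset ℕ} (hP : ∀ p ∈ P, p.Prime) {x y : ℕ} (hx : 2 ≤ x) (hxy : x ≤ y) :
    dens P x ≤ dens P y *
      Real.exp (∑ p ∈ P.filter (fun p => x ≤ p ∧ p < y), (p : ℝ)⁻¹ + 1 / ((x : ℝ) - 1)) := by
  set W := P.filter (fun p => x ≤ p ∧ p < y) with hW
  have hxr : (2 : ℝ) ≤ x := by exact_mod_cast hx
  have e : dens P y = dens P x * ∏ p ∈ W, (1 - (p : ℝ)⁻¹) := by
    rw [dens, dens, ← prod_union]
    · refine prod_congr ?_ fun _ _ => rfl
      ext p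
      simp only [hW, mem_filter, mem_union]
      constructor
      · rintro ⟨h1, h2⟩
        rcases lt_or_ge p x with h | h
        · exact Or.inl ⟨h1, h⟩
        · exact Or.inr ⟨h1, h, h2⟩
      · rintro (⟨h1, h2⟩ | ⟨h1, -, h3⟩)
        · exact ⟨h1, lt_of_lt_of_le h2 hxy⟩
        · exact ⟨h1, h3⟩
    · rw [disjoint_left]
      intro p h1 h2
      simp only [hW, mem_filter] at h1 h2
      omega
  have hterm : ∀ p ∈ W, Real.exp (-((p : ℝ)⁻¹ + (1 / ((p : ℝ) - 1) - (p : ℝ)⁻¹)))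
      ≤ 1 - (p : ℝ)⁻¹ := by
    intro p hp
    have hp2 : (2 : ℝ) ≤ p := by exact_mod_cast (hP p (mem_filter.1 hp).1).two_le
    have h1 : (0 : ℝ) < 1 - (p : ℝ)⁻¹ := by linarith [(inv_prime_mem (hP p (mem_filter.1 hp).1)).2]
    rw [← Real.le_log_iff_exp_le h1]
    refine le_trans (le_of_eq ?_) (Real.one_sub_inv_le_log_of_pos h1)
    have : (p : ℝ) ≠ 0 := by linarith
    have h3 : (p : ℝ) - 1 ≠ 0 := by linarith
    field_simp
    ring
  have hsum : ∑ p ∈ W, (1 / ((p : ℝ) - 1) - (p : ℝ)⁻¹) ≤ 1 / ((x : ℝ) - 1) := by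
    have hsub : W ⊆ Ico x y := fun p hp => mem_Ico.2 (mem_filter.1 hp).2
    refine (sum_le_sum_of_subset_of_nonneg hsub fun p hp _ => ?_).trans ?_
    · have : (2 : ℝ) ≤ p := by exact_mod_cast hx.trans (mem_Ico.1 hp).1
      rw [sub_nonneg, one_div]
      exact inv_anti₀ (by linarith) (by linarith)
    · have key := Finset.sum_Ico_sub (fun p : ℕ => -(1 / ((p : ℝ) - 1))) hxy
      refine le_trans (le_of_eq ?_) (le_trans (le_of_eq key) ?_)
      · refine sum_congr rfl fun p hp => ?_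
        push_cast
        ring
      · have : (1 : ℝ) ≤ (y : ℝ) - 1 := by
          have : (2 : ℝ) ≤ y := by exact_mod_cast hx.trans hxy
          linarith
        have : 0 ≤ 1 / ((y : ℝ) - 1) := by positivity
        linarith
  have hpos : 0 < dens P x := dens_pos hP x
  have h2 : Real.exp (-(∑ p ∈ W, (p : ℝ)⁻¹ + 1 / ((x : ℝ) - 1))) ≤ ∏ p ∈ W, (1 - (p : ℝ)⁻¹) := by
    refine le_trans ?_ (prod_le_prod (fun p _ => (Real.exp_pos _).le) hterm)
    rw [← Real.exp_sum, Real.exp_le_exp, sum_neg_distrib, sum_add_distrib]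
    linarith
  rw [e, mul_assoc]
  refine le_mul_of_one_le_right hpos.le ?_
  have := mul_le_mul_of_nonneg_right h2
    (Real.exp_pos (∑ p ∈ W, (p : ℝ)⁻¹ + 1 / ((x : ℝ) - 1))).le
  rwa [← Real.exp_add, neg_add_cancel, Real.exp_zero] at this

end Vale.Agent.P013
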