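import Mathlib

/-!
# P013: the sifting recursion on an interval

`count` is the number of integers of an interval that are multiples of `d` and free of the sifted
primes below `z`.  `dev` is the deficit of the truncated alternating recursion (first index: upper),
and `count_bound` compares the two, with an error that is linear in the level.
-/

namespace Vale.Agent.P013

open Finset

/-- The integers of `[a, a + L)` that are multiples of `d` with no divisor in `P` below `z`. -/
noncomputable def sifted (P : Finset ℕ) (a : ℤ) (L d z : ℕ) : Finset ℤ :=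
  (Ico a (a + L)).filter fun m => (d : ℤ) ∣ m ∧ ∀ p ∈ P, p < z → ¬(p : ℤ) ∣ m

/-- The sifting density. -/
noncomputable def dens (P : Finset ℕ) (z : ℕ) : ℝ :=
  ∏ p ∈ P.filter (fun p => p < z), (1 - (p : ℝ)⁻¹)

open Classical in
/-- The deficit of the alternating recursion; `true` is the upper one. -/
noncomputable def dev (P : Finset ℕ) (w : ℕ) : ℕ → Bool → ℝ → ℝ
  | 0, _, _ => 0
  | z + 1, b, D => dev P w z b D +
      (if z ∈ P ∧ w ≤ z then
        (if b = true ∧ D ≤ (z : ℝ) ^ 3 then dens P z / z else dev P w z (!b) (D / z) / z)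
      else 0)

/-- The growth of the error term. -/
noncomputable def errProd (P : Finset ℕ) (w z : ℕ) : ℝ :=
  2 ^ w * ∏ p ∈ P.filter (fun p => w ≤ p ∧ p < z), (1 + (p : ℝ)⁻¹)

theorem inv_prime_mem {p : ℕ} (hp : p.Prime) : 0 ≤ (p : ℝ)⁻¹ ∧ (p : ℝ)⁻¹ ≤ 1 / 2 := by
  refine ⟨by positivity, ?_⟩
  rw [one_div]
  exact inv_anti₀ (by norm_num) (by exact_mod_cast hp.two_le)

theorem dens_pos {P : Finset ℕ} (hP : ∀ p ∈ P, p.Prime) (z : ℕ) : 0 < dens P z :=
  prod_pos fun p hp => by linarith [(inv_prime_mem (hP p (mem_filter.1 hp).1)).2]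

theorem dens_succ_mem {P : Finset ℕ} {z : ℕ} (hz : z ∈ P) :
    dens P (z + 1) = dens P z * (1 - (z : ℝ)⁻¹) := by
  have h : P.filter (fun p => p < z + 1) = insert z (P.filter fun p => p < z) := by
    ext p; simp only [mem_filter, mem_insert]; constructor
    · rintro ⟨h1, h2⟩
      rcases Nat.lt_succ_iff_lt_or_eq.1 h2 with h | h
      · exact Or.inr ⟨h1, h⟩
      · exact Or.inl h
    · rintro (rfl | ⟨h1, h2⟩)
      · exact ⟨hz, Nat.lt_succ_self _⟩
      · exact ⟨h1, h2.trans (Nat.lt_succ_self _)⟩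
  rw [dens, h, prod_insert (by simp), dens, mul_comm]

theorem dens_succ_not_mem {P : Finset ℕ} {z : ℕ} (hz : z ∉ P) :
    dens P (z + 1) = dens P z := by
  unfold dens
  congr 1
  ext p
  simp only [mem_filter]
  constructor
  · rintro ⟨h1, h2⟩
    exact ⟨h1, lt_of_le_of_ne (Nat.lt_succ_iff.1 h2) fun h => hz (h ▸ h1)⟩
  · rintro ⟨h1, h2⟩; exact ⟨h1, h2.trans (Nat.lt_succ_self _)⟩

theorem dens_le_one {P : Finset ℕ} (hP : ∀ p ∈ P, p.Prime) (z : ℕ) : dens P z ≤ 1 :=
  prod_le_one (fun p hp => by linarith [(inv_prime_mem (hP p (mem_filter.1 hp).1)).2])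
    fun p hp => by linarith [(inv_prime_mem (hP p (mem_filter.1 hp).1)).1]

theorem dev_nonneg {P : Finset ℕ} (hP : ∀ p ∈ P, p.Prime) (w : ℕ) :
    ∀ z b D, 0 ≤ dev P w z b D := by
  intro z
  induction z with
  | zero => intro b D; simp [dev]
  | succ z ih =>
    intro b D
    rw [dev]
    refine add_nonneg (ih b D) ?_
    split_ifs
    · exact div_nonneg (dens_pos hP z).le (Nat.cast_nonneg z)
    · exact div_nonneg (ih _ _) (Nat.cast_nonneg z)
    · exact le_rfl

open Classical in
theorem dev_eq_sum (P : Finset ℕ) (w : ℕ) : ∀ z b D, dev P w z b D =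
    ∑ p ∈ P.filter (fun p => w ≤ p ∧ p < z),
      if b = true ∧ D ≤ (p : ℝ) ^ 3 then dens P p / p else dev P w p (!b) (D / p) / p := by
  intro z
  induction z with
  | zero => intro b D; simp [dev]
  | succ z ih =>
    intro b D
    rw [dev, ih]
    by_cases h : z ∈ P ∧ w ≤ z
    · have e : P.filter (fun p => w ≤ p ∧ p < z + 1)
          = insert z (P.filter fun p => w ≤ p ∧ p < z) := by
        ext p; simp only [mem_filter, mem_insert]; constructor
        · rintro ⟨h1, h2, h3⟩
          rcases Nat.lt_succ_iff_lt_or_eq.1 h3 with h3 | h3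
          · exact Or.inr ⟨h1, h2, h3⟩
          · exact Or.inl h3
        · rintro (rfl | ⟨h1, h2, h3⟩)
          · exact ⟨h.1, h.2, Nat.lt_succ_self _⟩
          · exact ⟨h1, h2, h3.trans (Nat.lt_succ_self _)⟩
      rw [if_pos h, e, sum_insert (by simp), add_comm]
    · have e : P.filter (fun p => w ≤ p ∧ p < z + 1) = P.filter (fun p => w ≤ p ∧ p < z) := by
        ext p; simp only [mem_filter]; constructor
        · rintro ⟨h1, h2, h3⟩
          exact ⟨h1, h2, lt_of_le_of_ne (Nat.lt_succ_iff.1 h3) fun e => h (e ▸ ⟨h1, h2⟩)⟩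
        · rintro ⟨h1, h2, h3⟩; exact ⟨h1, h2, h3.trans (Nat.lt_succ_self _)⟩
      rw [if_neg h, e, add_zero]

theorem count_multiples (a : ℤ) (L d : ℕ) (hd : 0 < d) :
    |(((Ico a (a + L)).filter fun m => (d : ℤ) ∣ m).card : ℝ) - (L : ℝ) / d| ≤ 1 := by
  have hd0 : (0 : ℤ) < d := by exact_mod_cast hd
  have h := Int.Ico_filter_dvd_card a (a + L) hd0
  push_cast at h
  set u : ℚ := (a : ℚ) / d with hu
  set v : ℚ := ((a : ℚ) + L) / d with hv
  have hdq : (0 : ℚ) < d := by exact_mod_cast hd
  have huv : v - u = (L : ℚ) / d := by rw [hu, hv]; field_simp; ring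
  have h1 := Int.le_ceil u
  have h2 := Int.ceil_lt_add_one u
  have h3 := Int.le_ceil v
  have h4 := Int.ceil_lt_add_one v
  have hnn : (0 : ℤ) ≤ ⌈v⌉ - ⌈u⌉ := by
    have : u ≤ v := by
      have : (0 : ℚ) ≤ (L : ℚ) / d := by positivity
      linarith
    have := Int.ceil_mono this
    linarith
  rw [max_eq_left hnn] at h
  have hq : (((((Ico a (a + L)).filter fun m => (d : ℤ) ∣ m).card : ℕ) : ℚ)) = ⌈v⌉ - ⌈u⌉ := by
    exact_mod_cast h
  have habs : |(((((Ico a (a + L)).filter fun m => (d : ℤ) ∣ m).card : ℕ) : ℚ)) - (L : ℚ) / d| ≤ 1 := by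
    rw [hq, ← huv, abs_le]
    constructor <;> linarith
  have := (Rat.cast_le (K := ℝ)).2 habs
  push_cast at this
  simpa using this

theorem sifted_succ_mem {P : Finset ℕ} (hP : ∀ p ∈ P, p.Prime) {a : ℤ} {L d z : ℕ}
    (hz : z ∈ P) (hzd : ¬ z ∣ d) :
    ((sifted P a L d (z + 1)).card : ℝ)
      = (sifted P a L d z).card - (sifted P a L (d * z) z).card := by
  classical
  have hcop : IsCoprime (d : ℤ) (z : ℤ) := by
    rw [Int.isCoprime_iff_nat_coprime]
    simpa using ((hP z hz).coprime_iff_not_dvd.2 hzd).symm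
  have e1 : sifted P a L d (z + 1) = (sifted P a L d z).filter fun m => ¬(z : ℤ) ∣ m := by
    ext m
    simp only [sifted, mem_filter]
    constructor
    · rintro ⟨h1, h2, h3⟩
      exact ⟨⟨h1, h2, fun p hp hpz => h3 p hp (hpz.trans (Nat.lt_succ_self _))⟩,
        h3 z hz (Nat.lt_succ_self _)⟩
    · rintro ⟨⟨h1, h2, h3⟩, h4⟩
      refine ⟨h1, h2, fun p hp hpz => ?_⟩
      rcases Nat.lt_succ_iff_lt_or_eq.1 hpz with h | rfl
      · exact h3 p hp h
      · exact h4
  have e2 : sifted P a L (d * z) z = (sifted P a L d z).filter fun m => (z : ℤ) ∣ m := by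
    ext m
    simp only [sifted, mem_filter]
    push_cast
    constructor
    · rintro ⟨h1, h2, h3⟩
      exact ⟨⟨h1, (dvd_mul_right _ _).trans h2, h3⟩, (dvd_mul_left _ _).trans h2⟩
    · rintro ⟨⟨h1, h2, h3⟩, h4⟩
      exact ⟨h1, hcop.mul_dvd h2 h4, h3⟩
  rw [e1, e2, eq_sub_iff_add_eq, add_comm]
  exact_mod_cast card_filter_add_card_filter_not (fun m => (z : ℤ) ∣ m)

theorem sifted_succ_not_mem {P : Finset ℕ} {a : ℤ} {L d z : ℕ} (hz : z ∉ P) :
    sifted P a L d (z + 1) = sifted P a L d z := by
  ext m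
  simp only [sifted, mem_filter]
  refine and_congr_right fun _ => and_congr_right fun _ => ⟨fun h p hp hpz => h p hp (hpz.trans
    (Nat.lt_succ_self _)), fun h p hp hpz => h p hp ?_⟩
  exact lt_of_le_of_ne (Nat.lt_succ_iff.1 hpz) fun e => hz (e ▸ hp)

/-- The count is exact up to two to the number of sifted primes. -/
theorem count_exact {P : Finset ℕ} (hP : ∀ p ∈ P, p.Prime) (a : ℤ) (L : ℕ) : ∀ z d : ℕ, 0 < d →
    (∀ p ∈ P, p < z → ¬ p ∣ d) →
    |((sifted P a L d z).card : ℝ) - (L : ℝ) / d * dens P z|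
      ≤ 2 ^ (P.filter fun p => p < z).card := by
  intro z
  induction z with
  | zero =>
    intro d hd _
    have e : sifted P a L d 0 = (Ico a (a + L)).filter fun m => (d : ℤ) ∣ m := by
      ext m; simp [sifted]
    rw [e, show dens P 0 = 1 by simp [dens], mul_one,
      show (P.filter fun p => p < 0).card = 0 by simp, pow_zero]
    exact count_multiples a L d hd
  | succ z ih =>
    intro d hd hcop
    have hcop' : ∀ p ∈ P, p < z → ¬ p ∣ d := fun p hp h => hcop p hp (h.trans (Nat.lt_succ_self _))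
    have h1 := ih d hd hcop'
    by_cases hz : z ∈ P
    · have hzp := hP z hz
      have hzd := hcop z hz (Nat.lt_succ_self _)
      have h2 := ih (d * z) (Nat.mul_pos hd hzp.pos) fun p hp hpz hdvd => by
        rcases (hP p hp).dvd_mul.1 hdvd with h | h
        · exact hcop' p hp hpz h
        · exact hpz.ne ((Nat.prime_dvd_prime_iff_eq (hP p hp) hzp).1 h)
      have ec : (P.filter fun p => p < z + 1).card = (P.filter fun p => p < z).card + 1 := by
        rw [show P.filter (fun p => p < z + 1) = insert z (P.filter fun p => p < z) by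
          ext p; simp only [mem_filter, mem_insert]; constructor
          · rintro ⟨h1, h2⟩
            rcases Nat.lt_succ_iff_lt_or_eq.1 h2 with h | h
            · exact Or.inr ⟨h1, h⟩
            · exact Or.inl h
          · rintro (rfl | ⟨h1, h2⟩)
            · exact ⟨hz, Nat.lt_succ_self _⟩
            · exact ⟨h1, h2.trans (Nat.lt_succ_self _)⟩]
        exact card_insert_of_notMem (by simp)
      rw [sifted_succ_mem hP hz hzd, dens_succ_mem hz, ec, pow_succ]
      push_cast at h2
      rw [abs_le] at h1 h2 ⊢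
      have e : (L : ℝ) / d * (dens P z * (1 - (z : ℝ)⁻¹))
          = (L : ℝ) / d * dens P z - (L : ℝ) / ((d : ℝ) * z) * dens P z := by
        field_simp
      rw [e]
      constructor <;> linarith
    · rw [sifted_succ_not_mem hz, dens_succ_not_mem hz]
      refine h1.trans (pow_le_pow_right₀ (by norm_num) (card_le_card fun p hp => ?_))
      simp only [mem_filter] at hp ⊢
      exact ⟨hp.1, hp.2.trans (Nat.lt_succ_self _)⟩

/-- Below `w` the count is exact up to `2 ^ z`. -/
theorem count_small {P : Finset ℕ} (hP : ∀ p ∈ P, p.Prime) (a : ℤ) (L z d : ℕ) (hd : 0 < d)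
    (hcop : ∀ p ∈ P, p < z → ¬ p ∣ d) :
    |((sifted P a L d z).card : ℝ) - (L : ℝ) / d * dens P z| ≤ 2 ^ z := by
  refine (count_exact hP a L z d hd hcop).trans (pow_le_pow_right₀ (by norm_num) ?_)
  exact (card_le_card fun p hp => Finset.mem_range.2 (mem_filter.1 hp).2).trans (card_range z).le

theorem errProd_mono {P : Finset ℕ} (w z : ℕ) : errProd P w z ≤ errProd P w (z + 1) := by
  refine mul_le_mul_of_nonneg_left (prod_le_prod_of_subset_of_one_le ?_
    (fun p _ => by positivity) fun p _ _ => ?_) (by positivity)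
  · intro p hp
    simp only [mem_filter] at hp ⊢
    exact ⟨hp.1, hp.2.1, hp.2.2.trans (Nat.lt_succ_self _)⟩
  · have : (0 : ℝ) ≤ (p : ℝ)⁻¹ := by positivity
    linarith

theorem errProd_succ_mem {P : Finset ℕ} {w z : ℕ} (hz : z ∈ P) (hw : w ≤ z) :
    errProd P w (z + 1) = errProd P w z * (1 + (z : ℝ)⁻¹) := by
  have h : P.filter (fun p => w ≤ p ∧ p < z + 1)
      = insert z (P.filter fun p => w ≤ p ∧ p < z) := by
    ext p; simp only [mem_filter, mem_insert]; constructor
    · rintro ⟨h1, h2, h3⟩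
      rcases Nat.lt_succ_iff_lt_or_eq.1 h3 with h3 | h3
      · exact Or.inr ⟨h1, h2, h3⟩
      · exact Or.inl h3
    · rintro (rfl | ⟨h1, h2, h3⟩)
      · exact ⟨hz, hw, Nat.lt_succ_self _⟩
      · exact ⟨h1, h2, h3.trans (Nat.lt_succ_self _)⟩
  rw [errProd, h, prod_insert (by simp), errProd]
  ring

theorem two_pow_le_errProd (P : Finset ℕ) (w z : ℕ) : (2 : ℝ) ^ w ≤ errProd P w z := by
  refine le_mul_of_one_le_right (by positivity) (one_le_prod fun p _ => ?_)
  have : (0 : ℝ) ≤ (p : ℝ)⁻¹ := by positivity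
  linarith

/-- The sieve inequalities. -/
theorem count_bound {P : Finset ℕ} (hP : ∀ p ∈ P, p.Prime) (w : ℕ) (a : ℤ) (L : ℕ) :
    ∀ (z d : ℕ) (D : ℝ), 0 < d → 1 ≤ D → (∀ p ∈ P, p < z → ¬ p ∣ d) →
      ((sifted P a L d z).card : ℝ)
          ≤ (L : ℝ) / d * (dens P z + dev P w z true D) + errProd P w z * D ∧
      ((∀ p ∈ P, w ≤ p → p < z → (p : ℝ) ≤ D) →
        (L : ℝ) / d * (dens P z - dev P w z false D) - errProd P w z * D
          ≤ ((sifted P a L d z).card : ℝ)) := by
  intro z
  induction z with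
  | zero =>
    intro d D hd hD hcop
    have h := abs_le.1 (count_small hP a L 0 d hd hcop)
    have h2 : (1 : ℝ) ≤ errProd P w 0 * D :=
      one_le_mul_of_one_le_of_one_le ((one_le_pow₀ (by norm_num)).trans (two_pow_le_errProd P w 0)) hD
    simp only [dev, add_zero, sub_zero, pow_zero] at h ⊢
    exact ⟨by linarith, fun _ => by linarith⟩
  | succ z ih =>
    intro d D hd hD hcop
    have hLd : (0 : ℝ) ≤ (L : ℝ) / d := by positivity
    have hD0 : (0 : ℝ) ≤ D := by linarith
    by_cases hzw : z < w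
    · have h := abs_le.1 (count_small hP a L (z + 1) d hd hcop)
      have he : ∀ b, dev P w (z + 1) b D = 0 := fun b => by
        rw [dev_eq_sum]
        refine sum_eq_zero fun p hp => absurd (mem_filter.1 hp).2 ?_
        omega
      rw [he, he, add_zero, sub_zero]
      have h2 : (2 : ℝ) ^ (z + 1) ≤ errProd P w (z + 1) * D :=
        ((pow_le_pow_right₀ (by norm_num) hzw).trans (two_pow_le_errProd P w _)).trans
          (le_mul_of_one_le_right ((by positivity : (0 : ℝ) ≤ 2 ^ w).trans
            (two_pow_le_errProd P w _)) hD)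
      exact ⟨by linarith, fun _ => by linarith⟩
    replace hzw : w ≤ z := not_lt.1 hzw
    have hcop' : ∀ p ∈ P, p < z → ¬ p ∣ d := fun p hp h => hcop p hp (h.trans (Nat.lt_succ_self _))
    obtain ⟨hu, hl⟩ := ih d D hd hD hcop'
    by_cases hz : z ∈ P
    swap
    · rw [sifted_succ_not_mem hz, dens_succ_not_mem hz]
      simp only [dev, hz, false_and, if_false, add_zero]
      have hm := mul_le_mul_of_nonneg_right (errProd_mono (P := P) w z) hD0
      refine ⟨by linarith, fun hp => ?_⟩
      have := hl fun p hp' hw hpz => hp p hp' hw (hpz.trans (Nat.lt_succ_self _))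
      linarith
    have hzp := hP z hz
    have hzd := hcop z hz (Nat.lt_succ_self _)
    have hz0 : (0 : ℝ) < z := by exact_mod_cast hzp.pos
    have hcop2 : ∀ p ∈ P, p < z → ¬ p ∣ d * z := fun p hp hpz hdvd => by
      rcases (hP p hp).dvd_mul.1 hdvd with h | h
      · exact hcop' p hp hpz h
      · exact hpz.ne ((Nat.prime_dvd_prime_iff_eq (hP p hp) hzp).1 h)
    have hdz : 0 < d * z := Nat.mul_pos hd hzp.pos
    have hR : errProd P w (z + 1) * D = errProd P w z * D + errProd P w z * (D / z) := by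
      rw [errProd_succ_mem hz hzw]; ring
    have hLdz : (L : ℝ) / ((d * z : ℕ) : ℝ) = (L : ℝ) / d / z := by
      push_cast; rw [div_div]
    rw [sifted_succ_mem hP hz hzd, dens_succ_mem hz, hR]
    have hE0 : 0 ≤ errProd P w z := (by positivity : (0 : ℝ) ≤ 2 ^ w).trans (two_pow_le_errProd P w z)
    constructor
    · by_cases hcut : D ≤ (z : ℝ) ^ 3
      · have hn : (0 : ℝ) ≤ ((sifted P a L (d * z) z).card : ℝ) := Nat.cast_nonneg _
        simp only [dev, hz, hzw, and_self, if_true, hcut]
        have e : (L : ℝ) / d * (dens P z * (1 - (z : ℝ)⁻¹)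
            + (dev P w z true D + dens P z / z))
            = (L : ℝ) / d * (dens P z + dev P w z true D) := by ring
        have : 0 ≤ errProd P w z * (D / z) := by positivity
        linarith
      · replace hcut : (z : ℝ) ^ 3 < D := not_le.1 hcut
        have h1z : (1 : ℝ) ≤ z := by exact_mod_cast hzp.one_le
        have hz2 : (z : ℝ) ≤ D / z := by
          rw [le_div_iff₀ hz0]
          nlinarith
        have h := (ih (d * z) (D / z) hdz (h1z.trans hz2) hcop2).2 fun p _ _ hpz =>
          le_trans (by exact_mod_cast hpz.le) hz2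
        simp only [dev, hz, hzw, and_self, if_true, not_le.2 hcut, and_false, if_false, Bool.not_true]
        rw [hLdz] at h
        have e : (L : ℝ) / d * (dens P z * (1 - (z : ℝ)⁻¹)
            + (dev P w z true D + dev P w z false (D / z) / z))
            = (L : ℝ) / d * (dens P z + dev P w z true D)
              - (L : ℝ) / d / z * (dens P z - dev P w z false (D / z)) := by ring
        linarith
    · intro hp
      have hzD : (z : ℝ) ≤ D := hp z hz hzw (Nat.lt_succ_self _)
      have h1 := hl fun p hp' hw hpz => hp p hp' hw (hpz.trans (Nat.lt_succ_self _))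
      have h := (ih (d * z) (D / z) hdz ((one_le_div hz0).2 hzD) hcop2).1
      simp only [dev, hz, hzw, and_self, if_true, Bool.false_eq_true, false_and, if_false,
        Bool.not_false]
      rw [hLdz] at h
      have e : (L : ℝ) / d * (dens P z * (1 - (z : ℝ)⁻¹)
          - (dev P w z false D + dev P w z true (D / z) / z))
          = (L : ℝ) / d * (dens P z - dev P w z false D)
            - (L : ℝ) / d / z * (dens P z + dev P w z true (D / z)) := by ring
      linarith

end Vale.Agent.P013
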