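import Vale.Agent.P013.Mass

/-!
# P013: sums over primes against integrals in the variable `Λ / log p`
-/

namespace Vale.Agent.P013

open Finset MeasureTheory

/-- A monotone sum over primes is at most the integral, up to a small relative error. -/
theorem prime_riemann (δ : ℝ) (hδ : 0 < δ) :
    ∃ U : ℝ, 1 ≤ U ∧ ∀ (S : Finset ℕ) (Λ l : ℝ) (φ : ℝ → ℝ), (∀ p ∈ S, p.Prime) → 0 < Λ → 1 ≤ l →
      Antitone φ → (∀ x, 0 ≤ φ x) → (∀ p ∈ S, U ≤ Real.log p ∧ Real.log p ≤ Λ / l) →
      ∃ X, l ≤ X ∧ ∑ p ∈ S, (p : ℝ)⁻¹ * (Λ / Real.log p) * φ (Λ / Real.log p - 1)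
        ≤ (∫ t in l..X, φ (t - 1)) + δ * ((l + 1) * φ (l - 1) + ∫ t in l..X, t * φ (t - 1)) := by
  classical
  obtain ⟨B, hB0, hB⟩ := short_mass
  set w := min (δ / 8) 1 with hw
  have hw0 : 0 < w := lt_min (by linarith) one_pos
  have hw1 : w ≤ 1 := min_le_right _ _
  have hwδ : w ≤ δ / 8 := min_le_left _ _
  refine ⟨max 1 (B / w ^ 2), le_max_left _ _, fun S Λ l φ hS hΛ hl hanti hnn hlog => ?_⟩
  set U := max 1 (B / w ^ 2) with hU
  have hU0 : 0 < U := lt_of_lt_of_le one_pos (le_max_left _ _)
  have hBU : B / U ≤ w ^ 2 := by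
    have h := (div_le_iff₀ (by positivity)).1 (le_max_right 1 (B / w ^ 2))
    rw [div_le_iff₀ hU0]
    linarith
  set τ : ℕ → ℝ := fun p => Λ / Real.log p with hτ
  have hlp : ∀ p ∈ S, 0 < Real.log p := fun p hp => lt_of_lt_of_le hU0 (hlog p hp).1
  have hlτ : ∀ p ∈ S, l ≤ τ p := fun p hp => by
    have h := (le_div_iff₀ (by linarith : (0 : ℝ) < l)).1 (hlog p hp).2
    simp only [hτ]
    rw [le_div_iff₀ (hlp p hp)]
    linarith
  set idx : ℕ → ℕ := fun p => ⌊(τ p - l) / w⌋₊ with hidx
  set N := S.sup idx + 1 with hN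
  set a : ℕ → ℝ := fun i => l + i * w with ha
  have ha0 : a 0 = l := by simp [ha]
  have haN : ∀ i, a (i + 1) = a i + w := fun i => by simp only [ha]; push_cast; ring
  have hla : ∀ i, l ≤ a i := fun i => le_add_of_nonneg_right (by positivity)
  refine ⟨a N, hla N, ?_⟩
  have hmap : ∀ p ∈ S, idx p ∈ range N := fun p hp =>
    Finset.mem_range.2 (Nat.lt_succ_of_le (le_sup (f := idx) hp))
  rw [← sum_fiberwise_of_maps_to hmap]
  have hcell : ∀ i, ∑ p ∈ S.filter (fun p => idx p = i), (p : ℝ)⁻¹ * (Λ / Real.log p) * φ (Λ / Real.log p - 1)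
      ≤ w * (1 + w + w * (a i + w)) * φ (a i - 1) := by
    intro i
    have hai : (0 : ℝ) < a i := by linarith [hla i]
    set T := S.filter (fun p => idx p = i) with hT
    have hr : ∀ p ∈ T, a i ≤ τ p ∧ τ p ≤ a i + w := by
      intro p hp
      obtain ⟨hpS, hpi⟩ := mem_filter.1 hp
      have h0 : 0 ≤ (τ p - l) / w := div_nonneg (by linarith [hlτ p hpS]) hw0.le
      have h1 := Nat.floor_le h0
      have h2 := Nat.lt_floor_add_one ((τ p - l) / w)
      rw [show ⌊(τ p - l) / w⌋₊ = i from hpi] at h1 h2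
      rw [le_div_iff₀ hw0] at h1
      rw [div_lt_iff₀ hw0] at h2
      simp only [ha]
      constructor <;> nlinarith
    rcases T.eq_empty_or_nonempty with hT0 | ⟨q, hq⟩
    · rw [hT0, sum_empty]
      exact mul_nonneg (mul_nonneg hw0.le (by positivity)) (hnn _)
    have h1 : ∑ p ∈ T, (p : ℝ)⁻¹ * (Λ / Real.log p) * φ (Λ / Real.log p - 1)
        ≤ ∑ p ∈ T, (p : ℝ)⁻¹ * ((a i + w) * φ (a i - 1)) := by
      refine sum_le_sum fun p hp => ?_
      rw [mul_assoc]
      refine mul_le_mul_of_nonneg_left ?_ (by positivity)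
      refine mul_le_mul (hr p hp).2 (hanti ?_) (hnn _) (by linarith)
      have := (hr p hp).1
      simp only [hτ] at this
      linarith
    refine h1.trans ?_
    rw [← sum_mul]
    set u := max U (Λ / (a i + w)) with hu
    have hu0 : 0 < u := lt_of_lt_of_le hU0 (le_max_left _ _)
    have hrange : ∀ p ∈ T, u ≤ Real.log p ∧ Real.log p ≤ Λ / a i := by
      intro p hp
      have hpS := (mem_filter.1 hp).1
      have h3 := hlp p hpS
      have h4 := hr p hp
      simp only [hτ] at h4
      rw [le_div_iff₀ h3, div_le_iff₀ h3] at h4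
      refine ⟨max_le (hlog p hpS).1 ?_, ?_⟩
      · rw [div_le_iff₀ (by linarith)]; linarith [h4.2]
      · rw [le_div_iff₀ hai]; linarith [h4.1]
    have huv : u ≤ Λ / a i := (hrange q hq).1.trans (hrange q hq).2
    have hsum := hB T u (Λ / a i) (fun p hp => hS p (mem_filter.1 hp).1) hu0 huv hrange
    have hb : (∑ p ∈ T, (p : ℝ)⁻¹) * (a i + w) ≤ w * (1 + w + w * (a i + w)) := by
      refine (mul_le_mul_of_nonneg_right hsum (by linarith)).trans ?_
      have h2 : (Λ / a i - u + B) / u ≤ w / a i + B / U := by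
        rw [add_div]
        refine add_le_add ?_ (div_le_div_of_nonneg_left hB0 hU0 (le_max_left _ _))
        have hub : Λ / (a i + w) ≤ u := le_max_right _ _
        rw [div_le_div_iff₀ hu0 hai, sub_mul, div_mul_cancel₀ _ hai.ne']
        rw [div_le_iff₀ (by linarith)] at hub
        nlinarith
      refine (mul_le_mul_of_nonneg_right h2 (by linarith)).trans ?_
      have h3 : w / a i * w ≤ w * w := by
        rw [div_mul_eq_mul_div, div_le_iff₀ hai]
        nlinarith [hla i, mul_nonneg hw0.le hw0.le]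
      have h4 := mul_le_mul_of_nonneg_right hBU (show (0 : ℝ) ≤ a i + w by linarith)
      have e : (w / a i + B / U) * (a i + w) = w + w / a i * w + B / U * (a i + w) := by
        field_simp
      nlinarith
    calc (∑ p ∈ T, (p : ℝ)⁻¹) * ((a i + w) * φ (a i - 1))
        = ((∑ p ∈ T, (p : ℝ)⁻¹) * (a i + w)) * φ (a i - 1) := by ring
      _ ≤ _ := mul_le_mul_of_nonneg_right hb (hnn _)
  refine (sum_le_sum fun i _ => hcell i).trans ?_
  have hint : ∀ x y, IntervalIntegrable (fun t => φ (t - 1)) volume x y := fun x y =>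
    (show Antitone fun t => φ (t - 1) from fun s t h => hanti (by linarith)).intervalIntegrable
  have hint2 : ∀ x y, IntervalIntegrable (fun t => (1 + 4 * w * t) * φ (t - 1)) volume x y :=
    fun x y => (hint x y).continuousOn_mul (by fun_prop)
  have hint3 : ∀ x y, IntervalIntegrable (fun t => t * φ (t - 1)) volume x y :=
    fun x y => (hint x y).continuousOn_mul (by fun_prop)
  have hlast : ∑ i ∈ range N, w * (1 + w + w * (a i + w)) * φ (a i - 1)
      ≤ w * (1 + w + w * (l + w)) * φ (l - 1) + ∫ t in l..a N, (1 + 4 * w * t) * φ (t - 1) := by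
    have hNs : N = S.sup idx + 1 := hN
    rw [hNs, sum_range_succ', add_comm, ha0]
    gcongr
    calc ∑ i ∈ range (S.sup idx), w * (1 + w + w * (a (i + 1) + w)) * φ (a (i + 1) - 1)
        ≤ ∑ i ∈ range (S.sup idx), ∫ t in a i..a (i + 1), (1 + 4 * w * t) * φ (t - 1) := by
          refine sum_le_sum fun i _ => ?_
          have hab : a i ≤ a (i + 1) := by linarith [haN i]
          refine le_trans (le_of_eq ?_) (intervalIntegral.integral_mono_on hab
            (intervalIntegrable_const (c := (1 + w + w * (a (i + 1) + w)) * φ (a (i + 1) - 1)))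
            (hint2 _ _) fun t ht => ?_)
          · rw [intervalIntegral.integral_const, smul_eq_mul, haN i, add_sub_cancel_left]
            ring
          · have ht1 : 1 ≤ t := hl.trans ((hla i).trans ht.1)
            refine mul_le_mul ?_ (hanti (by linarith [ht.2])) (hnn _) (by positivity)
            nlinarith [ht.1, haN i]
      _ = ∫ t in a 0..a (S.sup idx), (1 + 4 * w * t) * φ (t - 1) :=
          intervalIntegral.sum_integral_adjacent_intervals fun i _ => hint2 _ _
      _ ≤ _ := by
          rw [ha0, ← intervalIntegral.integral_add_adjacent_intervals (hint2 l (a (S.sup idx)))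
            (hint2 (a (S.sup idx)) (a (S.sup idx + 1)))]
          refine le_add_of_nonneg_right (intervalIntegral.integral_nonneg (by linarith [haN (S.sup idx)])
            fun t ht => mul_nonneg ?_ (hnn _))
          have : 1 ≤ t := hl.trans ((hla _).trans ht.1)
          positivity
  refine hlast.trans ?_
  have e : ∫ t in l..a N, (1 + 4 * w * t) * φ (t - 1)
      = (∫ t in l..a N, φ (t - 1)) + 4 * w * ∫ t in l..a N, t * φ (t - 1) := by
    rw [← intervalIntegral.integral_const_mul, ← intervalIntegral.integral_add (hint _ _)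
      ((hint3 _ _).const_mul _)]
    exact intervalIntegral.integral_congr fun t _ => by ring
  rw [e]
  have hI : 0 ≤ ∫ t in l..a N, t * φ (t - 1) :=
    intervalIntegral.integral_nonneg (hla N) fun t ht => mul_nonneg (by linarith [ht.1]) (hnn _)
  have h5 : w * (1 + w + w * (l + w)) ≤ δ * (l + 1) := by
    have h6 : 1 + w + w * (l + w) ≤ 2 * (l + 1) := by nlinarith
    nlinarith [mul_le_mul hwδ h6 (by positivity) (by linarith)]
  nlinarith [mul_le_mul_of_nonneg_right h5 (hnn (l - 1)),
    mul_le_mul_of_nonneg_right (show 4 * w ≤ δ by linarith) hI]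

end Vale.Agent.P013
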