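import Vale.Agent.P013.ThinTop

/-!
# P013: few primes in `(k ^ θ, k]` give the exponent `2θ + ε`
-/

namespace Vale.Agent.P013

open Finset Filter

/-- The count of survivors, upper and lower, cannot agree. -/
theorem range_false {L V γ η A W lk T Z S D R M G : ℝ} (hL : 0 < L) (hV : 0 < V) (hγ : 0 < γ)
    (hη : 0 < η) (hW : 1 ≤ W) (hlk : 1 ≤ lk) (hT : 0 ≤ T) (hZ0 : 0 ≤ Z) (hZ : Z ≤ 2 * lk)
    (hVlow : 1 ≤ 4 * W * lk * V) (hsmall : lk ^ 2 * T ≤ γ / (80 * W ^ 2))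
    (hR : R ≤ 2 * W * Z) (hD0 : 0 ≤ D) (hD : D ≤ L * T)
    (hlow : L * V * (2 * γ) - R * D ≤ S) (hup : S ≤ M + G) (hG : G ≤ 2 * (L * T))
    (hM : M ≤ L * V * (18 * A / η * (γ * η / (100 * A))) + 2 * W * Z * (L * T)) (hA : 1 ≤ A) :
    False := by
  have e : 18 * A / η * (γ * η / (100 * A)) = 18 / 100 * γ := by field_simp
  rw [e] at hM
  have hLT : 0 ≤ L * T := mul_nonneg hL.le hT
  have h1 : R * D ≤ 4 * W * lk * (L * T) := by
    refine (mul_le_mul_of_nonneg_right (hR.trans (mul_le_mul_of_nonneg_left hZ (by positivity))) hD0).trans ?_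
    refine (mul_le_mul_of_nonneg_left hD (by positivity)).trans (le_of_eq ?_)
    ring
  have h2 : 2 * W * Z * (L * T) ≤ 4 * W * lk * (L * T) :=
    (mul_le_mul_of_nonneg_right (mul_le_mul_of_nonneg_left hZ (by positivity)) hLT).trans_eq (by ring)
  have h3 : 2 * (L * T) ≤ 2 * W * lk * (L * T) :=
    mul_le_mul_of_nonneg_right (by nlinarith) hLT
  have h4 : 10 * W * lk * (L * T) ≤ L * V * (γ / 2) := by
    refine (le_mul_of_one_le_right (by positivity) hVlow).trans ?_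
    have h5 := (le_div_iff₀ (by positivity)).1 hsmall
    have h6 := mul_le_mul_of_nonneg_left h5 (show 0 ≤ L * V / 2 by positivity)
    linarith
  have : 0 < L * V * γ := by positivity
  linarith

theorem mid_class {P M : Finset ℕ} {w z' : ℕ} {x : ℤ} {L k : ℕ} {A' R' D' m : ℝ}
    (hP : ∀ p ∈ P, p.Prime) (hMP : M ⊆ P) (hk : P.card = k) (hzp : ∀ p ∈ M, z' ≤ p)
    (hD : 1 ≤ D') (hA : dens P z' + dev P w z' true D' ≤ A') (hA0 : 0 ≤ A') (hR : errProd P w z' ≤ R')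
    (hR0 : 0 ≤ R') (hmass : ∑ p ∈ M, (p : ℝ)⁻¹ ≤ m) :
    ∑ p ∈ M, ((sifted P x L p z').card : ℝ) ≤ (L : ℝ) * A' * m + R' * ((k : ℝ) * D') := by
  refine (sum_le_sum fun p hp => count_prime hP w x L (hMP hp) (hzp p hp) hD hA hR).trans ?_
  rw [sum_add_distrib, sum_const, nsmul_eq_mul]
  refine add_le_add ?_ ?_
  · rw [show ∑ p ∈ M, (L : ℝ) / p * A' = (L : ℝ) * A' * ∑ p ∈ M, (p : ℝ)⁻¹ by
      rw [mul_sum]; exact sum_congr rfl fun p _ => by ring]
    exact mul_le_mul_of_nonneg_left hmass (by positivity)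
  · rw [mul_left_comm R']
    exact mul_le_mul_of_nonneg_right (by exact_mod_cast hk ▸ card_le_card hMP) (by positivity)

theorem range_cover {n k z z' : ℕ} {P M F : Finset ℕ} {x : ℤ} {L : ℕ} {B G₁ G₂ : ℝ}
    (hn : n ≠ 0) (hPdef : P = n.primeFactors) (hk : P.card = k) (hz'z : z' ≤ z)
    (hM : ∀ p ∈ P, z ≤ p → (p : ℝ) ≤ B → p ∈ M)
    (hF : F = P.filter fun p : ℕ => B < (p : ℝ))
    (hnone : ¬ ∃ m : ℤ, x ≤ m ∧ m < x + L ∧ Int.gcd m n = 1)
    (hMsum : ∑ p ∈ M, ((sifted P x L p z').card : ℝ) ≤ G₁)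
    (hB : 0 < B) (hG₂ : (k : ℝ) * ((L : ℝ) / B + 1) ≤ G₂) :
    ((sifted P x L 1 z).card : ℝ) ≤ G₁ + G₂ := by
  have hP : ∀ p ∈ P, p.Prime := fun p hp => Nat.prime_of_mem_primeFactors (hPdef ▸ hp)
  have hFsum : ∑ p ∈ F, ((sifted P x L p 0).card : ℝ) ≤ G₂ := by
    subst hF
    refine far_class hP (filter_subset _ _) hk (by positivity) (fun p hp => ?_) hG₂
    exact div_le_div_of_nonneg_left (Nat.cast_nonneg L) hB (mem_filter.1 hp).2.le
  have hcover : sifted P x L 1 z ⊆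
      M.biUnion (fun p => sifted P x L p z') ∪ F.biUnion (fun p => sifted P x L p 0) := by
    intro m hm
    have hnot : ∃ p ∈ P, z ≤ p ∧ (p : ℤ) ∣ m := by
      by_contra h
      simp only [not_exists, not_and] at h
      exact hnone (exists_coprime_of_sifted hn ⟨m, by rw [← hPdef]; exact hm,
        fun p hp hzp => h p (hPdef.symm ▸ hp) hzp⟩)
    obtain ⟨p, hp, hzp, hpm⟩ := hnot
    simp only [sifted, mem_filter] at hm
    simp only [Finset.mem_union, Finset.mem_biUnion]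
    rcases le_or_gt (p : ℝ) B with h | h
    · exact Or.inl ⟨p, hM p hp hzp h, mem_filter.2 ⟨hm.1, hpm,
        fun q hq hqz => hm.2.2 q hq (lt_of_lt_of_le hqz hz'z)⟩⟩
    · exact Or.inr ⟨p, hF ▸ mem_filter.2 ⟨hp, h⟩, mem_filter.2 ⟨hm.1, hpm,
        fun q _ hqz => absurd hqz (Nat.not_lt_zero q)⟩⟩
  have hupper : ((sifted P x L 1 z).card : ℝ)
      ≤ ∑ p ∈ M, ((sifted P x L p z').card : ℝ) + ∑ p ∈ F, ((sifted P x L p 0).card : ℝ) := by
    exact_mod_cast (card_le_card hcover).trans ((card_union_le _ _).trans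
      (add_le_add card_biUnion_le card_biUnion_le))
  exact hupper.trans (add_le_add hMsum hFsum)

theorem range_mass {η' lk : ℝ} {k : ℕ} {P : Finset ℕ} {θ : ℝ} (hP : ∀ p ∈ P, p.Prime)
    (hk0 : (0 : ℝ) < k) (hlk : lk = Real.log k) (hlk0 : 0 < lk) (hη' : 0 < η')
    (hmass : ∀ (S : Finset ℕ) (u v : ℝ), (∀ p ∈ S, p.Prime) → lk ≤ u → u ≤ v →
      (∀ p ∈ S, u ≤ Real.log p ∧ Real.log p ≤ v) → ∑ p ∈ S, (p : ℝ)⁻¹ ≤ Real.log (v / u) + η')
    (hthin : (∑ p ∈ P.filter (fun p : ℕ => (k : ℝ) ^ θ < p ∧ p ≤ k), (1 : ℝ) / p) ≤ η') :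
    ∑ p ∈ P.filter (fun p : ℕ => (k : ℝ) ^ θ < p ∧ (p : ℝ) ≤ Real.exp ((1 + η') * lk)), (p : ℝ)⁻¹
      ≤ 3 * η' := by
  rw [← sum_filter_add_sum_filter_not _ (fun p : ℕ => p ≤ k)]
  refine (add_le_add (le_trans ?_ hthin) ((hmass _ lk ((1 + η') * lk)
    (fun p hp => hP p (mem_filter.1 (mem_filter.1 hp).1).1) le_rfl
    (le_mul_of_one_le_left hlk0.le (by linarith)) fun p hp => ?_))).trans ?_
  · simp only [one_div]
    refine sum_le_sum_of_subset_of_nonneg (fun p hp => ?_) fun p _ _ => by positivity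
    obtain ⟨hp1, hp2⟩ := mem_filter.1 hp
    obtain ⟨hpP, hpθ, -⟩ := mem_filter.1 hp1
    exact mem_filter.2 ⟨hpP, hpθ, hp2⟩
  · obtain ⟨hp1, hp2⟩ := mem_filter.1 hp
    obtain ⟨hpP, -, hpB⟩ := mem_filter.1 hp1
    have hp0 : (0 : ℝ) < p := by exact_mod_cast (hP p hpP).pos
    refine ⟨hlk ▸ Real.log_le_log hk0 (by exact_mod_cast (not_le.1 hp2).le), ?_⟩
    exact (Real.log_le_iff_le_exp hp0).2 hpB
  · rw [mul_div_assoc, div_self hlk0.ne', mul_one]
    linarith [Real.log_le_sub_one_of_pos (show (0 : ℝ) < 1 + η' by linarith)]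

theorem range_scales {θ ε η η' lk Z : ℝ} (hθ : 1 / 2 ≤ θ) (hθ1 : θ < 1) (hε : 0 < ε)
    (hε1 : ε ≤ 1 / 4) (hη : η = ε / 4) (hη' : η' ≤ η) (hlk : 8 / η ≤ lk)
    (hZ1 : θ * lk ≤ Z) (hZ2 : Z ≤ θ * lk + 1) :
    2 ≤ (2 * θ + ε / 2) * lk / Z ∧ 2 / ((2 * θ + ε / 2) * lk / Z) + ε / 40 ≤ 1 - 2 * (ε / 40) ∧
      Z ≤ 2 * lk ∧ 2 ≤ η * lk ∧ η * lk ≤ Z ∧ 0 < Z ∧ 0 < lk ∧
      (2 * θ + ε / 2) * lk + η' * lk ≤ (2 * θ + ε) * lk ∧
      lk + η * lk + η' * lk ≤ (2 * θ + ε) * lk := by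
  have hη0 : 0 < η := by linarith
  have h8 := (div_le_iff₀ hη0).1 hlk
  have hlk0 : 0 < lk := lt_of_lt_of_le (by positivity) hlk
  have hθlk : 1 / 2 * lk ≤ θ * lk := mul_le_mul_of_nonneg_right hθ hlk0.le
  have hθlk1 : θ * lk ≤ lk := mul_le_of_le_one_left hlk0.le hθ1.le
  have hη'lk : η' * lk ≤ η * lk := mul_le_mul_of_nonneg_right hη' hlk0.le
  have hεlk : ε * lk ≤ 1 / 4 * lk := mul_le_mul_of_nonneg_right hε1 hlk0.le
  have hZ0 : 0 < Z := by linarith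
  subst hη
  have hεε : ε * (ε * lk) ≤ 1 / 4 * (ε * lk) := mul_le_mul_of_nonneg_right hε1 (by linarith)
  have hεθ : ε * (θ * lk) ≤ ε * lk := mul_le_mul_of_nonneg_left hθlk1 hε.le
  have hs : 2 / (1 - 3 * ε / 40) ≤ (2 * θ + ε / 2) * lk / Z := by
    rw [div_le_div_iff₀ (by linarith) hZ0]
    linarith
  have hs2 : 2 ≤ (2 * θ + ε / 2) * lk / Z :=
    le_trans (le_div_self zero_le_two (by linarith) (by linarith)) hs
  refine ⟨hs2, ?_, by linarith, by linarith, by linarith, hZ0, hlk0, by linarith, by linarith⟩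
  have h := div_le_div_of_nonneg_left zero_le_two (div_pos two_pos (by linarith)) hs
  have h3 : (2 : ℝ) / (2 / (1 - 3 * ε / 40)) = 1 - 3 * ε / 40 := by
    have : (1 : ℝ) - 3 * ε / 40 ≠ 0 := by linarith
    field_simp
  rw [h3] at h
  linarith

theorem thin_range_large (θ ε : ℝ) (hθ : 1 / 2 ≤ θ) (hθ1 : θ < 1) (hε : 0 < ε) (hε1 : ε ≤ 1 / 4) :
    ∃ τ : ℝ, 0 < τ ∧ ∃ K₀ : ℕ, ∀ n : ℕ, n ≠ 0 → K₀ ≤ n.primeFactors.card →
      (∑ p ∈ n.primeFactors.filter (fun p : ℕ =>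
          (n.primeFactors.card : ℝ) ^ θ < p ∧ p ≤ n.primeFactors.card), (1 : ℝ) / p) ≤ τ →
      ∀ (x : ℤ) (L : ℕ), (n.primeFactors.card : ℝ) ^ (2 * θ + ε) ≤ L →
        ∃ m : ℤ, x ≤ m ∧ m < x + L ∧ Int.gcd m n = 1 := by
  classical
  set γ := ε / 40 with hγ
  have hγ0 : 0 < γ := by positivity
  obtain ⟨U₁, -, hlow⟩ := lower_margin γ hγ0
  obtain ⟨A₀, U₂, -, hupc⟩ := upper_const
  obtain ⟨U₃, -, hed⟩ := err_and_dens
  obtain ⟨U₄, hU₄, hden⟩ := density_ratio 1 one_pos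
  set A := max A₀ 1 with hA
  have hA1 : 1 ≤ A := le_max_right _ _
  set η := ε / 4 with hη
  have hη0 : 0 < η := by positivity
  set η' := min η (γ * η / (100 * A)) with hη'
  have hη'0 : 0 < η' := lt_min hη0 (by positivity)
  have hη'η : η' ≤ η := min_le_left _ _
  have hη'A : η' ≤ γ * η / (100 * A) := min_le_right _ _
  obtain ⟨U₅, hU₅, hmass⟩ := log_mass η' hη'0
  set U := max (max U₁ U₂) (max U₃ U₄) with hU
  obtain ⟨w, hw⟩ := exists_nat_ge (Real.exp U)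
  have hwpos : (0 : ℝ) < w := (Real.exp_pos U).trans_le hw
  have hlw : U ≤ Real.log w := (Real.le_log_iff_exp_le hwpos).2 hw
  simp only [hU, max_le_iff] at hlw
  obtain ⟨⟨hw1, hw2⟩, hw3, hw4⟩ := hlw
  set W := (2 : ℝ) ^ w with hW
  have hW1 : 1 ≤ W := one_le_pow₀ one_le_two
  have hθ0 : 0 < γ / (80 * W ^ 2) := by positivity
  obtain ⟨K₀, hK₀⟩ := eventually_atTop.1
    (eventually_small (8 / η + U₅ + (Real.log w + 2) / η) hη'0 hθ0)
  refine ⟨η', hη'0, max K₀ 1, fun n hn hk hthin x L hL => ?_⟩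
  set P := n.primeFactors with hPdef
  set k := P.card with hkdef
  obtain ⟨hlk, hksmall⟩ := hK₀ k ((le_max_left _ _).trans hk)
  have hkpos : 0 < k := lt_of_lt_of_le one_pos ((le_max_right _ _).trans hk)
  have hk0 : (0 : ℝ) < k := by exact_mod_cast hkpos
  set lk := Real.log (k : ℝ) with hlkdef
  have hlw0 : 0 ≤ Real.log (w : ℝ) := Real.log_natCast_nonneg w
  have h8 : 8 / η ≤ lk := by
    have : 0 ≤ U₅ + (Real.log w + 2) / η := add_nonneg (by linarith only [hU₅]) (by positivity)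
    linarith only [this, hlk]
  have hU5lk : U₅ ≤ lk := by
    have : 0 ≤ 8 / η + (Real.log w + 2) / η := by positivity
    linarith only [this, hlk]
  have hwη : Real.log w + 2 ≤ η * lk := by
    have h0 : 0 ≤ 8 / η + U₅ := add_nonneg (by positivity) (by linarith only [hU₅])
    have h1 : (Real.log w + 2) / η ≤ lk := by linarith only [h0, hlk]
    rw [div_le_iff₀ hη0] at h1
    linarith only [h1]
  have hrpow : ∀ t : ℝ, (k : ℝ) ^ t = Real.exp (t * lk) := fun t => by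
    rw [Real.rpow_def_of_pos hk0, mul_comm, hlkdef]
  have hP : ∀ p ∈ P, p.Prime := fun p hp => Nat.prime_of_mem_primeFactors hp
  have hθlk : 2 ≤ θ * lk := by
    have h1 := (div_le_iff₀ hη0).1 h8
    have : η * lk ≤ θ * lk := mul_le_mul_of_nonneg_right (by linarith only [hη, hθ, hε1])
      (le_trans (by positivity) h8)
    linarith only [this, h1]
  set z := ⌊Real.exp (θ * lk)⌋₊ + 1 with hz
  set Z := Real.log (z : ℝ) with hZ
  obtain ⟨hzr, hZ1, hZ2⟩ : Real.exp (θ * lk) < (z : ℝ) ∧ θ * lk ≤ Z ∧ Z ≤ θ * lk + 1 :=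
    sift_limit hθlk
  obtain ⟨hs2, hsγ, hZlk, hηlk, hηZ, hZ0, hlk0, hDexp, hkD'exp⟩ :=
    range_scales hθ hθ1 hε hε1 hη hη'η h8 hZ1 hZ2
  set z' := ⌊Real.exp (η * lk)⌋₊ with hz'
  obtain ⟨hz'1, hz'2, hz'0⟩ := log_floor_exp hηlk
  rw [← hz'] at hz'1 hz'2 hz'0
  have hlz'0 : 0 < Real.log (z' : ℝ) := by linarith only [hz'1, hηlk]
  have hz'z : z' ≤ z := Nat.le_succ_of_le (Nat.floor_le_floor (Real.exp_le_exp.2
    (mul_le_mul_of_nonneg_right (by linarith only [hη, hθ, hε1]) hlk0.le)))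
  have hwz' : w ≤ z' := Nat.cast_le.1 ((Real.log_le_log_iff hwpos (Nat.cast_pos.2 hz'0)).1
    (by linarith only [hz'1, hwη]))
  have hwz : w ≤ z := hwz'.trans hz'z
  obtain ⟨hR, hVlow⟩ := hed P w z hP hw3 hwz
  set V := dens P z with hV
  have hV0 : 0 < V := dens_pos hP z
  have hVlow' : 1 ≤ 4 * W * lk * V := by
    refine hVlow.trans (mul_le_mul_of_nonneg_right ?_ hV0.le)
    exact (mul_le_mul_of_nonneg_left hZlk (by positivity)).trans_eq (by ring)
  set D := Real.exp ((2 * θ + ε / 2) * lk) with hD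
  have hlD : Real.log D / Real.log (z : ℝ) = (2 * θ + ε / 2) * lk / Z := by rw [hD, Real.log_exp]
  have hD1 : 1 ≤ D := Real.one_le_exp (mul_nonneg (by linarith only [hθ, hε]) hlk0.le)
  have hdev := (hlow P w hP hw1 z D hwz hD1 (by rw [hlD]; exact hs2)).trans
    (mul_le_mul_of_nonneg_left (show _ ≤ 1 - 2 * γ by rw [hlD]; exact hsγ) hV0.le)
  have hmain := (count_bound hP w x L z 1 D one_pos hD1
    fun p hp _ h => (hP p hp).one_lt.ne' (Nat.dvd_one.1 h)).2 fun p _ _ hpz => by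
      refine (show (p : ℝ) ≤ z by exact_mod_cast hpz.le).trans ?_
      have hz0 : (0 : ℝ) < z := (Real.exp_pos _).trans hzr
      rw [← Real.exp_log hz0, hD]
      exact Real.exp_le_exp.2 ((le_mul_of_one_le_left hZ0.le one_le_two).trans
        ((le_div_iff₀ hZ0).1 hs2))
  rw [Nat.cast_one, div_one] at hmain
  by_contra hnone
  set T := (k : ℝ) ^ (-η') with hT
  have hTe : T = Real.exp (-η' * lk) := hrpow _
  rw [hrpow] at hL
  have hLpos : (0 : ℝ) < L := (Real.exp_pos _).trans_le hL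
  have hLT : ∀ t : ℝ, t + η' * lk ≤ (2 * θ + ε) * lk → Real.exp t ≤ (L : ℝ) * T := fun t ht => by
    refine le_trans ?_ (mul_le_mul_of_nonneg_right hL (by positivity))
    rw [hTe, ← Real.exp_add]
    exact Real.exp_le_exp.2 (by linarith only [ht])
  obtain ⟨hR', -⟩ := hed P w z' hP hw3 hwz'
  have hV' : dens P z' + dev P w z' true (Real.exp (η * lk)) ≤ A * (6 / η * V) := by
    refine (hupc P w hP hw2 z' _ hwz' (Real.one_le_exp (by linarith only [hηlk]))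
      (by rw [Real.log_exp, le_div_iff₀ hlz'0, one_mul]; exact hz'2)).trans ?_
    refine mul_le_mul (le_max_left _ _) ?_ (dens_pos hP z').le (zero_le_one.trans hA1)
    refine (hden P z' z hP (hw4.trans (Real.log_le_log hwpos (Nat.cast_le.2 hwz'))) hz'z).trans ?_
    refine (mul_le_mul_of_nonneg_left (show Real.log (z : ℝ) / Real.log (z' : ℝ) ≤ 3 / η from ?_)
      (by positivity)).trans (le_of_eq (by ring))
    rw [← hZ, div_le_div_iff₀ hlz'0 hη0]
    have h1 := mul_le_mul_of_nonneg_left hz'1 (show (0 : ℝ) ≤ 3 by norm_num)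
    have h2 := mul_le_mul_of_nonneg_right hZ2 hη0.le
    have h3 := mul_le_mul_of_nonneg_right (mul_le_of_le_one_left hlk0.le hθ1.le) hη0.le
    linarith only [h1, h2, h3, hηlk, hη, hε1, hε]
  have hM := mid_class (w := w) (x := x) (L := L) (k := k) hP
    (filter_subset (fun p : ℕ => (k : ℝ) ^ θ < p ∧ (p : ℝ) ≤ Real.exp ((1 + η') * lk)) P) hkdef.symm
    (fun p hp => by
      have h1 : (z' : ℝ) ≤ p := (Nat.floor_le (Real.exp_pos _).le).trans
        (le_trans (Real.exp_le_exp.2 (mul_le_mul_of_nonneg_right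
          (by linarith only [hη, hθ, hε1]) hlk0.le))
          (le_trans (hrpow θ).ge (mem_filter.1 hp).2.1.le))
      exact_mod_cast h1)
    (Real.one_le_exp (by linarith only [hηlk])) hV' (by positivity) hR' (by positivity)
    (range_mass hP hk0 hlkdef hlk0 hη'0
      (fun S u v h1 h2 h3 h4 => hmass S u v h1 (hU5lk.trans h2) h3 h4) hthin)
  have hB0 : (0 : ℝ) < Real.exp ((1 + η') * lk) := Real.exp_pos _
  have hk_exp : (k : ℝ) = Real.exp lk := (Real.exp_log hk0).symm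
  have hkLT : (k : ℝ) ≤ L * T :=
    hk_exp.le.trans (hLT lk (le_trans (by linarith only [hηlk]) hkD'exp))
  have hkD' : (k : ℝ) * Real.exp (η * lk) ≤ L * T := by
    rw [hk_exp, ← Real.exp_add]; exact hLT _ hkD'exp
  have hG : (k : ℝ) * ((L : ℝ) / Real.exp ((1 + η') * lk) + 1) ≤ 2 * (L * T) := by
    have e : (k : ℝ) * ((L : ℝ) / Real.exp ((1 + η') * lk)) = L * T := by
      rw [hTe, hk_exp, show (1 + η') * lk = lk + η' * lk by ring, Real.exp_add, neg_mul, Real.exp_neg]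
      field_simp
    linarith only [e, hkLT]
  have hup := range_cover (z := z) (z' := z') (x := x) (L := L)
    (M := P.filter (fun p : ℕ => (k : ℝ) ^ θ < p ∧ (p : ℝ) ≤ Real.exp ((1 + η') * lk)))
    hn hPdef hkdef.symm hz'z
    (fun p hp hzp hpB => mem_filter.2 ⟨hp, (hrpow θ).symm ▸ lt_of_lt_of_le hzr (Nat.cast_le.2 hzp), hpB⟩)
    rfl hnone hM hB0 hG
  refine range_false (A := A) (γ := γ) (η := η) (W := W) (lk := lk) (T := T) (Z := Z) hLpos hV0 hγ0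
    hη0 hW1 (le_trans (by rw [le_div_iff₀ hη0]; linarith only [hη, hε1]) h8) (Real.rpow_nonneg hk0.le _) hZ0.le
    hZlk hVlow' hksmall hR (zero_le_one.trans hD1)
    (hLT _ hDexp) ?_ hup le_rfl ?_ hA1
  · have := mul_le_mul_of_nonneg_left hdev (Nat.cast_nonneg L : (0 : ℝ) ≤ L)
    linarith only [this, hmain, hV]
  · refine add_le_add ?_ (mul_le_mul ?_ hkD' (mul_nonneg hk0.le (Real.exp_pos _).le)
      (mul_nonneg (mul_nonneg zero_le_two (zero_le_one.trans hW1)) hZ0.le))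
    · rw [mul_assoc (L : ℝ) V]
      have h1 := mul_le_mul_of_nonneg_left (mul_le_mul_of_nonneg_left hη'A zero_le_three)
        (show 0 ≤ (L : ℝ) * (A * (6 / η * V)) by positivity)
      refine h1.trans (le_of_eq ?_)
      ring
    · exact mul_le_mul_of_nonneg_left
        (hz'2.trans hηZ) (by positivity)

/-- Few primes in `(k ^ θ, k]` give the exponent `2 θ + ε`. -/
theorem thin_range (θ ε : ℝ) (hθ : 1 / 2 ≤ θ) (hθ1 : θ < 1) (hε : 0 < ε) :
    ∃ τ : ℝ, 0 < τ ∧ ∃ C : ℝ, ∀ n : ℕ, 1 < n →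
      (∑ p ∈ n.primeFactors.filter (fun p : ℕ =>
          (n.primeFactors.card : ℝ) ^ θ < p ∧ p ≤ n.primeFactors.card), (1 : ℝ) / p) ≤ τ →
      ∀ (x : ℤ) (L : ℕ), C * (n.primeFactors.card : ℝ) ^ (2 * θ + ε) ≤ L →
        ∃ m : ℤ, x ≤ m ∧ m < x + L ∧ Int.gcd m n = 1 := by
  obtain ⟨τ, hτ, K₀, hlarge⟩ := thin_range_large θ (min ε (1 / 4)) hθ hθ1 (lt_min hε (by norm_num))
    (min_le_right _ _)
  refine ⟨τ, hτ, (4 : ℝ) ^ K₀ + 1, fun n hn hthin x L hL => ?_⟩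
  have hk1 : (1 : ℝ) ≤ n.primeFactors.card := by
    exact_mod_cast Finset.card_pos.2 (Nat.nonempty_primeFactors.2 hn)
  have hp : (n.primeFactors.card : ℝ) ^ (2 * θ + min ε (1 / 4))
      ≤ (n.primeFactors.card : ℝ) ^ (2 * θ + ε) :=
    Real.rpow_le_rpow_of_exponent_le hk1 (by linarith [min_le_left ε (1 / 4 : ℝ)])
  have hp1 : 1 ≤ (n.primeFactors.card : ℝ) ^ (2 * θ + ε) := Real.one_le_rpow hk1 (by linarith)
  have h4 : (0 : ℝ) < 4 ^ K₀ := by positivity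
  rcases le_or_gt K₀ n.primeFactors.card with h | h
  · refine hlarge n (by omega) h hthin x L (le_trans ?_ hL)
    exact hp.trans (le_mul_of_one_le_left (by linarith) (by linarith))
  · refine small_bound n (by omega) x L ?_
    have h1 : (4 : ℝ) ^ n.primeFactors.card ≤ 4 ^ K₀ := pow_le_pow_right₀ (by norm_num) h.le
    have h2 : (4 : ℝ) ^ K₀ + 1 ≤ L := le_trans (le_mul_of_one_le_right (by linarith) hp1) hL
    linarith

end Vale.Agent.P013
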