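import Vale.Agent.P013.Margins

/-!
# P013: thin top range gives a bound near `k`

If the prime factors of `n` in `(exp (c log k / log log k), k]`, `k = ω n`, have reciprocal sum
below `1 - δ`, then intervals of length `C k n / φ n` hold integers prime to `n`.
The primes near `k` are sieved in pieces by `log (L / p)`.
-/

namespace Vale.Agent.P013

open Finset Filter

theorem log_floor_exp {y : ℝ} (h : 2 ≤ y) :
    y - 1 ≤ Real.log (⌊Real.exp y⌋₊ : ℝ) ∧ Real.log (⌊Real.exp y⌋₊ : ℝ) ≤ y ∧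
      0 < ⌊Real.exp y⌋₊ := by
  have h3 : (3 : ℝ) ≤ Real.exp y := by linarith [Real.add_one_le_exp y]
  have hpos : 0 < ⌊Real.exp y⌋₊ := Nat.floor_pos.2 (by linarith)
  have hf : (0 : ℝ) < (⌊Real.exp y⌋₊ : ℝ) := by exact_mod_cast hpos
  refine ⟨?_, ?_, hpos⟩
  · rw [Real.le_log_iff_exp_le hf, Real.exp_sub, div_le_iff₀ (Real.exp_pos 1)]
    have h1 := Nat.lt_floor_add_one (Real.exp y)
    have h2 : (2 : ℝ) ≤ Real.exp 1 := by linarith [Real.add_one_le_exp (1 : ℝ)]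
    nlinarith
  · exact (Real.log_le_iff_le_exp hf).2 (Nat.floor_le (Real.exp_pos _).le)

theorem sq_le_exp {c y : ℝ} (h : 6 * c ≤ y) (hy : 0 ≤ y) : c * y ^ 2 ≤ Real.exp y := by
  refine le_trans ?_ (Real.pow_div_factorial_le_exp y hy 3)
  norm_num [Nat.factorial]
  nlinarith [mul_le_mul_of_nonneg_right h (sq_nonneg y)]

/-- The multiples of a prime that survive. -/
theorem count_prime {P : Finset ℕ} (hP : ∀ p ∈ P, p.Prime) (w : ℕ) (x : ℤ) (L : ℕ) {p z : ℕ}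
    {D A R : ℝ} (hp : p ∈ P) (hzp : z ≤ p) (hD : 1 ≤ D)
    (hA : dens P z + dev P w z true D ≤ A) (hR : errProd P w z ≤ R) :
    ((sifted P x L p z).card : ℝ) ≤ (L : ℝ) / p * A + R * D := by
  refine (count_bound hP w x L z p D (hP p hp).pos hD fun q hq hqz hdvd => ?_).1.trans
    (add_le_add (mul_le_mul_of_nonneg_left hA (by positivity))
      (mul_le_mul_of_nonneg_right hR (by linarith)))
  have := (Nat.prime_dvd_prime_iff_eq (hP q hq) (hP p hp)).1 hdvd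
  omega

/-- The weighted mass near the top. -/
theorem top_mass {Bm : ℝ} (hBm0 : 0 ≤ Bm)
    (hBm : ∀ (S : Finset ℕ) (u v : ℝ), (∀ p ∈ S, p.Prime) → 0 < u → u ≤ v →
      (∀ p ∈ S, u ≤ Real.log p ∧ Real.log p ≤ v) → ∑ p ∈ S, (p : ℝ)⁻¹ ≤ (v - u + Bm) / u)
    {S : Finset ℕ} (hS : ∀ p ∈ S, p.Prime) {lL lk : ℝ} {M : ℕ} (hlk0 : 0 < lk)
    (hpos : (M : ℝ) + 1 ≤ lk / 2) (hlk : lk ≤ lL)
    (hx : ∀ p ∈ S, 0 ≤ lL - Real.log p ∧ ⌊lL - Real.log p⌋₊ ≤ M) :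
    ∑ p ∈ S, (p : ℝ)⁻¹ * ((⌊lL - Real.log p⌋₊ : ℕ) : ℝ)⁻¹
      ≤ 2 * (1 + Bm) / lk * (1 + Real.log M) := by
  rw [← sum_fiberwise_of_maps_to (t := range (M + 1)) (g := fun p : ℕ => ⌊lL - Real.log p⌋₊)
    fun p hp => Finset.mem_range.2 (Nat.lt_succ_of_le (hx p hp).2)]
  have hcell : ∀ i ∈ range (M + 1),
      ∑ p ∈ S.filter (fun p : ℕ => ⌊lL - Real.log p⌋₊ = i),
        (p : ℝ)⁻¹ * ((⌊lL - Real.log p⌋₊ : ℕ) : ℝ)⁻¹ ≤ 2 * (1 + Bm) / lk * (i : ℝ)⁻¹ := by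
    intro i hi
    have hiM : (i : ℝ) ≤ M := by exact_mod_cast Nat.lt_succ_iff.1 (Finset.mem_range.1 hi)
    rw [sum_congr rfl fun p hp => by rw [(mem_filter.1 hp).2], ← sum_mul]
    refine mul_le_mul_of_nonneg_right ?_ (by positivity)
    have hu : lk / 2 ≤ lL - i - 1 := by linarith
    refine (hBm _ (lL - i - 1) (lL - i) (fun p hp => hS p (mem_filter.1 hp).1) (by linarith)
      (by linarith) fun p hp => ?_).trans ?_
    · obtain ⟨hpS, hpi⟩ := mem_filter.1 hp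
      have h1 := Nat.floor_le (hx p hpS).1
      have h2 := Nat.lt_floor_add_one (lL - Real.log p)
      rw [hpi] at h1 h2
      constructor <;> linarith
    · rw [show lL - (i : ℝ) - (lL - i - 1) + Bm = 1 + Bm by ring,
        show 2 * (1 + Bm) / lk = (1 + Bm) / (lk / 2) by field_simp]
      exact div_le_div_of_nonneg_left (by linarith) (by linarith) hu
  refine (sum_le_sum hcell).trans ?_
  rw [← mul_sum]
  refine mul_le_mul_of_nonneg_left (le_trans (le_of_eq ?_) (harmonic_le_one_add_log M)) (by positivity)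
  rw [sum_range_succ', harmonic]
  push_cast
  simp

theorem eventually_scales {c Z₀ : ℝ} (hc : 0 < c) (hZ₀ : 0 < Z₀) :
    ∀ᶠ k : ℕ in atTop, 1 ≤ Real.log (Real.log k) ∧ 4 ≤ Real.log k ∧
      Z₀ * Real.log (Real.log k) ≤ c * Real.log k := by
  have hl : Tendsto (fun k : ℕ => Real.log (k : ℝ)) atTop atTop :=
    Real.tendsto_log_atTop.comp tendsto_natCast_atTop_atTop
  have h := hl.eventually (Real.isLittleO_log_id_atTop.bound (show 0 < c / Z₀ by positivity))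
  filter_upwards [h, (Real.tendsto_log_atTop.comp hl).eventually_ge_atTop 1,
    hl.eventually_ge_atTop 4] with k hk h1 h4
  refine ⟨h1, h4, ?_⟩
  simp only [id, Real.norm_eq_abs, Function.comp_apply] at hk h1
  rw [abs_of_nonneg (by linarith), abs_of_nonneg (by linarith), div_mul_eq_mul_div,
    le_div_iff₀ hZ₀] at hk
  linarith

/-- The density of all prime factors is at most that below `z`. -/
theorem totient_le_dens (n z : ℕ) :
    (Nat.totient n : ℝ) ≤ n * dens n.primeFactors z := by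
  have h := congrArg (fun q : ℚ => (q : ℝ)) (Nat.totient_eq_mul_prod_factors n)
  push_cast at h
  rw [h]
  refine mul_le_mul_of_nonneg_left ?_ (Nat.cast_nonneg n)
  exact prod_le_prod_of_subset_of_le_one (filter_subset _ _)
    (fun p hp => sub_nonneg.2 ((inv_prime_mem (Nat.prime_of_mem_primeFactors hp)).2.trans (by norm_num)))
    fun p hp _ => sub_le_self _ (inv_prime_mem (Nat.prime_of_mem_primeFactors hp)).1

/-- The primes with a long range of multiples. -/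
theorem main_class {P M : Finset ℕ} {w z : ℕ} {x : ℤ} {L : ℕ} {δ s₁ V Z W : ℝ}
    (hP : ∀ p ∈ P, p.Prime) (hMP : M ⊆ P) (hzp : ∀ p ∈ M, z ≤ p) (hV : V = dens P z)
    (hδ0 : 0 < δ) (hs₁ : 3 ≤ s₁) (hZ : 0 < Z) (hW : 0 < W)
    (hdev : dev P w z true (Real.exp (s₁ * Z)) ≤ V * (δ / 10))
    (hR : errProd P w z ≤ 2 * W * Z) (hVlow : 1 ≤ 2 * W * Z * V)
    (hbig : 10 / δ * (4 * W ^ 2) * Z ^ 2 ≤ Real.exp Z)
    (hlong : ∀ p ∈ M, Real.exp (4 * s₁ * Z) ≤ (L : ℝ) / p)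
    (hmass : ∑ p ∈ M, (p : ℝ)⁻¹ ≤ 1 - δ) :
    ∑ p ∈ M, ((sifted P x L p z).card : ℝ) ≤ (L : ℝ) * V * (1 + δ / 5) * (1 - δ) := by
  have hV0 : 0 < V := hV ▸ dens_pos hP z
  have hone : ∀ p ∈ M, ((sifted P x L p z).card : ℝ)
      ≤ (L : ℝ) * V * (1 + δ / 5) * (p : ℝ)⁻¹ := fun p hp => by
    refine (count_prime hP w x L (hMP hp) (hzp p hp) (D := Real.exp (s₁ * Z))
      (Real.one_le_exp (by positivity)) (A := V * (1 + δ / 10)) (by linarith only [hV, hdev]) hR).trans ?_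
    have hrem : 2 * W * Z * Real.exp (s₁ * Z) ≤ (L : ℝ) / p * (V * (δ / 10)) := by
      refine le_trans ?_ (mul_le_mul_of_nonneg_right (hlong p hp) (by positivity))
      rw [show 4 * s₁ * Z = s₁ * Z + 3 * s₁ * Z by ring, Real.exp_add,
        mul_comm (2 * W * Z) (Real.exp (s₁ * Z)), mul_assoc (Real.exp (s₁ * Z))]
      refine mul_le_mul_of_nonneg_left ?_ (Real.exp_pos _).le
      have h3 : Real.exp Z ≤ Real.exp (3 * s₁ * Z) :=
        Real.exp_le_exp.2 (le_mul_of_one_le_left hZ.le (by linarith only [hs₁]))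
      have h4 : (2 * W * Z) ^ 2 * (10 / δ) ≤ Real.exp (3 * s₁ * Z) :=
        le_trans (le_of_eq (by ring)) (hbig.trans h3)
      have h5 := mul_le_mul_of_nonneg_right h4 (show 0 ≤ V * (δ / 10) by positivity)
      have e : (2 * W * Z) ^ 2 * (10 / δ) * (V * (δ / 10)) = 2 * W * Z * (2 * W * Z * V) := by
        field_simp
      rw [e] at h5
      exact le_trans (le_mul_of_one_le_right (by positivity) hVlow) h5
    have e : (L : ℝ) * V * (1 + δ / 5) * (p : ℝ)⁻¹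
        = (L : ℝ) / p * (V * (1 + δ / 10)) + (L : ℝ) / p * (V * (δ / 10)) := by ring
    rw [e]
    exact add_le_add le_rfl hrem
  refine (sum_le_sum hone).trans ?_
  rw [← mul_sum]
  exact mul_le_mul_of_nonneg_left hmass (by positivity)

/-- One prime near the top, sieved to a limit fitting `log (L / p)`. -/
theorem near_one {P : Finset ℕ} {w z zp p i : ℕ} {x : ℤ} {L : ℕ} {A s₁ Z V W : ℝ}
    (hP : ∀ p ∈ P, p.Prime) (hp : p ∈ P) (hzp : zp = ⌊Real.exp ((i : ℝ) / (8 * s₁))⌋₊)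
    (hle : zp ≤ z) (hzlep : z ≤ p) (hV : V = dens P z) (hZ : Z = Real.log z) (hZ0 : 0 < Z)
    (hs₁ : 3 ≤ s₁) (hA : 0 ≤ A) (hW : 1 ≤ W) (hwpos : (0 : ℝ) < w) (hlw : 1 ≤ Real.log w)
    (hi1 : 16 * s₁ * (Real.log w + 2) ≤ i) (hi2 : 128 * W ≤ (i : ℝ))
    (hexp : Real.exp (i : ℝ) ≤ (L : ℝ) / p)
    (hupc : ∀ (zz : ℕ) (D : ℝ), w ≤ zz → 1 ≤ D → 1 ≤ Real.log D / Real.log zz →
      dens P zz + dev P w zz true D ≤ A * dens P zz)
    (hed : ∀ zz : ℕ, w ≤ zz →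
      errProd P w zz ≤ 2 * W * Real.log zz ∧ 1 ≤ 2 * W * Real.log zz * dens P zz)
    (hden : ∀ zz : ℕ, w ≤ zz → zz ≤ z →
      dens P zz ≤ (1 + 1) * dens P z * (Real.log z / Real.log zz)) :
    ((sifted P x L p zp).card : ℝ)
      ≤ (L : ℝ) * V * ((A + 1) * (32 * s₁) * Z) * ((p : ℝ)⁻¹ * (i : ℝ)⁻¹) := by
  have hipos : (0 : ℝ) < i := by linarith only [hi2, hW]
  have hy : Real.log w + 2 ≤ (i : ℝ) / (16 * s₁) := by
    rw [le_div_iff₀ (by positivity)]; linarith only [hi1]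
  have e2 : (i : ℝ) / (8 * s₁) = 2 * ((i : ℝ) / (16 * s₁)) := by field_simp; ring
  obtain ⟨hl1, hl2, hl0⟩ := log_floor_exp (y := (i : ℝ) / (8 * s₁)) (by linarith only [hy, e2, hlw])
  rw [← hzp] at hl0 hl1 hl2
  have hlz : (i : ℝ) / (16 * s₁) ≤ Real.log (zp : ℝ) := by linarith only [hy, e2, hlw, hl1]
  have hlz0 : 0 < Real.log (zp : ℝ) := lt_of_lt_of_le (by linarith only [hy, hlw]) hlz
  have hwzi : w ≤ zp := by
    exact Nat.cast_le.1 ((Real.log_le_log_iff hwpos (Nat.cast_pos.2 hl0)).1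
      (by linarith only [hy, hlz]))
  have hD : 1 ≤ Real.exp ((i : ℝ) / 2) := Real.one_le_exp (by positivity)
  have hzi2 : Real.log (zp : ℝ) ≤ (i : ℝ) / 2 := hl2.trans
    (div_le_div_of_nonneg_left hipos.le two_pos (by linarith only [hs₁]))
  have hsge : 1 ≤ Real.log (Real.exp ((i : ℝ) / 2)) / Real.log (zp : ℝ) := by
    rw [Real.log_exp, le_div_iff₀ hlz0, one_mul]; exact hzi2
  obtain ⟨hR', hVlow'⟩ := hed zp hwzi
  set Vi := dens P zp with hVidef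
  have hVi0 : 0 < Vi := dens_pos hP _
  refine (count_prime hP w x L hp (hle.trans hzlep) hD (A := A * Vi)
    (hupc zp _ hwzi hD hsge) hR').trans ?_
  have hrem : 2 * W * Real.log (zp : ℝ) * Real.exp ((i : ℝ) / 2) ≤ (L : ℝ) / p * Vi := by
    refine le_trans ?_ (mul_le_mul_of_nonneg_right hexp hVi0.le)
    rw [show Real.exp (i : ℝ) = Real.exp ((i : ℝ) / 2) * Real.exp ((i : ℝ) / 2) by
      rw [← Real.exp_add]; ring_nf, mul_comm (2 * W * Real.log (zp : ℝ)) (Real.exp ((i : ℝ) / 2)),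
      mul_assoc (Real.exp ((i : ℝ) / 2))]
    refine mul_le_mul_of_nonneg_left ?_ (Real.exp_pos _).le
    have h2 : (2 * W * Real.log (zp : ℝ)) ^ 2 ≤ Real.exp ((i : ℝ) / 2) := by
      have h3 : ((i : ℝ) / 8) ^ 4 ≤ Real.exp ((i : ℝ) / 2) := by
        rw [show (i : ℝ) / 2 = ((4 : ℕ) : ℝ) * ((i : ℝ) / 8) by push_cast; ring, Real.exp_nat_mul]
        exact pow_le_pow_left₀ (by positivity) (by linarith [Real.add_one_le_exp ((i : ℝ) / 8)]) 4
      refine le_trans ?_ h3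
      have h4 : 2 * W * Real.log (zp : ℝ) ≤ 2 * W * i :=
        mul_le_mul_of_nonneg_left (by linarith only [hzi2, hipos]) (by linarith only [hW])
      have h5 : 2 * W * (i : ℝ) ≤ ((i : ℝ) / 8) ^ 2 := by nlinarith only [hi2, hipos]
      calc (2 * W * Real.log (zp : ℝ)) ^ 2 ≤ (((i : ℝ) / 8) ^ 2) ^ 2 :=
          pow_le_pow_left₀ (by positivity) (h4.trans h5) 2
        _ = _ := by ring
    have h6 := mul_le_mul_of_nonneg_right h2 hVi0.le
    refine le_trans (le_trans (le_mul_of_one_le_right (by positivity) hVlow') (le_of_eq ?_)) h6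
    ring
  have hVi : Vi ≤ V * (32 * s₁ * Z / i) := by
    refine (hden zp hwzi hle).trans ?_
    have h1 : Real.log (z : ℝ) / Real.log (zp : ℝ) ≤ Z / ((i : ℝ) / (16 * s₁)) :=
      hZ ▸ div_le_div_of_nonneg_left (hZ ▸ hZ0.le) (by positivity) hlz
    refine (mul_le_mul_of_nonneg_left h1 (by have := dens_pos hP z; positivity)).trans (le_of_eq ?_)
    rw [← hV]
    field_simp
    ring
  have h7 := mul_le_mul_of_nonneg_left hVi (show 0 ≤ (L : ℝ) / p * (A + 1) by positivity)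
  have e3 : (L : ℝ) / p * (A + 1) * (V * (32 * s₁ * Z / i))
      = (L : ℝ) * V * ((A + 1) * (32 * s₁) * Z) * ((p : ℝ)⁻¹ * (i : ℝ)⁻¹) := by field_simp
  rw [e3] at h7
  linarith only [h7, hrem]

/-- All primes near the top. -/
theorem near_class {Bm : ℝ} (hBm0 : 0 ≤ Bm)
    (hBm : ∀ (S : Finset ℕ) (u v : ℝ), (∀ p ∈ S, p.Prime) → 0 < u → u ≤ v →
      (∀ p ∈ S, u ≤ Real.log p ∧ Real.log p ≤ v) → ∑ p ∈ S, (p : ℝ)⁻¹ ≤ (v - u + Bm) / u)
    {N : Finset ℕ} (hN : ∀ p ∈ N, p.Prime) {f : ℕ → ℝ} {lL lk ℓ X₀ Z Q G c δ : ℝ}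
    (hlk : 4 ≤ lk) (hℓ : ℓ = Real.log lk) (hℓ1 : 1 ≤ ℓ) (hX₀ : 0 ≤ X₀) (hX : X₀ + 1 ≤ lk / 2)
    (hL : lk ≤ lL) (hG : 0 ≤ G) (hQ : 0 ≤ Q) (hZ0 : 0 ≤ Z) (hZ : Z * ℓ ≤ 2 * (c * lk))
    (hcQ : c * (80 * Q * (1 + Bm)) ≤ δ)
    (hrange : ∀ p ∈ N, 0 ≤ lL - Real.log p ∧ lL - Real.log p ≤ X₀)
    (hone : ∀ p ∈ N, f p ≤ G * (Q * Z) * ((p : ℝ)⁻¹ * ((⌊lL - Real.log p⌋₊ : ℕ) : ℝ)⁻¹)) :
    ∑ p ∈ N, f p ≤ G * (δ / 10) := by
  refine (sum_le_sum hone).trans ?_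
  rw [← mul_sum]
  have hfl := Nat.floor_le hX₀
  have hm := top_mass hBm0 hBm (S := N) (M := ⌊X₀⌋₊) hN (by linarith : 0 < lk) (by linarith) hL
    fun p hp => ⟨(hrange p hp).1, Nat.floor_le_floor (hrange p hp).2⟩
  have hlogM : Real.log ((⌊X₀⌋₊ : ℕ) : ℝ) ≤ ℓ := by
    rcases Nat.eq_zero_or_pos ⌊X₀⌋₊ with h | h
    · rw [h, Nat.cast_zero, Real.log_zero]; linarith
    · rw [hℓ]; exact Real.log_le_log (by exact_mod_cast h) (by linarith)
  refine (mul_le_mul_of_nonneg_left (hm.trans (mul_le_mul_of_nonneg_left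
    (show 1 + Real.log ((⌊X₀⌋₊ : ℕ) : ℝ) ≤ 2 * ℓ by linarith) (by positivity)))
    (by positivity)).trans ?_
  rw [mul_assoc G]
  refine mul_le_mul_of_nonneg_left ?_ hG
  have h8 := mul_le_mul_of_nonneg_left hZ (show 0 ≤ 4 * Q * (1 + Bm) by positivity)
  have h9 := mul_le_mul_of_nonneg_right hcQ (show (0 : ℝ) ≤ lk by linarith)
  have e4 : Q * Z * (2 * (1 + Bm) / lk * (2 * ℓ)) = 4 * Q * (1 + Bm) * (Z * ℓ) / lk := by
    field_simp
    ring
  rw [e4, div_le_iff₀ (by linarith)]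
  linarith

/-- The primes beyond the reach of the interval. -/
theorem far_class {P F : Finset ℕ} {x : ℤ} {L k : ℕ} {E G : ℝ} (hP : ∀ p ∈ P, p.Prime)
    (hFP : F ⊆ P) (hk : P.card = k) (hE : 0 ≤ E) (hshort : ∀ p ∈ F, (L : ℝ) / p ≤ E)
    (hG : k * (E + 1) ≤ G) : ∑ p ∈ F, ((sifted P x L p 0).card : ℝ) ≤ G := by
  have hone : ∀ p ∈ F, ((sifted P x L p 0).card : ℝ) ≤ E + 1 := fun p hp => by
    have h := abs_le.1 (count_exact hP x L 0 p (hP p (hFP hp)).pos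
      (fun q _ h => absurd h (Nat.not_lt_zero q)))
    simp only [dens, Nat.not_lt_zero, filter_false, prod_empty, mul_one, card_empty, pow_zero] at h
    linarith [hshort p hp]
  refine (sum_le_card_nsmul _ _ _ hone).trans (le_trans ?_ hG)
  rw [nsmul_eq_mul]
  exact mul_le_mul_of_nonneg_right (by exact_mod_cast hk ▸ card_le_card hFP) (by linarith)

/-- The survivors below the sifting limit. -/
theorem main_lower {P : Finset ℕ} {w z : ℕ} {x : ℤ} {L : ℕ} {δ s₀ V Z W : ℝ}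
    (hP : ∀ p ∈ P, p.Prime) (hV : V = dens P z) (hz0 : (0 : ℝ) < z) (hZ : Z = Real.log z)
    (hZ0 : 0 ≤ Z) (hs₀ : 1 ≤ s₀)
    (hdev : dev P w z false (Real.exp (s₀ * Z)) ≤ V * (δ / 10))
    (hR : errProd P w z ≤ 2 * W * Z)
    (hsmall : 2 * W * Z * Real.exp (s₀ * Z) ≤ (L : ℝ) * V * (δ / 10)) :
    (L : ℝ) * V * (1 - δ / 5) ≤ ((sifted P x L 1 z).card : ℝ) := by
  have hmain := (count_bound hP w x L z 1 (Real.exp (s₀ * Z)) one_pos
    (Real.one_le_exp (by positivity))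
    fun p hp _ h => (hP p hp).one_lt.ne' (Nat.dvd_one.1 h)).2 fun p _ _ hpz => by
      refine (show (p : ℝ) ≤ z by exact_mod_cast hpz.le).trans ?_
      rw [← Real.exp_log hz0, ← hZ]
      exact Real.exp_le_exp.2 (le_mul_of_one_le_left hZ0 hs₀)
  rw [Nat.cast_one, div_one, ← hV] at hmain
  have h7 := mul_le_mul_of_nonneg_left hdev (Nat.cast_nonneg L : (0 : ℝ) ≤ L)
  have h8 := (mul_le_mul_of_nonneg_right hR (Real.exp_pos (s₀ * Z)).le).trans hsmall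
  linarith

theorem big_scale {lw a b Z : ℝ} (hlw : 1 ≤ lw) (ha : 0 ≤ a) (hb : 0 ≤ b)
    (h : lw + 6 * a + 6 * b + 2 ≤ Z) : a * Z ^ 2 ≤ Real.exp Z ∧ b * Z ^ 2 ≤ Real.exp Z :=
  ⟨sq_le_exp (by linarith) (by linarith), sq_le_exp (by linarith) (by linarith)⟩

theorem log_length {k L : ℕ} {C V W Z X₀ lL lk : ℝ} (hk1 : (1 : ℝ) ≤ k) (hV0 : 0 < V)
    (hVlow : 1 ≤ 2 * W * Z * V) (hC : 0 ≤ C) (hW : 0 ≤ W) (hZ : 1 ≤ Z)
    (hbig : (4 * C * W + 1) * Z ^ 2 ≤ Real.exp Z) (hexp : Real.exp Z ≤ Real.exp X₀)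
    (hL0 : (0 : ℝ) < L) (hL : L = ⌈C * k / V⌉₊)
    (hlL : lL = Real.log L) (hlk : lk = Real.log k) : lL ≤ lk + X₀ := by
  have hk0 : (0 : ℝ) < k := by linarith
  rw [hlL, hlk, Real.log_le_iff_le_exp hL0, Real.exp_add, Real.exp_log hk0]
  refine le_trans ?_ (mul_le_mul_of_nonneg_left hexp hk0.le)
  rw [hL]
  refine (Nat.ceil_lt_add_one (by positivity)).le.trans ?_
  have h1 : C * k / V ≤ C * k * (2 * W * Z) := by
    rw [div_le_iff₀ hV0, mul_assoc]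
    exact le_mul_of_one_le_right (by positivity) hVlow
  have hZZ : Z ≤ Z ^ 2 := by nlinarith
  have h3 : 1 ≤ (k : ℝ) * Z ^ 2 := one_le_mul_of_one_le_of_one_le hk1 (hZ.trans hZZ)
  have h4 := mul_le_mul_of_nonneg_left hZZ (show 0 ≤ C * k * W by positivity)
  have h5 := mul_le_mul_of_nonneg_left hbig hk0.le
  have h6 : 0 ≤ C * k * W * Z ^ 2 := by positivity
  linarith

theorem rem_far {k δ W E C G : ℝ} (hk : 0 ≤ k) (hδ : 0 ≤ δ) (hW : 1 ≤ W) (hG : C * k ≤ G)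
    (hC : 10 * (E + 1) + 20 * W ≤ C * δ) : k * (E + 1) ≤ G * (δ / 10) := by
  have h1 := mul_le_mul_of_nonneg_right hG (show 0 ≤ δ / 10 by positivity)
  have h2 := mul_le_mul_of_nonneg_left hC hk
  have h3 : 0 ≤ k * W := by positivity
  linarith

theorem rem_small {k δ W E C G Z s₀ lk : ℝ} (hk : 0 < k) (hδ : 0 ≤ δ) (hW : 1 ≤ W) (hE : 0 ≤ E)
    (hG : C * k ≤ G) (hC : 10 * (E + 1) + 20 * W ≤ C * δ) (hs : (s₀ + 1) * Z ≤ lk)
    (hlk : lk = Real.log k) : 2 * W * Z * Real.exp (s₀ * Z) ≤ G * (δ / 10) := by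
  have h0 : Z * Real.exp (s₀ * Z) ≤ k := by
    rw [← Real.exp_log hk, ← hlk]
    refine le_trans ?_ (Real.exp_le_exp.2 (show Z + s₀ * Z ≤ lk by linarith))
    rw [Real.exp_add]
    exact mul_le_mul_of_nonneg_right (by linarith [Real.add_one_le_exp Z]) (Real.exp_pos _).le
  have h1 := mul_le_mul_of_nonneg_right hG (show 0 ≤ δ / 10 by positivity)
  have h2 := mul_le_mul_of_nonneg_left hC hk.le
  have h3 := mul_le_mul_of_nonneg_left h0 (show 0 ≤ 2 * W by positivity)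
  have h4 : 0 ≤ k * E := by positivity
  linarith

theorem sift_limit {Y : ℝ} (hY : 2 ≤ Y) :
    Real.exp Y < ((⌊Real.exp Y⌋₊ + 1 : ℕ) : ℝ) ∧ Y ≤ Real.log ((⌊Real.exp Y⌋₊ + 1 : ℕ) : ℝ) ∧
      Real.log ((⌊Real.exp Y⌋₊ + 1 : ℕ) : ℝ) ≤ Y + 1 := by
  have hzr : Real.exp Y < ((⌊Real.exp Y⌋₊ + 1 : ℕ) : ℝ) := by
    push_cast; exact Nat.lt_floor_add_one _
  refine ⟨hzr, ?_, ?_⟩
  · rw [Real.le_log_iff_exp_le (by positivity)]; exact hzr.le
  · rw [Real.log_le_iff_le_exp (by positivity), Real.exp_add]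
    push_cast
    have h1 := Nat.floor_le (Real.exp_pos Y).le
    have h2 : (2 : ℝ) ≤ Real.exp 1 := by linarith [Real.add_one_le_exp (1 : ℝ)]
    nlinarith [Real.add_one_le_exp Y]

/-- The count, given the constants and the scales. -/
theorem thin_top_core {n w z K : ℕ} {δ c C A s₀ s₁ W Q Bm Y lk ℓ Z X₀ V : ℝ} {P : Finset ℕ}
    {k : ℕ} (hn : n ≠ 0) (hPdef : P = n.primeFactors) (hkdef : k = P.card) (hδ0 : 0 < δ)
    (hlkdef : lk = Real.log k) (hℓdef : ℓ = Real.log lk)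
    (hk1 : (1 : ℝ) ≤ k) (hlk4 : 4 ≤ lk) (hℓ1 : 1 ≤ ℓ) (hs₀40 : 40 ≤ s₀) (hs₁3 : 3 ≤ s₁)
    (hA1 : 1 ≤ A) (hW1 : 1 ≤ W) (hC1 : 1 ≤ C) (hBm0 : 0 ≤ Bm) (hQ : Q = (A + 1) * (32 * s₁))
    (hwpos : (0 : ℝ) < w) (hlw1 : 1 ≤ Real.log w)
    (hKs : 16 * s₁ * (Real.log w + 2) ≤ K) (hKW : 128 * W ≤ (K : ℝ))
    (hcQ : c * (80 * Q * (1 + Bm)) ≤ δ) (hCδ : 10 * (Real.exp K + 1) + 20 * W ≤ C * δ)
    (hz0 : 0 < z) (hzr : Real.exp Y < (z : ℝ)) (hZ : Z = Real.log z) (hZ2' : 2 ≤ Z)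
    (hs₀Z : (s₀ + 1) * Z ≤ lk) (hX₀ : X₀ = 4 * s₁ * Z) (hX₀lk : X₀ + 1 ≤ lk / 2)
    (hZℓ : Z * ℓ ≤ 2 * (c * lk))
    (hbig1 : 10 / δ * (4 * W ^ 2) * Z ^ 2 ≤ Real.exp Z)
    (hbig2 : (4 * C * W + 1) * Z ^ 2 ≤ Real.exp Z)
    (hV : V = dens P z) (hR : errProd P w z ≤ 2 * W * Z) (hVlow : 1 ≤ 2 * W * Z * V)
    (hdevu : dev P w z true (Real.exp (s₁ * Z)) ≤ V * (δ / 10))
    (hdevl : dev P w z false (Real.exp (s₀ * Z)) ≤ V * (δ / 10))
    (hBm : ∀ (S : Finset ℕ) (u v : ℝ), (∀ p ∈ S, p.Prime) → 0 < u → u ≤ v →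
      (∀ p ∈ S, u ≤ Real.log p ∧ Real.log p ≤ v) → ∑ p ∈ S, (p : ℝ)⁻¹ ≤ (v - u + Bm) / u)
    (hupc : ∀ (zz : ℕ) (D : ℝ), w ≤ zz → 1 ≤ D → 1 ≤ Real.log D / Real.log zz →
      dens P zz + dev P w zz true D ≤ A * dens P zz)
    (hed : ∀ zz : ℕ, w ≤ zz →
      errProd P w zz ≤ 2 * W * Real.log zz ∧ 1 ≤ 2 * W * Real.log zz * dens P zz)
    (hden : ∀ zz : ℕ, w ≤ zz → zz ≤ z →
      dens P zz ≤ (1 + 1) * dens P z * (Real.log z / Real.log zz))
    (hmass : (∑ p ∈ P.filter (fun p : ℕ => Real.exp Y < (p : ℝ) ∧ p ≤ k), (1 : ℝ) / p) ≤ 1 - δ)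
    (x : ℤ) (L : ℕ)
    (hL : 2 * W * C * k * min ((n : ℝ) / Nat.totient n) (Real.log (2 * k)) ≤ L) :
    ∃ m : ℤ, x ≤ m ∧ m < x + L ∧ Int.gcd m n = 1 := by
  classical
  have hk0 : (0 : ℝ) < k := lt_of_lt_of_le one_pos hk1
  have hP : ∀ p ∈ P, p.Prime := fun p hp => Nat.prime_of_mem_primeFactors (hPdef ▸ hp)
  have hZpos : 0 < Z := lt_of_lt_of_le two_pos hZ2'
  have hQ0 : 0 < Q := hQ ▸ by positivity
  have hV0 : 0 < V := hV ▸ dens_pos hP z
  have hV1 : V ≤ 1 := hV ▸ dens_le_one hP z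
  -- the shortest interval needed
  set L₀ := ⌈C * k / V⌉₊ with hL₀
  have hVinv : 1 / V ≤ 2 * W * min ((n : ℝ) / Nat.totient n) (Real.log (2 * k)) := by
    have hφ : (0 : ℝ) < Nat.totient n := by exact_mod_cast Nat.totient_pos.2 (Nat.pos_of_ne_zero hn)
    have h1 : 1 / V ≤ (n : ℝ) / Nat.totient n := by
      rw [div_le_div_iff₀ hV0 hφ, one_mul]; exact (hV.symm ▸ hPdef.symm ▸ totient_le_dens n z)
    have h2 : 1 / V ≤ 2 * W * Real.log (2 * k) := by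
      have hZlk : Z ≤ Real.log (2 * k) := by
        have h3 : Z ≤ lk := le_trans (le_mul_of_one_le_left hZpos.le (by linarith only [hs₀40])) hs₀Z
        exact h3.trans (hlkdef ▸ Real.log_le_log hk0 (by linarith only [hk0]))
      rw [div_le_iff₀ hV0]
      exact hVlow.trans (mul_le_mul_of_nonneg_right
        (mul_le_mul_of_nonneg_left hZlk (by positivity)) hV0.le)
    rcases le_total ((n : ℝ) / Nat.totient n) (Real.log (2 * k)) with h | h
    · rw [min_eq_left h]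
      exact h1.trans (le_mul_of_one_le_left (by positivity) (by linarith only [hW1]))
    · rw [min_eq_right h]; exact h2
  have hL₀L : L₀ ≤ L := by
    refine Nat.ceil_le.2 (le_trans ?_ hL)
    rw [div_eq_mul_one_div, show 2 * W * C * (k : ℝ) * min ((n : ℝ) / Nat.totient n) (Real.log (2 * k))
      = C * k * (2 * W * min ((n : ℝ) / Nat.totient n) (Real.log (2 * k))) by ring]
    exact mul_le_mul_of_nonneg_left hVinv (by positivity)
  suffices ∃ m : ℤ, x ≤ m ∧ m < x + L₀ ∧ Int.gcd m n = 1 by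
    obtain ⟨m, h1, h2, h3⟩ := this
    exact ⟨m, h1, lt_of_lt_of_le h2 (add_le_add le_rfl (Int.ofNat_le.2 hL₀L)), h3⟩
  by_contra hnone
  have hCkV : C * k ≤ (L₀ : ℝ) * V := (div_le_iff₀ hV0).1 (Nat.le_ceil _)
  have hkL₀ : (k : ℝ) ≤ L₀ :=
    ((le_mul_of_one_le_left hk0.le hC1).trans hCkV).trans (mul_le_of_le_one_right (Nat.cast_nonneg _) hV1)
  have hL₀pos : (0 : ℝ) < L₀ := lt_of_lt_of_le hk0 hkL₀
  set lL := Real.log (L₀ : ℝ) with hlL
  have hlklL : lk ≤ lL := hlkdef ▸ Real.log_le_log hk0 hkL₀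
  have hexpX : Real.exp Z ≤ Real.exp X₀ := Real.exp_le_exp.2 (by
    rw [hX₀]; exact le_mul_of_one_le_left hZpos.le (by linarith only [hs₁3]))
  have hlLX : lL ≤ lk + X₀ := log_length hk1 hV0 hVlow (zero_le_one.trans hC1)
      (zero_le_one.trans hW1) (by linarith only [hZ2']) hbig2 hexpX hL₀pos rfl hlL hlkdef
  have hfar : (k : ℝ) * (Real.exp K + 1) ≤ (L₀ : ℝ) * V * (δ / 10) :=
    rem_far hk0.le hδ0.le hW1 hCkV hCδ
  have hsmall : 2 * W * Z * Real.exp (s₀ * Z) ≤ (L₀ : ℝ) * V * (δ / 10) :=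
    rem_small hk0 hδ0.le hW1 (Real.exp_pos (K : ℝ)).le hCkV hCδ hs₀Z hlkdef
  -- the classes
  set Big := P.filter (fun p : ℕ => z ≤ p) with hBig
  set M := Big.filter (fun p : ℕ => X₀ ≤ lL - Real.log p)
  set R := Big.filter (fun p : ℕ => ¬ X₀ ≤ lL - Real.log p)
  set N := R.filter (fun p : ℕ => (K : ℝ) ≤ lL - Real.log p)
  set F := R.filter (fun p : ℕ => ¬ (K : ℝ) ≤ lL - Real.log p)
  set zi : ℕ → ℕ := fun p => ⌊Real.exp (((⌊lL - Real.log p⌋₊ : ℕ) : ℝ) / (8 * s₁))⌋₊ with hzi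
  have hdiv : ∀ p ∈ Big, (L₀ : ℝ) / p = Real.exp (lL - Real.log p) := fun p hp => by
    have : (0 : ℝ) < p := by exact_mod_cast (hP p (mem_filter.1 hp).1).pos
    rw [Real.exp_sub, Real.exp_log hL₀pos, Real.exp_log this]
  have hziz : ∀ p ∈ N, zi p ≤ z := fun p hp => by
    obtain ⟨hpR, hpK⟩ := mem_filter.1 hp
    obtain ⟨-, hpX⟩ := mem_filter.1 hpR
    have h1 : ((⌊lL - Real.log p⌋₊ : ℕ) : ℝ) ≤ X₀ :=
      (Nat.floor_le ((Nat.cast_nonneg K).trans hpK)).trans (not_le.1 hpX).le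
    refine Nat.floor_le_of_le ((Real.exp_le_exp.2 ?_).trans (Real.exp_log (by exact_mod_cast hz0)).le)
    rw [← hZ, div_le_iff₀ (by positivity)]
    rw [hX₀] at h1
    linarith only [h1, mul_nonneg hZpos.le (show (0 : ℝ) ≤ s₁ by linarith only [hs₁3])]
  -- upper bound for the main class
  have hMcount : ∑ p ∈ M, ((sifted P x L₀ p z).card : ℝ)
      ≤ (L₀ : ℝ) * V * (1 + δ / 5) * (1 - δ) := by
    refine main_class hP (fun p hp => (mem_filter.1 (mem_filter.1 hp).1).1)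
      (fun p hp => (mem_filter.1 (mem_filter.1 hp).1).2) hV hδ0 hs₁3 hZpos
      (lt_of_lt_of_le one_pos hW1) hdevu hR hVlow hbig1
      (fun p hp => ?_) (le_trans ?_ hmass)
    · rw [hdiv p (mem_filter.1 hp).1, ← hX₀]; exact Real.exp_le_exp.2 (mem_filter.1 hp).2
    simp only [one_div]
    refine sum_le_sum_of_subset_of_nonneg (fun p hp => ?_) fun p _ _ => by positivity
    obtain ⟨hpB, hpX⟩ := mem_filter.1 hp
    obtain ⟨hpP, hzp⟩ := mem_filter.1 hpB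
    refine mem_filter.2 ⟨hpP, lt_of_lt_of_le hzr (by exact_mod_cast hzp), ?_⟩
    have : Real.log p ≤ lk := by linarith only [hpX, hlLX]
    exact_mod_cast (Real.log_le_log_iff (Nat.cast_pos.2 (hP p hpP).pos) hk0).1 (hlkdef ▸ this)
  -- upper bound near the top
  have hNcount : ∑ p ∈ N, ((sifted P x L₀ p (zi p)).card : ℝ) ≤ (L₀ : ℝ) * V * (δ / 10) := by
    refine near_class (Q := Q) (c := c) (X₀ := X₀) (Z := Z) hBm0 hBm
      (fun p hp => hP p (mem_filter.1 (mem_filter.1 (mem_filter.1 hp).1).1).1) hlk4 hℓdef hℓ1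
      (by rw [hX₀]; positivity) hX₀lk hlklL (by positivity) hQ0.le hZpos.le hZℓ hcQ (fun p hp => ?_)
      fun p hp => ?_
    · obtain ⟨hpR, hpK⟩ := mem_filter.1 hp
      exact ⟨(Nat.cast_nonneg K).trans hpK, (not_le.1 (mem_filter.1 hpR).2).le⟩
    obtain ⟨hpR, hpK⟩ := mem_filter.1 hp
    obtain ⟨hpB, -⟩ := mem_filter.1 hpR
    obtain ⟨hpP, hzp⟩ := mem_filter.1 hpB
    have hiK : (K : ℝ) ≤ (⌊lL - Real.log p⌋₊ : ℕ) := by exact_mod_cast Nat.le_floor hpK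
    rw [hQ]
    refine near_one (zp := zi p) hP hpP rfl (hziz p hp) hzp hV hZ hZpos hs₁3 (zero_le_one.trans hA1) hW1 hwpos
      hlw1 (hKs.trans hiK) (hKW.trans hiK) ?_ hupc hed hden
    rw [hdiv p hpB]
    exact Real.exp_le_exp.2 (Nat.floor_le ((Nat.cast_nonneg K).trans hpK))
  -- the primes above the reach of the interval
  have hFcount : ∑ p ∈ F, ((sifted P x L₀ p 0).card : ℝ) ≤ (L₀ : ℝ) * V * (δ / 10) := by
    refine far_class hP ((filter_subset _ _).trans ((filter_subset _ _).trans (filter_subset _ _)))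
      hkdef.symm (Real.exp_pos (K : ℝ)).le (fun p hp => ?_) hfar
    obtain ⟨hpR, hpK⟩ := mem_filter.1 hp
    rw [hdiv p (mem_filter.1 hpR).1]
    exact Real.exp_le_exp.2 (not_le.1 hpK).le
  -- the lower bound
  have hlowcount : (L₀ : ℝ) * V * (1 - δ / 5) ≤ ((sifted P x L₀ 1 z).card : ℝ) := by
    exact main_lower hP hV (Nat.cast_pos.2 hz0) hZ hZpos.le (by linarith only [hs₀40]) hdevl hR hsmall
  have hcover : sifted P x L₀ 1 z ⊆ (M.biUnion (fun p => sifted P x L₀ p z) ∪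
      N.biUnion (fun p => sifted P x L₀ p (zi p))) ∪ F.biUnion (fun p => sifted P x L₀ p 0) := by
    intro m hm
    have hnot : ∃ p ∈ P, z ≤ p ∧ (p : ℤ) ∣ m := by
      by_contra h
      simp only [not_exists, not_and] at h
      exact hnone (exists_coprime_of_sifted hn ⟨m, by rw [← hPdef]; exact hm, fun p hp hzp => h p (hPdef.symm ▸ hp) hzp⟩)
    obtain ⟨p, hp, hzp, hpm⟩ := hnot
    simp only [sifted, mem_filter] at hm
    simp only [Finset.mem_union, Finset.mem_biUnion]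
    have hpB : p ∈ Big := mem_filter.2 ⟨hp, hzp⟩
    by_cases h1 : X₀ ≤ lL - Real.log p
    · exact Or.inl (Or.inl ⟨p, mem_filter.2 ⟨hpB, h1⟩, mem_filter.2 ⟨hm.1, hpm, hm.2.2⟩⟩)
    by_cases h2 : (K : ℝ) ≤ lL - Real.log p
    · have hpN : p ∈ N := mem_filter.2 ⟨mem_filter.2 ⟨hpB, h1⟩, h2⟩
      exact Or.inl (Or.inr ⟨p, hpN, mem_filter.2 ⟨hm.1, hpm,
        fun q hq hqz => hm.2.2 q hq (lt_of_lt_of_le hqz (hziz p hpN))⟩⟩)
    · exact Or.inr ⟨p, mem_filter.2 ⟨mem_filter.2 ⟨hpB, h1⟩, h2⟩, mem_filter.2 ⟨hm.1, hpm,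
        fun q _ hqz => absurd hqz (Nat.not_lt_zero q)⟩⟩
  have hupper : ((sifted P x L₀ 1 z).card : ℝ)
      ≤ ∑ p ∈ M, ((sifted P x L₀ p z).card : ℝ) + ∑ p ∈ N, ((sifted P x L₀ p (zi p)).card : ℝ)
        + ∑ p ∈ F, ((sifted P x L₀ p 0).card : ℝ) := by
    exact_mod_cast (card_le_card hcover).trans ((card_union_le _ _).trans
      (add_le_add ((card_union_le _ _).trans (add_le_add card_biUnion_le card_biUnion_le))
        card_biUnion_le))
  have hLV : 0 < (L₀ : ℝ) * V := by positivity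
  have := mul_nonneg (mul_nonneg hLV.le hδ0.le) hδ0.le
  linarith only [this, hlowcount, hupper, hMcount, hNcount, hFcount, mul_pos hLV hδ0]

theorem thin_top_large (δ : ℝ) (hδ0 : 0 < δ) (hδ1 : δ ≤ 1) :
    ∃ c C : ℝ, 0 < c ∧ 1 ≤ C ∧ ∃ K₀ : ℕ, ∀ n : ℕ, n ≠ 0 → K₀ ≤ n.primeFactors.card →
      (∑ p ∈ n.primeFactors.filter (fun p : ℕ =>
          Real.exp (c * Real.log n.primeFactors.card / Real.log (Real.log n.primeFactors.card))
              < (p : ℝ) ∧ p ≤ n.primeFactors.card), (1 : ℝ) / p) ≤ 1 - δ →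
      ∀ (x : ℤ) (L : ℕ),
        C * n.primeFactors.card
            * min ((n : ℝ) / Nat.totient n) (Real.log (2 * n.primeFactors.card)) ≤ L →
        ∃ m : ℤ, x ≤ m ∧ m < x + L ∧ Int.gcd m n = 1 := by
  classical
  obtain ⟨U₁, -, hlow⟩ := lower_margin (δ / 20) (by linarith)
  obtain ⟨B, hB0, U₂, -, hupm⟩ := upper_margin
  obtain ⟨A₀, U₃, -, hupc⟩ := upper_const
  obtain ⟨U₄, -, hed⟩ := err_and_dens
  obtain ⟨U₅, hU₅, hden⟩ := density_ratio 1 one_pos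
  obtain ⟨Bm, hBm0, hBm⟩ := short_mass
  set A := max A₀ 1 with hA
  have hA1 : 1 ≤ A := le_max_right _ _
  set U := max (max U₁ U₂) (max U₃ (max U₄ U₅)) with hU
  obtain ⟨w, hw⟩ := exists_nat_ge (Real.exp U)
  have hwpos : (0 : ℝ) < w := (Real.exp_pos U).trans_le hw
  have hlw : U ≤ Real.log w := (Real.le_log_iff_exp_le hwpos).2 hw
  simp only [hU, max_le_iff] at hlw
  obtain ⟨⟨hw1, hw2⟩, hw3, hw4, hw5⟩ := hlw
  have hlw1 : 1 ≤ Real.log w := hU₅.trans hw5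
  set W := (2 : ℝ) ^ w with hW
  have hW1 : 1 ≤ W := one_le_pow₀ one_le_two
  set s₀ := 40 / δ with hs₀
  have hs₀40 : 40 ≤ s₀ := by rw [hs₀, le_div_iff₀ hδ0]; linarith
  set s₁ := max 3 (10 * B / δ) with hs₁
  have hs₁3 : 3 ≤ s₁ := le_max_left _ _
  have hBs : B / s₁ ≤ δ / 10 := by
    have := (div_le_iff₀ hδ0).1 (le_max_right 3 (10 * B / δ))
    rw [div_le_iff₀ (by linarith)]
    rw [← hs₁] at this
    linarith
  set K := ⌈16 * s₁ * (Real.log w + 2) + 128 * W⌉₊ with hK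
  have hK1 : 16 * s₁ * (Real.log w + 2) + 128 * W ≤ K := Nat.le_ceil _
  have hKs : 16 * s₁ * (Real.log w + 2) ≤ K := le_trans (le_add_of_nonneg_right (by positivity)) hK1
  have hKW : 128 * W ≤ (K : ℝ) := le_trans (le_add_of_nonneg_left (by positivity)) hK1
  set Q := (A + 1) * (32 * s₁) with hQ
  have hQ0 : 0 < Q := by positivity
  set c := min (1 / (4 * (s₀ + 1))) (min (1 / (32 * s₁)) (δ / (80 * Q * (1 + Bm)))) with hcdef
  have hc0 : 0 < c := lt_min (by positivity) (lt_min (by positivity) (by positivity))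
  have hcs₀ : c * (4 * (s₀ + 1)) ≤ 1 := (le_div_iff₀ (by positivity)).1 (min_le_left _ _)
  have hcs₁ : c * (32 * s₁) ≤ 1 :=
    (le_div_iff₀ (by positivity)).1 ((min_le_right _ _).trans (min_le_left _ _))
  have hcQ : c * (80 * Q * (1 + Bm)) ≤ δ :=
    (le_div_iff₀ (by positivity)).1 ((min_le_right _ _).trans (min_le_right _ _))
  set C := (10 * (Real.exp K + 1) + 20 * W) / δ + 1 with hC
  have hC1 : 1 ≤ C := le_add_of_nonneg_left (by positivity)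
  have hCδ : 10 * (Real.exp K + 1) + 20 * W ≤ C * δ := by
    have e : C * δ = 10 * (Real.exp K + 1) + 20 * W + δ := by rw [hC]; field_simp
    linarith
  set Z₀ := Real.log w + 6 * (10 / δ * (4 * W ^ 2)) + 6 * (4 * C * W + 1) + 2 with hZ₀
  have hZ₀2 : 2 ≤ Z₀ := le_add_of_nonneg_left (by positivity)
  obtain ⟨K₀, hK₀⟩ := eventually_atTop.1 (eventually_scales hc0 (show 0 < Z₀ by linarith))
  refine ⟨c, 2 * W * C, hc0, one_le_mul_of_one_le_of_one_le (by linarith only [hW1]) hC1, max K₀ 2,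
    fun n hn hk hmass x L hL => ?_⟩
  set P := n.primeFactors with hPdef
  set k := P.card with hkdef
  obtain ⟨hℓ1, hlk4, hscale⟩ := hK₀ k ((le_max_left _ _).trans hk)
  have hkpos : 0 < k := lt_of_lt_of_le two_pos ((le_max_right _ _).trans hk)
  have hk0 : (0 : ℝ) < k := by exact_mod_cast hkpos
  have hk1 : (1 : ℝ) ≤ k := by exact_mod_cast hkpos
  set lk := Real.log (k : ℝ) with hlkdef
  set ℓ := Real.log lk with hℓdef
  have hP : ∀ p ∈ P, p.Prime := fun p hp => Nat.prime_of_mem_primeFactors hp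
  -- the sifting limit
  set Y := c * lk / ℓ with hY
  have hYZ : Z₀ ≤ Y := by rw [hY, le_div_iff₀ (by linarith only [hℓ1])]; exact hscale
  have hYlk : Y ≤ c * lk := div_le_self (by positivity) hℓ1
  set z := ⌊Real.exp Y⌋₊ + 1 with hz
  have hz0 : 0 < z := Nat.succ_pos _
  set Z := Real.log (z : ℝ) with hZ
  obtain ⟨hzr, hZlow, hZup⟩ : Real.exp Y < (z : ℝ) ∧ Y ≤ Z ∧ Z ≤ Y + 1 :=
    sift_limit (hZ₀2.trans hYZ)
  have hY2 : 2 ≤ Y := hZ₀2.trans hYZ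
  have hZ2 : Z ≤ 2 * Y := by linarith only [hZup, hY2]
  have hZpos : 0 < Z := by linarith only [hZlow, hY2]
  have hZbig : Z₀ ≤ Z := hYZ.trans hZlow
  have hwz : w ≤ z := by
    have h0 : 0 ≤ 6 * (10 / δ * (4 * W ^ 2)) + 6 * (4 * C * W + 1) := by positivity
    have : Real.log w ≤ Z := by linarith only [h0, hZ₀, hZbig]
    exact_mod_cast (Real.log_le_log_iff hwpos (by exact_mod_cast hz0)).1 this
  have hclk : 0 ≤ c * lk := by positivity
  have hs₀Z : (s₀ + 1) * Z ≤ lk := by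
    have h1 := mul_le_mul_of_nonneg_left (hZ2.trans (mul_le_mul_of_nonneg_left hYlk zero_le_two))
      (show (0 : ℝ) ≤ s₀ + 1 by linarith only [hs₀40])
    have h2 := mul_le_mul_of_nonneg_right hcs₀ (show (0 : ℝ) ≤ lk by linarith only [hlk4])
    have hs₀Zaux : 0 ≤ lk := by linarith only [hlk4]
    linarith only [h1, h2, hs₀Zaux]
  set X₀ := 4 * s₁ * Z with hX₀
  have hX₀lk : X₀ + 1 ≤ lk / 2 := by
    have h1 := mul_le_mul_of_nonneg_left (hZ2.trans (mul_le_mul_of_nonneg_left hYlk zero_le_two))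
      (show (0 : ℝ) ≤ 4 * s₁ by positivity)
    have h2 := mul_le_mul_of_nonneg_right hcs₁ (show (0 : ℝ) ≤ lk by linarith only [hlk4])
    linarith only [h1, h2, hlk4, hX₀]
  obtain ⟨hR, hVlow⟩ := hed P w z hP hw4 hwz
  set V := dens P z with hV
  have hV0 : 0 < V := dens_pos hP z
  have hV1 : V ≤ 1 := dens_le_one hP z
  obtain ⟨hbig1, hbig2⟩ : 10 / δ * (4 * W ^ 2) * Z ^ 2 ≤ Real.exp Z ∧
      (4 * C * W + 1) * Z ^ 2 ≤ Real.exp Z := big_scale hlw1 (by positivity) (by positivity)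
        (by rw [← hZ₀]; exact hZbig)
  have hZℓ : Z * ℓ ≤ 2 * (c * lk) := by
    have := mul_le_mul_of_nonneg_right hZ2 (show 0 ≤ ℓ by linarith only [hℓ1])
    rwa [hY, mul_assoc 2, div_mul_cancel₀ _ (by linarith only [hℓ1] : ℓ ≠ 0)] at this
  have hlogs : ∀ t : ℝ, Real.log (Real.exp (t * Z)) / Real.log (z : ℝ) = t := fun t => by
    rw [Real.log_exp, ← hZ, mul_div_assoc, div_self hZpos.ne', mul_one]
  have hdevu : dev P w z true (Real.exp (s₁ * Z)) ≤ V * (δ / 10) := by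
    have := hupm P w hP hw2 z (Real.exp (s₁ * Z)) hwz (Real.one_le_exp (by positivity))
      (by rw [hlogs]; exact hs₁3)
    rw [hlogs] at this
    exact this.trans (mul_le_mul_of_nonneg_left hBs hV0.le)
  have hdevl : dev P w z false (Real.exp (s₀ * Z)) ≤ V * (δ / 10) := by
    have := hlow P w hP hw1 z (Real.exp (s₀ * Z)) hwz (Real.one_le_exp (by positivity))
      (by rw [hlogs]; linarith only [hs₀40])
    rwa [hlogs, show 2 / s₀ + δ / 20 = δ / 10 by rw [hs₀]; field_simp; ring] at this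
  exact thin_top_core (A := A) (Q := Q) (K := K) (C := C) (c := c) hn hPdef hkdef hδ0 hlkdef
    hℓdef hk1 hlk4 hℓ1 hs₀40 hs₁3 hA1 hW1 hC1 hBm0 hQ hwpos hlw1 hKs hKW hcQ hCδ hz0 hzr hZ
    (hY2.trans hZlow) hs₀Z hX₀ hX₀lk hZℓ hbig1 hbig2 hV hR hVlow hdevu hdevl hBm
    (fun zz D h1 h2 h3 => (hupc P w hP hw3 zz D h1 h2 h3).trans
      (mul_le_mul_of_nonneg_right (le_max_left _ _) (dens_pos hP zz).le))
    (fun zz h1 => hed P w zz hP hw4 h1)
    (fun zz h1 h2 => hden P zz z hP (hw5.trans (Real.log_le_log hwpos (Nat.cast_le.2 h1))) h2)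
    hmass x L hL

/-- A thin top range gives `j n ≪ k * n / φ n`. -/
theorem thin_top (δ : ℝ) (hδ : 0 < δ) :
    ∃ c C : ℝ, 0 < c ∧ ∀ n : ℕ, 1 < n →
      (∑ p ∈ n.primeFactors.filter (fun p : ℕ =>
          Real.exp (c * Real.log n.primeFactors.card / Real.log (Real.log n.primeFactors.card))
              < (p : ℝ) ∧ p ≤ n.primeFactors.card), (1 : ℝ) / p) ≤ 1 - δ →
      ∀ (x : ℤ) (L : ℕ),
        C * n.primeFactors.card
            * min ((n : ℝ) / Nat.totient n) (Real.log (2 * n.primeFactors.card)) ≤ L →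
        ∃ m : ℤ, x ≤ m ∧ m < x + L ∧ Int.gcd m n = 1 := by
  obtain ⟨c, C, hc, hC, K₀, hlarge⟩ := thin_top_large (min δ 1) (lt_min hδ one_pos) (min_le_right _ _)
  refine ⟨c, C + 2 * ((4 : ℝ) ^ K₀ + 1), hc, fun n hn hmass x L hL => ?_⟩
  set k := n.primeFactors.card with hk
  have hk1 : (1 : ℝ) ≤ k := by
    exact_mod_cast Finset.card_pos.2 (Nat.nonempty_primeFactors.2 hn)
  have hφ0 : (0 : ℝ) < Nat.totient n := by exact_mod_cast Nat.totient_pos.2 (by omega)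
  have hm : 1 / 2 ≤ min ((n : ℝ) / Nat.totient n) (Real.log (2 * k)) := by
    refine le_min ?_ ?_
    · rw [le_div_iff₀ hφ0]
      have : (Nat.totient n : ℝ) ≤ n := by exact_mod_cast Nat.totient_le n
      linarith
    · have := Real.log_le_log two_pos (show (2 : ℝ) ≤ 2 * k by linarith)
      linarith [Real.log_two_gt_d9]
  have hkm : 1 / 2 ≤ (k : ℝ) * min ((n : ℝ) / Nat.totient n) (Real.log (2 * k)) :=
    hm.trans (le_mul_of_one_le_left (by linarith) hk1)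
  have h4 : (0 : ℝ) ≤ 4 ^ K₀ + 1 := by positivity
  rcases le_or_gt K₀ k with h | h
  · refine hlarge n (by omega) h (hmass.trans (by linarith [min_le_left δ 1])) x L (le_trans ?_ hL)
    rw [mul_assoc, mul_assoc]
    exact mul_le_mul_of_nonneg_right (by linarith) (by linarith)
  · refine small_bound n (by omega) x L ?_
    have h1 : (4 : ℝ) ^ k ≤ 4 ^ K₀ := pow_le_pow_right₀ (by norm_num) h.le
    rw [mul_assoc] at hL
    have h2 := mul_le_mul_of_nonneg_left hkm (show 0 ≤ C + 2 * ((4 : ℝ) ^ K₀ + 1) by linarith)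
    linarith

end Vale.Agent.P013
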